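import Vale.Agent.P231.S2X.Cong

/-!
# P231, stage 2, ALG-X: the test class and the contradiction
-/

namespace Vale.Agent.P231.S2X

open Finset

noncomputable section

/-! ### symmetric functions of two variables -/

section Sym

variable {H : Type*} [CommRing H] (x1 x2 : H)

/-- complete symmetric functions of two variables -/
def hs (k : ℕ) : H := ∑ i ∈ range (k + 1), x1 ^ i * x2 ^ (k - i)

/-- the weighted version -/
def ks (k : ℕ) : H := ∑ i ∈ range (k + 1), ((i : H) + 1) * (x1 ^ i * x2 ^ (k - i))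

/-- `∑ (a + 1) (b + 1) x1^a x2^b` -/
def gs (n : ℕ) : H := ∑ i ∈ range n, (((i : H) + 1) * ((n : H) - i)) * (x1 ^ i * x2 ^ (n - 1 - i))

theorem hs_succ (k : ℕ) : hs x1 x2 (k + 1) = x2 * hs x1 x2 k + x1 ^ (k + 1) := by
  rw [hs, sum_range_succ, hs, mul_sum, Nat.sub_self, pow_zero, mul_one]
  congr 1
  refine sum_congr rfl fun i hi => ?_
  have hi' : i ≤ k := by simpa [Nat.lt_succ_iff] using hi
  rw [show k + 1 - i = (k - i) + 1 by omega, pow_succ]
  ring

theorem ks_succ (k : ℕ) : ks x1 x2 (k + 1) = x2 * ks x1 x2 k + ((k : H) + 2) * x1 ^ (k + 1) := by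
  rw [ks, sum_range_succ, ks, mul_sum, Nat.sub_self, pow_zero, mul_one]
  congr 1
  · refine sum_congr rfl fun i hi => ?_
    have hi' : i ≤ k := by simpa [Nat.lt_succ_iff] using hi
    rw [show k + 1 - i = (k - i) + 1 by omega, pow_succ]
    ring
  · push_cast
    ring

theorem sub_mul_ks (k : ℕ) :
    (x1 - x2) * ks x1 x2 k = ((k : H) + 2) * x1 ^ (k + 1) - hs x1 x2 (k + 1) := by
  induction k with
  | zero =>
    simp only [ks, hs, zero_add, range_one, sum_singleton, Nat.sub_self, pow_zero, mul_one,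
      Nat.cast_zero, sum_range_succ, pow_one, one_mul, Nat.sub_zero]
    ring
  | succ k ih =>
    rw [ks_succ, mul_add, mul_left_comm, ih, hs_succ x1 x2 (k + 1)]
    push_cast
    ring

theorem gs_succ (n : ℕ) : gs x1 x2 (n + 1) = x2 * gs x1 x2 n + ks x1 x2 n := by
  rw [gs, ks]
  have h1 : ∀ i ∈ range (n + 1), (((i : H) + 1) * (((n + 1 : ℕ) : H) - i)) *
      (x1 ^ i * x2 ^ (n + 1 - 1 - i)) =
      (((i : H) + 1) * ((n : H) - i)) * (x1 ^ i * x2 ^ (n - i)) +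
        ((i : H) + 1) * (x1 ^ i * x2 ^ (n - i)) := by
    intro i _
    rw [Nat.add_sub_cancel]
    push_cast
    ring
  rw [sum_congr rfl h1, sum_add_distrib, sum_range_succ, sub_self, mul_zero, zero_mul, add_zero,
    gs, mul_sum]
  congr 1
  refine sum_congr rfl fun i hi => ?_
  have hi' : i < n := by simpa using hi
  rw [show n - i = (n - 1 - i) + 1 by omega, pow_succ]
  ring

theorem sq_mul_gs (n : ℕ) : (x1 - x2) ^ 2 * gs x1 x2 n =
    2 * ((n : H) + 1) * hs x1 x2 (n + 1) - ((n : H) + 2) * ((x1 + x2) * hs x1 x2 n) := by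
  induction n with
  | zero =>
    simp only [gs, hs, zero_add, range_zero, sum_empty, range_one, sum_singleton, Nat.sub_self,
      pow_zero, mul_one, Nat.cast_zero, sum_range_succ, pow_one, one_mul, Nat.sub_zero]
    ring
  | succ n ih =>
    have h1 : (x1 - x2) ^ 2 * gs x1 x2 (n + 1) = x2 * ((x1 - x2) ^ 2 * gs x1 x2 n) +
        (x1 - x2) * ((x1 - x2) * ks x1 x2 n) := by
      rw [gs_succ]; ring
    rw [h1, ih, sub_mul_ks, hs_succ x1 x2 (n + 1), hs_succ x1 x2 n]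
    push_cast
    ring

end Sym

variable {H : Type*} [CommRing H] [Algebra ℝ H]

/-- the values of the integral -/
structure Val (n : ℕ) (κ : ℝ) (x1 x2 y z : H) (Φ : H →ₗ[ℝ] ℝ) : Prop where
  p1 : ∀ a b, Φ (x1 ^ a * x2 ^ b) = 0
  py : ∀ a b, Φ (x1 ^ a * x2 ^ b * y) = 0
  pz : ∀ a b, Φ (x1 ^ a * x2 ^ b * z) = 0
  pyy : ∀ a b, Φ (x1 ^ a * x2 ^ b * y ^ 2) =
    κ * ((if a + 1 = n ∧ b = n then 1 else 0) - (if a = n ∧ b + 1 = n then 1 else 0))

/-- the generators over the symmetric variables -/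
def qq (y z : H) : Fin 4 → H := ![1, y, z, y ^ 2]

/-- the span of the generators -/
def TT (x1 x2 y z : H) : Submodule ℝ H :=
  Submodule.span ℝ (Set.range fun p : ℕ × ℕ × Fin 4 => x1 ^ p.1 * x2 ^ p.2.1 * qq y z p.2.2)

section Span

variable {x1 x2 y z : H}

theorem TT_gen (a b : ℕ) (i : Fin 4) : x1 ^ a * x2 ^ b * qq y z i ∈ TT x1 x2 y z :=
  Submodule.subset_span ⟨(a, b, i), rfl⟩

theorem TT_g0 (a b : ℕ) : x1 ^ a * x2 ^ b ∈ TT x1 x2 y z := by
  have := TT_gen (x1 := x1) (x2 := x2) (y := y) (z := z) a b 0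
  simpa [qq] using this

theorem TT_g1 (a b : ℕ) : x1 ^ a * x2 ^ b * y ∈ TT x1 x2 y z := by
  have := TT_gen (x1 := x1) (x2 := x2) (y := y) (z := z) a b 1
  simpa [qq] using this

theorem TT_g2 (a b : ℕ) : x1 ^ a * x2 ^ b * z ∈ TT x1 x2 y z := by
  have := TT_gen (x1 := x1) (x2 := x2) (y := y) (z := z) a b 2
  simpa [qq] using this

theorem TT_g3 (a b : ℕ) : x1 ^ a * x2 ^ b * y ^ 2 ∈ TT x1 x2 y z := by
  have := TT_gen (x1 := x1) (x2 := x2) (y := y) (z := z) a b 3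
  simpa [qq] using this

theorem TT_ind {C : H → Prop} (h0 : C 0) (hadd : ∀ u v, C u → C v → C (u + v))
    (hsmul : ∀ (r : ℝ) u, C u → C (r • u)) (g0 : ∀ a b, C (x1 ^ a * x2 ^ b))
    (g1 : ∀ a b, C (x1 ^ a * x2 ^ b * y)) (g2 : ∀ a b, C (x1 ^ a * x2 ^ b * z))
    (g3 : ∀ a b, C (x1 ^ a * x2 ^ b * y ^ 2)) {t : H} (ht : t ∈ TT x1 x2 y z) : C t := by
  induction ht using Submodule.span_induction with
  | mem u hu =>
    obtain ⟨⟨a, b, i⟩, rfl⟩ := hu
    fin_cases i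
    · simpa [qq] using g0 a b
    · simpa [qq] using g1 a b
    · simpa [qq] using g2 a b
    · simpa [qq] using g3 a b
  | zero => exact h0
  | add u v _ _ hu hv => exact hadd u v hu hv
  | smul r u _ hu => exact hsmul r u hu

variable {n : ℕ} {c : ℝ} {s C : ℕ → H}

theorem Rel.mul_y_mem (R : Rel n c x1 x2 y z s C) {t : H} (ht : t ∈ TT x1 x2 y z) :
    t * y ∈ TT x1 x2 y z := by
  have hz2 : z ^ 2 = (2 * c) • (x1 + x2) - y ^ 2 := by rw [← R.sq]; ring
  refine TT_ind (C := fun t => t * y ∈ TT x1 x2 y z) ?_ ?_ ?_ ?_ ?_ ?_ ?_ ht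
  · simp
  · intro u v hu hv; rw [add_mul]; exact add_mem hu hv
  · intro r u hu; rw [smul_mul_assoc]; exact Submodule.smul_mem _ _ hu
  · intro a b; exact TT_g1 a b
  · intro a b
    have : x1 ^ a * x2 ^ b * y * y = x1 ^ a * x2 ^ b * y ^ 2 := by ring
    rw [this]; exact TT_g3 a b
  · intro a b
    have : x1 ^ a * x2 ^ b * z * y = x1 ^ (a + 1) * x2 ^ b - x1 ^ a * x2 ^ (b + 1) := by
      have h1 : x1 ^ a * x2 ^ b * z * y = x1 ^ a * x2 ^ b * (y * z) := by ring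
      rw [h1, R.yz]; ring
    rw [this]; exact sub_mem (TT_g0 _ _) (TT_g0 _ _)
  · intro a b
    have : x1 ^ a * x2 ^ b * y ^ 2 * y = (2 * c) • (x1 ^ (a + 1) * x2 ^ b * y) +
        (2 * c) • (x1 ^ a * x2 ^ (b + 1) * y) - x1 ^ (a + 1) * x2 ^ b * z +
        x1 ^ a * x2 ^ (b + 1) * z := by
      have h1 : x1 ^ a * x2 ^ b * y ^ 2 * y = x1 ^ a * x2 ^ b * (y ^ 2 + z ^ 2) * y -
          x1 ^ a * x2 ^ b * (y * z) * z := by ring
      rw [h1, R.sq, R.yz]
      simp only [Algebra.smul_def]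
      ring
    rw [this]
    exact add_mem (sub_mem (add_mem (Submodule.smul_mem _ _ (TT_g1 _ _))
      (Submodule.smul_mem _ _ (TT_g1 _ _))) (TT_g2 _ _)) (TT_g2 _ _)

theorem Rel.mul_z_mem (R : Rel n c x1 x2 y z s C) {t : H} (ht : t ∈ TT x1 x2 y z) :
    t * z ∈ TT x1 x2 y z := by
  refine TT_ind (C := fun t => t * z ∈ TT x1 x2 y z) ?_ ?_ ?_ ?_ ?_ ?_ ?_ ht
  · simp
  · intro u v hu hv; rw [add_mul]; exact add_mem hu hv
  · intro r u hu; rw [smul_mul_assoc]; exact Submodule.smul_mem _ _ hu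
  · intro a b; exact TT_g2 a b
  · intro a b
    have : x1 ^ a * x2 ^ b * y * z = x1 ^ (a + 1) * x2 ^ b - x1 ^ a * x2 ^ (b + 1) := by
      have h1 : x1 ^ a * x2 ^ b * y * z = x1 ^ a * x2 ^ b * (y * z) := by ring
      rw [h1, R.yz]; ring
    rw [this]; exact sub_mem (TT_g0 _ _) (TT_g0 _ _)
  · intro a b
    have : x1 ^ a * x2 ^ b * z * z = (2 * c) • (x1 ^ (a + 1) * x2 ^ b) +
        (2 * c) • (x1 ^ a * x2 ^ (b + 1)) - x1 ^ a * x2 ^ b * y ^ 2 := by
      have h1 : x1 ^ a * x2 ^ b * z * z = x1 ^ a * x2 ^ b * (y ^ 2 + z ^ 2) -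
          x1 ^ a * x2 ^ b * y ^ 2 := by ring
      rw [h1, R.sq]
      simp only [Algebra.smul_def]
      ring
    rw [this]
    exact sub_mem (add_mem (Submodule.smul_mem _ _ (TT_g0 _ _))
      (Submodule.smul_mem _ _ (TT_g0 _ _))) (TT_g3 _ _)
  · intro a b
    have : x1 ^ a * x2 ^ b * y ^ 2 * z = x1 ^ (a + 1) * x2 ^ b * y - x1 ^ a * x2 ^ (b + 1) * y := by
      have h1 : x1 ^ a * x2 ^ b * y ^ 2 * z = x1 ^ a * x2 ^ b * (y * z) * y := by ring
      rw [h1, R.yz]; ring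
    rw [this]; exact sub_mem (TT_g1 _ _) (TT_g1 _ _)

theorem Rel.le_TT (R : Rel n c x1 x2 y z s C) {w : H} (hw : w ∈ Ayz y z) :
    w ∈ TT x1 x2 y z := by
  have h : ∀ t ∈ TT x1 x2 y z, t * w ∈ TT x1 x2 y z := by
    induction hw using Algebra.adjoin_induction with
    | mem u hu =>
      rcases hu with rfl | hu
      · exact fun t ht => R.mul_y_mem ht
      · rw [Set.mem_singleton_iff] at hu
        subst hu
        exact fun t ht => R.mul_z_mem ht
    | algebraMap r =>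
      intro t ht
      rw [mul_comm, ← Algebra.smul_def]
      exact Submodule.smul_mem _ _ ht
    | add u v _ _ hu hv =>
      intro t ht
      rw [mul_add]
      exact add_mem (hu t ht) (hv t ht)
    | mul u v _ _ hu hv =>
      intro t ht
      rw [← mul_assoc]
      exact hv _ (hu t ht)
  have h1 : (1 : H) ∈ TT x1 x2 y z := by
    have := TT_g0 (x1 := x1) (x2 := x2) (y := y) (z := z) 0 0
    simpa using this
  have := h 1 h1
  rwa [one_mul] at this

end Span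

section Phi

variable {n : ℕ} {κ : ℝ} {x1 x2 y z : H} {Φ : H →ₗ[ℝ] ℝ}

theorem sum_ite_eq {n k a b : ℕ} (hk : n ≤ k) :
    ∑ i ∈ range (k + 1), ((if a + i + 1 = n ∧ b + (k - i) = n then (1 : ℝ) else 0) -
      (if a + i = n ∧ b + (k - i) + 1 = n then 1 else 0)) = 0 := by
  rw [sum_sub_distrib]
  by_cases h : k + a + b + 1 = 2 * n
  · have h1 : ∑ i ∈ range (k + 1), (if a + i + 1 = n ∧ b + (k - i) = n then (1 : ℝ) else 0) = 1 := by
      rw [sum_eq_single (n - 1 - a)]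
      · rw [if_pos]; omega
      · intro i _ hi
        rw [if_neg]
        omega
      · intro hi
        exfalso
        apply hi
        rw [mem_range]
        omega
    have h2 : ∑ i ∈ range (k + 1), (if a + i = n ∧ b + (k - i) + 1 = n then (1 : ℝ) else 0) = 1 := by
      rw [sum_eq_single (n - a)]
      · rw [if_pos]; omega
      · intro i _ hi
        rw [if_neg]
        omega
      · intro hi
        exfalso
        apply hi
        rw [mem_range]
        omega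
    rw [h1, h2, sub_self]
  · have h1 : ∀ i ∈ range (k + 1), (if a + i + 1 = n ∧ b + (k - i) = n then (1 : ℝ) else 0) = 0 := by
      intro i hi
      rw [mem_range] at hi
      rw [if_neg]
      omega
    have h2 : ∀ i ∈ range (k + 1), (if a + i = n ∧ b + (k - i) + 1 = n then (1 : ℝ) else 0) = 0 := by
      intro i hi
      rw [mem_range] at hi
      rw [if_neg]
      omega
    rw [sum_eq_zero h1, sum_eq_zero h2, sub_self]

theorem Val.hs_mul (V : Val n κ x1 x2 y z Φ) {k : ℕ} (hk : n ≤ k) {t : H}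
    (ht : t ∈ TT x1 x2 y z) : Φ (hs x1 x2 k * t) = 0 := by
  have hexp : ∀ u : H, hs x1 x2 k * u = ∑ i ∈ range (k + 1), x1 ^ i * x2 ^ (k - i) * u := by
    intro u; rw [hs, sum_mul]
  refine TT_ind (C := fun t => Φ (hs x1 x2 k * t) = 0) ?_ ?_ ?_ ?_ ?_ ?_ ?_ ht
  · simp
  · intro u v hu hv; rw [mul_add, map_add, hu, hv, add_zero]
  · intro r u hu; rw [mul_smul_comm, map_smul, hu, smul_zero]
  · intro a b
    rw [hexp, map_sum]
    refine sum_eq_zero fun i _ => ?_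
    have : x1 ^ i * x2 ^ (k - i) * (x1 ^ a * x2 ^ b) = x1 ^ (a + i) * x2 ^ (b + (k - i)) := by
      rw [pow_add, pow_add]; ring
    rw [this, V.p1]
  · intro a b
    rw [hexp, map_sum]
    refine sum_eq_zero fun i _ => ?_
    have : x1 ^ i * x2 ^ (k - i) * (x1 ^ a * x2 ^ b * y) =
        x1 ^ (a + i) * x2 ^ (b + (k - i)) * y := by
      rw [pow_add, pow_add]; ring
    rw [this, V.py]
  · intro a b
    rw [hexp, map_sum]
    refine sum_eq_zero fun i _ => ?_
    have : x1 ^ i * x2 ^ (k - i) * (x1 ^ a * x2 ^ b * z) =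
        x1 ^ (a + i) * x2 ^ (b + (k - i)) * z := by
      rw [pow_add, pow_add]; ring
    rw [this, V.pz]
  · intro a b
    rw [hexp, map_sum]
    have h1 : ∀ i ∈ range (k + 1), Φ (x1 ^ i * x2 ^ (k - i) * (x1 ^ a * x2 ^ b * y ^ 2)) =
        κ * ((if a + i + 1 = n ∧ b + (k - i) = n then (1 : ℝ) else 0) -
          (if a + i = n ∧ b + (k - i) + 1 = n then 1 else 0)) := by
      intro i _
      have : x1 ^ i * x2 ^ (k - i) * (x1 ^ a * x2 ^ b * y ^ 2) =
          x1 ^ (a + i) * x2 ^ (b + (k - i)) * y ^ 2 := by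
        rw [pow_add, pow_add]; ring
      rw [this, V.pyy]
    rw [sum_congr rfl h1, ← mul_sum, sum_ite_eq hk, mul_zero]

/-- the test class -/
def mm (n : ℕ) (c : ℝ) (x1 x2 z : H) : H :=
  (2 * c) • (z ^ 2 * gs x1 x2 n) + ((n : H) + 2) * hs x1 x2 n

variable {c : ℝ} {s C : ℕ → H}

theorem Rel.sq_mul_mm (R : Rel n c x1 x2 y z s C) : y ^ 2 * mm n c x1 x2 z =
    (4 * c * (n + 1)) • hs x1 x2 (n + 1) - ((n : H) + 2) * (hs x1 x2 n * z ^ 2) := by
  have h1 : y ^ 2 * mm n c x1 x2 z = (2 * c) • ((y * z) ^ 2 * gs x1 x2 n) +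
      ((n : H) + 2) * (y ^ 2 * hs x1 x2 n) := by
    rw [mm]
    simp only [Algebra.smul_def]
    ring
  rw [h1, R.yz, sq_mul_gs]
  have h2 : z ^ 2 = (2 * c) • (x1 + x2) - y ^ 2 := by rw [← R.sq]; ring
  rw [h2]
  simp only [Algebra.smul_def, map_mul, map_add, map_one, map_natCast, map_ofNat]
  ring

/-- the test functional vanishes on multiples of `y²` -/
theorem Rel.test_sq (R : Rel n c x1 x2 y z s C) (V : Val n κ x1 x2 y z Φ) {w : H}
    (hw : w ∈ Ayz y z) : Φ (y ^ 2 * w * mm n c x1 x2 z) = 0 := by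
  have h1 : y ^ 2 * w * mm n c x1 x2 z = (4 * c * (n + 1)) • (hs x1 x2 (n + 1) * w) -
      ((n : ℝ) + 2) • (hs x1 x2 n * (z ^ 2 * w)) := by
    have : y ^ 2 * w * mm n c x1 x2 z = y ^ 2 * mm n c x1 x2 z * w := by ring
    rw [this, R.sq_mul_mm]
    simp only [Algebra.smul_def, map_mul, map_add, map_one, map_natCast, map_ofNat]
    ring
  rw [h1, map_sub, map_smul, map_smul, V.hs_mul (by omega) (R.le_TT hw),
    V.hs_mul le_rfl (R.le_TT (mul_mem (pow_mem z_mem _) hw)), smul_zero, smul_zero, sub_zero]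

theorem Rel.x1_mem (R : Rel n c x1 x2 y z s C) : x1 ∈ Ayz y z := by
  rw [R.x1_eq]
  exact add_mem ((Ayz y z).smul_mem (add_mem (pow_mem y_mem _) (pow_mem z_mem _)) _)
    ((Ayz y z).smul_mem (mul_mem y_mem z_mem) _)

theorem Rel.x2_mem (R : Rel n c x1 x2 y z s C) : x2 ∈ Ayz y z := by
  rw [R.x2_eq]
  exact sub_mem ((Ayz y z).smul_mem (add_mem (pow_mem y_mem _) (pow_mem z_mem _)) _)
    ((Ayz y z).smul_mem (mul_mem y_mem z_mem) _)

/-- `(a + b)^k ≡ a^k mod b` -/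
theorem exists_pow_add {S : Subalgebra ℝ H} {a b : H} (ha : a ∈ S) (hb : b ∈ S) (k : ℕ) :
    ∃ w ∈ S, (a + b) ^ k = a ^ k + b * w := by
  induction k with
  | zero => exact ⟨0, zero_mem _, by simp⟩
  | succ k ih =>
    obtain ⟨w, hw, h⟩ := ih
    refine ⟨a ^ k + w * (a + b), add_mem (pow_mem ha _) (mul_mem hw (add_mem ha hb)), ?_⟩
    rw [pow_succ, h, pow_succ]
    ring

/-- the value of the test functional -/
theorem Rel.test_top (R : Rel n c x1 x2 y z s C) (V : Val n κ x1 x2 y z Φ) (hn : 2 ≤ n) :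
    Φ (y * z ^ (2 * n - 1) * mm n c x1 x2 z) = (4 * c) ^ n * κ := by
  obtain ⟨k, rfl⟩ : ∃ k, n = k + 1 := ⟨n - 1, by omega⟩
  -- first reduction
  have hz2 : z ^ 2 = (2 * c) • (x1 + x2) + -y ^ 2 := by rw [← R.sq]; ring
  obtain ⟨w, hw, h1⟩ := exists_pow_add (S := Ayz y z) (a := (2 * c) • (x1 + x2)) (b := -y ^ 2)
    ((Ayz y z).smul_mem (add_mem R.x1_mem R.x2_mem) _) (neg_mem (pow_mem y_mem _)) k
  obtain ⟨v, hv, h2⟩ := exists_pow_add (S := Ayz y z) (a := (2 : ℝ) • x1) (b := -(x1 - x2))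
    ((Ayz y z).smul_mem R.x1_mem _) (neg_mem (sub_mem R.x1_mem R.x2_mem)) k
  have h2' : (2 : ℝ) • x1 + -(x1 - x2) = x1 + x2 := by rw [two_smul]; ring
  rw [h2'] at h2
  have h3 : y * z ^ (2 * (k + 1) - 1) = (x1 - x2) * (z ^ 2) ^ k := by
    rw [show 2 * (k + 1) - 1 = 2 * k + 1 by omega, pow_succ, pow_mul, ← R.yz]
    ring
  have h4 : y * z ^ (2 * (k + 1) - 1) = (4 * c) ^ k • ((x1 - x2) * x1 ^ k) +
      y ^ 2 * (-((2 * c) ^ k • (z ^ 2 * v)) - (x1 - x2) * w) := by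
    have h1' : (z ^ 2) ^ k = (2 * c) ^ k • ((2 : ℝ) ^ k • x1 ^ k + -(x1 - x2) * v) +
        -y ^ 2 * w := by
      rw [hz2, h1, smul_pow, h2, smul_pow]
    rw [h3, h1']
    have e1 : (4 * c) ^ k = (2 * c) ^ k * 2 ^ k := by rw [← mul_pow]; ring
    have e2 : y ^ 2 * z ^ 2 = (x1 - x2) * (x1 - x2) := by rw [← R.yz]; ring
    rw [e1]
    simp only [Algebra.smul_def, map_mul]
    linear_combination (algebraMap ℝ H ((2 * c) ^ k)) * v * e2
  have hmem : -((2 * c) ^ k • (z ^ 2 * v)) - (x1 - x2) * w ∈ Ayz y z :=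
    sub_mem (neg_mem ((Ayz y z).smul_mem (mul_mem (pow_mem z_mem _) hv) _))
      (mul_mem (sub_mem R.x1_mem R.x2_mem) hw)
  rw [h4, add_mul, map_add, R.test_sq V hmem, add_zero, smul_mul_assoc, map_smul]
  -- the main term
  have h5 : (x1 - x2) * x1 ^ k * mm (k + 1) c x1 x2 z =
      (4 * c ^ 2) • ((x1 - x2) * x1 ^ k * (x1 + x2) * gs x1 x2 (k + 1)) -
        (2 * c) • ((x1 - x2) * x1 ^ k * gs x1 x2 (k + 1) * y ^ 2) +
        ((((k + 1 : ℕ) : ℝ) + 2)) • (hs x1 x2 (k + 1) * ((x1 - x2) * x1 ^ k)) := by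
    rw [mm, hz2]
    simp only [Algebra.smul_def, map_mul, map_add, map_pow, map_natCast, map_ofNat]
    ring
  have hS : ∀ f : H, (∃ F : Finset ℕ, ∃ r : ℕ → ℝ, ∃ a b : ℕ → ℕ,
      f = ∑ i ∈ F, r i • (x1 ^ a i * x2 ^ b i)) → Φ f = 0 := by
    rintro f ⟨F, r, a, b, rfl⟩
    rw [map_sum]
    refine sum_eq_zero fun i _ => ?_
    rw [map_smul, V.p1, smul_zero]
  have h6 : Φ ((x1 - x2) * x1 ^ k * (x1 + x2) * gs x1 x2 (k + 1)) = 0 := by
    rw [gs, mul_sum, map_sum]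
    refine sum_eq_zero fun i _ => ?_
    have : (x1 - x2) * x1 ^ k * (x1 + x2) * ((((i : H) + 1) * (((k + 1 : ℕ) : H) - i)) *
        (x1 ^ i * x2 ^ (k + 1 - 1 - i))) = (((i : ℝ) + 1) * (((k + 1 : ℕ) : ℝ) - i)) •
        (x1 ^ (k + i + 2) * x2 ^ (k + 1 - 1 - i)) - (((i : ℝ) + 1) * (((k + 1 : ℕ) : ℝ) - i)) •
        (x1 ^ (k + i) * x2 ^ (k + 1 - 1 - i + 2)) := by
      simp only [Algebra.smul_def, map_mul, map_add, map_sub, map_natCast, map_one]
      ring
    rw [this, map_sub, map_smul, map_smul, V.p1, V.p1, smul_zero, sub_zero]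
  have h7 : Φ ((x1 - x2) * x1 ^ k * gs x1 x2 (k + 1) * y ^ 2) = -2 * κ := by
    have e : ∀ i : ℕ, (x1 - x2) * x1 ^ k * ((((i : H) + 1) * (((k + 1 : ℕ) : H) - i)) *
        (x1 ^ i * x2 ^ (k + 1 - 1 - i))) * y ^ 2 = (((i : ℝ) + 1) * (((k + 1 : ℕ) : ℝ) - i)) •
        (x1 ^ (k + i + 1) * x2 ^ (k - i) * y ^ 2) -
        (((i : ℝ) + 1) * (((k + 1 : ℕ) : ℝ) - i)) • (x1 ^ (k + i) * x2 ^ (k - i + 1) * y ^ 2) := by
      intro i
      rw [Nat.add_sub_cancel]
      simp only [Algebra.smul_def, map_mul, map_add, map_sub, map_natCast, map_one]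
      ring
    rw [gs, mul_sum, sum_mul, map_sum]
    have e2 : ∀ i ∈ range (k + 1), Φ ((x1 - x2) * x1 ^ k *
        ((((i : H) + 1) * (((k + 1 : ℕ) : H) - i)) * (x1 ^ i * x2 ^ (k + 1 - 1 - i))) * y ^ 2) =
        (if i = 0 then -2 * ((k : ℝ) + 1) * κ else 0) + (if i = 1 then 2 * (k : ℝ) * κ else 0) := by
      intro i hi
      have hi' : i ≤ k := by simpa [Nat.lt_succ_iff] using hi
      rw [e, map_sub, map_smul, map_smul, V.pyy, V.pyy, smul_eq_mul, smul_eq_mul]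
      have c1 : (if k + i + 1 + 1 = k + 1 ∧ k - i = k + 1 then (1 : ℝ) else 0) = 0 :=
        if_neg (by omega)
      have c2 : (if k + i + 1 = k + 1 ∧ k - i + 1 = k + 1 then (1 : ℝ) else 0) =
          if i = 0 then 1 else 0 := if_congr (by omega) rfl rfl
      have c4 : (if k + i = k + 1 ∧ k - i + 1 + 1 = k + 1 then (1 : ℝ) else 0) =
          if i = 1 then 1 else 0 := if_congr (by omega) rfl rfl
      rw [c1, c2, c4]
      by_cases hi0 : i = 0
      · subst hi0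
        rw [if_pos rfl, if_pos rfl, if_neg (by omega), if_neg (by omega)]
        push_cast
        ring
      · rw [if_neg hi0, if_neg hi0]
        by_cases hi1 : i = 1
        · subst hi1
          rw [if_pos rfl, if_pos rfl]
          push_cast
          ring
        · rw [if_neg hi1, if_neg hi1]
          ring
    rw [sum_congr rfl e2, sum_add_distrib, sum_ite_eq' (range (k + 1)) 0,
      sum_ite_eq' (range (k + 1)) 1, if_pos (by simp), if_pos (by rw [mem_range]; omega)]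
    ring
  rw [h5, map_add, map_sub, map_smul, map_smul, map_smul, h6, h7,
    V.hs_mul le_rfl (R.le_TT (mul_mem (sub_mem R.x1_mem R.x2_mem) (pow_mem R.x1_mem _)))]
  simp only [smul_eq_mul]
  ring

/-- **ALG-X**: for `|c| ≥ 3` the Chern class `c_{2n-1}(X)` does not vanish. -/
theorem algX (hn : 2 ≤ n) (hc : 3 ≤ |c|) (hκ : κ ≠ 0) (R : Rel n c x1 x2 y z s C)
    (V : Val n κ x1 x2 y z Φ) : C (2 * n - 1) ≠ 0 := by
  intro h0
  obtain ⟨w, hw, h⟩ := R.cg_C (j := 2 * n - 1) le_rfl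
  rw [h0, mul_zero] at h
  have h1 := congrArg (fun a => Φ (a * mm n c x1 x2 z)) h
  beta_reduce at h1
  rw [zero_mul, map_zero, add_mul, map_add, R.test_sq V hw, add_zero, smul_mul_assoc, map_smul,
    R.test_top V hn, smul_eq_mul] at h1
  have h2 : (4 * c) ^ n * κ ≠ 0 := mul_ne_zero (pow_ne_zero _ (by simpa using R.hc)) hκ
  exact ee_last_ne_zero hn hc ((mul_eq_zero.1 h1.symm).resolve_right h2)

end Phi

end

end Vale.Agent.P231.S2X
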