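import Vale.Agent.P231.S2X.Fib3
import Vale.Agent.P231.S2T.Deg

/-!
# P231, stage 2, S2-X: the class of the second line
-/

set_option maxSynthPendingDepth 3
set_option linter.unusedSectionVars false
set_option linter.unusedVariables false

open Bundle Manifold Set Filter Module Matrix
open scoped ContDiff Manifold Topology

namespace Vale.Agent.P231.S2X

noncomputable section

open Vale.Agent.P234 Vale.Agent.P231 Vale.Agent.P231.Fm Vale.Agent.P231.W Vale.Agent.P231.WR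
open Vale.Agent.P231.S2II Vale.Agent.P231.H649 Vale.Agent.P231.X3 Vale.Agent.P231.ChW

variable {E : Type*} [NormedAddCommGroup E] [NormedSpace ℝ E]
  {M : Type*} [MetricSpace M] [ChartedSpace E M]
  [RiemannianBundle (fun x : M => TangentSpace 𝓘(ℝ, E) x)]
  {e : ∀ x : M, TangentSpace 𝓘(ℝ, E) x → M}
  [FiniteDimensional ℝ E] [IsManifold 𝓘(ℝ, E) ∞ M]
  [IsContMDiffRiemannianBundle 𝓘(ℝ, E) ∞ E (fun x : M => TangentSpace 𝓘(ℝ, E) x)]
  [CompactSpace M] [ConnectedSpace M] [IsRiemannianManifold 𝓘(ℝ, E) M]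
  {D : ℝ} {K : ℕ}

/-! ### the second line is hermitian -/

theorem lF_tr (P : PF E M K) (p : Pr e D) : (lF P p)ᵀ = lF P p := by
  ext i j
  simp only [Matrix.transpose_apply, lF]
  ring

theorem qF_tr (P : PF E M K) (p : Pr e D) : (qF P p)ᵀ = qF P p := by
  rw [qF, Matrix.transpose_sub, pF_tr, lF_tr]

theorem jm_tr (G : Geo e D 3) (P : PF E M K) {b : Form (dPr e D)}
    (hb : Orn G.F G.hD G.hB G.hdiam (l := 3) b) (p : Pr e D) :
    (jm G P hb p)ᵀ = -jm G P hb p := by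
  ext i j
  simp only [Matrix.transpose_apply, Matrix.neg_apply, jm, PF.mat]
  rw [ip_comm', ip_Jq]

theorem herm_Mm (G : Geo e D 3) (P : PF E M K) {b : Form (dPr e D)}
    (hb : Orn G.F G.hD G.hB G.hdiam (l := 3) b) :
    (cM (Mm P (jm G P hb)) (sm_Mm G P (lp P hb)))ᵀ =
      cj (cM (Mm P (jm G P hb)) (sm_Mm G P (lp P hb))) := by
  rw [cj_cM, cM_transpose]
  refine cM_congr _ _ fun p => ?_
  rw [Mm, eig, Matrix.transpose_smul, Matrix.transpose_sub, Matrix.transpose_smul,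
    cplx_transpose, cplx_transpose, qF_tr, jm_tr, cplx_neg]
  ext i j
  simp only [Matrix.smul_apply, Matrix.sub_apply, Matrix.neg_apply, Matrix.map_apply, cplx_apply,
    smul_eq_mul, map_mul, map_sub, Complex.conj_ofReal, Complex.conj_I, map_div₀, map_one,
    map_ofNat]
  ring

section Cls

variable {p : M}
  {Pi : TangentSpace 𝓘(ℝ, E) p → TangentSpace 𝓘(ℝ, E) p →L[ℝ] TangentSpace 𝓘(ℝ, E) p}
  {o : TangentSpace 𝓘(ℝ, E) p → Fm.Lam (TangentSpace 𝓘(ℝ, E) p)}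
  {ρ : TangentSpace 𝓘(ℝ, E) p → ℝ} {r₀ : ℝ}
  (G : Geo e D 3) (P : PF E M K) (hJ : FE.LineP e D p 1 Pi o) (hρ : WE.Rho e D p ρ r₀)

/-- the closed form of `M` -/
abbrev Om (a : ℝ) : Form (dM E M) := FE.FF G.F G.hD G.hB G.hdiam G.hP hJ hρ a

theorem zF_deg (a : ℝ) : Form.IsDeg 2 (zF G hJ hρ a) :=
  (b0P_isDeg G.F G.hD G.hB G.hdiam (l := 3) (by norm_num)
    (isDeg_FF G.F G.hD G.hB G.hdiam (n := 1) G.hP hJ hρ a)).smul _

theorem zF_d (a : ℝ) : (zF G hJ hρ a).d = 0 := by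
  rw [zF, Form.d_smul, b0P_d G.F G.hD G.hB G.hdiam (FE.FF_d G.F G.hD G.hB G.hdiam G.hP hJ hρ a),
    smul_zero]

theorem zF_basic (a : ℝ) : Basic G.R G.map_R (zF G hJ hρ a) :=
  H584.Basic.smul _ (H584.J_basic G.isFlow_R _)

/-- the form `z` in the ring of basic forms -/
def zB (a : ℝ) : H584.Bas G.R G.map_R :=
  ⟨zF G hJ hρ a, (zF_deg G hJ hρ a).sg_of_even (by decide), zF_d G hJ hρ a,
    zF_basic G hJ hρ a⟩

/-- **the first Chern class of the second line is `z`** -/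
theorem qc_Mm [Nontrivial E] {a : ℝ} (ha : 0 < a)
    (hb : Orn G.F G.hD G.hB G.hdiam (l := 3)
      (L3.b0P G.F G.hD G.hB G.hdiam (Om G hJ hρ a)))
    (H0 : ∀ w : Form (dPr e D), Form.IsDeg 0 w → w.d = 0 → ∃ r : ℝ, w = r • 1)
    (H2 : ∀ w : Form (dPr e D), Form.IsDeg 2 w → w.d = 0 → ∃ (c : ℝ) (η : Form (dPr e D)),
      w = c • L3.b0P G.F G.hD G.hB G.hdiam (Om G hJ hρ a) + η.d) :
    (ib_Mm G P (lp P hb)).qc 1 = Cx.of (qm G.R G.map_R (zB G hJ hρ a)) := by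
  rw [ChW.IB.qc, ChW.IB.cl_herm (ib_Mm G P (lp P hb)) (herm_Mm G P hb) 1, mapR_of]
  congr 1
  set ζ : Form (dPr e D) := sF 1 (cM (Mm P (jm G P hb)) (sm_Mm G P (lp P hb))) - zF G hJ hρ a
    with hζ
  have hbas : Basic G.R G.map_R ζ :=
    H584.Basic.sub (sF_basic (ib_Mm G P (lp P hb)).bas 1) (zF_basic G hJ hρ a)
  have hdeg : Form.IsDeg 2 ζ :=
    (S2T.isDeg_sF (S2T.degM_cM (sm_Mm G P (lp P hb))) 1).sub (zF_deg G hJ hρ a)
  have hd : ζ.d = 0 := by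
    rw [hζ, Form.d_sub, sF_closed (ib_Mm G P (lp P hb)).idem 1, zF_d, sub_zero]
  have hfib : FibZ p ζ := by
    intro q X _ _ _ Q x hQ hpq
    rw [hζ, Form.sub_val, sub_eq_zero]
    exact zeta_fib G P hJ hρ ha hb hQ hpq
  obtain ⟨c, η, hη⟩ := H2 ζ hdeg hd
  have h1 := coef_zero G hb hη hfib
  obtain ⟨ρ', h2, h3⟩ := exact_of_fibZ G (nu_R G P) (nu_sg P) H0 hbas hdeg h1 hfib
  exact qm_eq_of h2 h3

/-- the class `z` changes its sign under the half period -/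
theorem hbPull_z (a : ℝ) : hbPull G.map_Th G.Th_R (qm G.R G.map_R (zB G hJ hρ a)) =
    -qm G.R G.map_R (zB G hJ hρ a) := by
  rw [hbPull_qm, ← map_neg]
  congr 1
  refine Subtype.ext ?_
  change Form.pull G.Th G.map_Th (zF G hJ hρ a) = -zF G hJ hρ a
  have h1 := b0P_Th G.F G.hD G.hB G.hdiam (Om G hJ hρ a)
  refine (map_smul (Form.pullA G.Th G.map_Th) _ _).trans ?_
  refine (congrArg _ h1).trans ?_
  rw [smul_neg, zF]

end Cls

end

end Vale.Agent.P231.S2X
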