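import Vale.Agent.P231.H29.Pos2
import Vale.Agent.P231.X3.Dat

/-!
# P231, stage 2, ALG-X for an integer `c`: `|c| ≤ 1`
-/

set_option maxSynthPendingDepth 3
set_option linter.unusedSectionVars false
set_option linter.unusedVariables false

open Finset

namespace Vale.Agent.P231.S2X

/-- **the coefficient does not vanish**, integer version -/
theorem ee_last_ne_zero_int {n : ℕ} (hn : 2 ≤ n) {c : ℤ} (hc : 2 ≤ |c|) :
    ee n (c : ℝ) (2 * n - 1) ≠ 0 := by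
  have hc0 : (c : ℝ) ≠ 0 := by
    intro h
    have h1 : c = 0 := by exact_mod_cast h
    rw [h1, abs_zero] at hc
    omega
  have h := H29.main_int n hn c hc (PZ n c) (fun i hi => PZ_neg n c hi)
    (by rw [PZ_of n c (k := 0) (by simp), pp, ee_zero, pow_zero, one_mul])
    (fun j h1 _ => rec_PZ hc0 n j h1)
  rw [PZ_of n c (k := 2 * n - 1) (by omega), pp] at h
  intro h0
  rw [h0, mul_zero] at h
  exact lt_irrefl _ h

/-- **ALG-X**: for an integer `c` with `|c| ≥ 2` the Chern class `c_{2n-1}(X)` does not vanish. -/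
theorem algX_int {H : Type*} [CommRing H] [Algebra ℝ H] {x1 x2 y z : H} {n : ℕ} {κ : ℝ}
    {Φ : H →ₗ[ℝ] ℝ} {c : ℤ} {s C : ℕ → H} (hn : 2 ≤ n) (hc : 2 ≤ |c|) (hκ : κ ≠ 0)
    (R : Rel n (c : ℝ) x1 x2 y z s C) (V : Val n κ x1 x2 y z Φ) : C (2 * n - 1) ≠ 0 := by
  intro h0
  obtain ⟨w, hw, h⟩ := R.cg_C (j := 2 * n - 1) le_rfl
  rw [h0, mul_zero] at h
  have h1 := congrArg (fun a => Φ (a * mm n (c : ℝ) x1 x2 z)) h
  beta_reduce at h1
  rw [zero_mul, map_zero, add_mul, map_add, R.test_sq V hw, add_zero, smul_mul_assoc, map_smul,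
    R.test_top V hn, smul_eq_mul] at h1
  have h2 : (4 * (c : ℝ)) ^ n * κ ≠ 0 := mul_ne_zero (pow_ne_zero _ (by simpa using R.hc)) hκ
  exact ee_last_ne_zero_int hn hc ((mul_eq_zero.1 h1.symm).resolve_right h2)

end Vale.Agent.P231.S2X

namespace Vale.Agent.P231.ChW

open Fm W Matrix
open scoped ContDiff

variable {X : Type*} {D : Dif X} {n m : Type*} [Fintype n] [DecidableEq n] [Fintype m]
  [DecidableEq m] {Φ : X × ℝ → X} {hΦ : (D.prod (Dif.lin ℝ)).Map D Φ} {N : ℕ} {c : ℤ}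
  {x1 x2 y z : Hb Φ hΦ} {T1 P1 T2 P2 : Matrix n n (Form D)}
  {L1 M1 W L2 M2 Z H : Matrix n n (CF D)} {L : Matrix m m (CF D)}
  {a : Matrix n (m × n) (CF D)} {b : Matrix (m × n) n (CF D)}

/-- **the end of the bundle argument**, integer version -/
theorem Bun.abs_le_one (h : Bun Φ hΦ N (c : ℝ) x1 x2 y z T1 P1 T2 P2 L1 M1 W L2 M2 Z H L a b)
    (hN : 2 ≤ N) (hyz : y * z = x1 - x2)
    (hsq : y ^ 2 + z ^ 2 = (2 * (c : ℝ)) • (x1 + x2)) {r : ℝ}
    (hr : (trace H).re = algebraMap ℝ (Form D) r) {p : X → Matrix n n ℂ}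
    (hp : RankLE (2 * N - 2) H p) {κ : ℝ} (hκ : κ ≠ 0)
    {I : Hb Φ hΦ →ₗ[ℝ] ℝ} (V : S2X.Val N κ x1 x2 y z I) : |c| ≤ 1 := by
  by_contra hcon
  have h2 : 2 ≤ |c| := by omega
  have hc : (c : ℝ) ≠ 0 := by
    intro h
    have h1 : c = 0 := by exact_mod_cast h
    rw [h1, abs_zero] at h2
    omega
  exact S2X.algX_int hN h2 hκ (h.rel hc hyz hsq hr) V (h.top hp (by omega))

end Vale.Agent.P231.ChW

open Bundle Manifold Set Filter Module Matrix
open scoped ContDiff Manifold Topology Real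

namespace Vale.Agent.P231.X3

open Vale.Agent.P234 Vale.Agent.P231 Vale.Agent.P231.Fm Vale.Agent.P231.W Vale.Agent.P231.WR
  Vale.Agent.P231.ChW

variable {E : Type*} [NormedAddCommGroup E] [NormedSpace ℝ E] [FiniteDimensional ℝ E]
  {M : Type*} [MetricSpace M] [ChartedSpace E M] [IsManifold 𝓘(ℝ, E) ∞ M]
  [RiemannianBundle (fun x : M => TangentSpace 𝓘(ℝ, E) x)]
  [IsContMDiffRiemannianBundle 𝓘(ℝ, E) ∞ E (fun x : M => TangentSpace 𝓘(ℝ, E) x)]
  [CompactSpace M] [ConnectedSpace M] [IsRiemannianManifold 𝓘(ℝ, E) M]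
  {e : ∀ x : M, TangentSpace 𝓘(ℝ, E) x → M} {K : ℕ} {D : ℝ} {l : ℕ}

/-- **the end of the bundle argument**, integer version, with the classes of the second line and of
the tangent bundle as inputs -/
theorem abs_le_one (G : Geo e D l) (hl : l = 3) (P : PF E M K)
    {j : Pr e D → Matrix (Fin K) (Fin K) ℝ} (J : Lp G P j) {N : ℕ} (hN : 2 ≤ N)
    (hE : finrank ℝ E = 4 * N) {c : ℤ} {x1 x2 z : Hb G.R G.map_R}
    (hz : (ib_Mm G P J).qc 1 ^ 2 = Cx.of (z ^ 2)) (hz' : hbPull G.map_Th G.Th_R z ^ 2 = z ^ 2)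
    (ht : ∀ k, 1 ≤ k → k ≤ N → (ib_tF G P).qc (2 * k) =
      Cx.of (S2X.tau N (c : ℝ) k • x1 ^ k))
    (hx : hbPull G.map_Th G.Th_R x1 = x2)
    (hyz : qm G.R G.map_R (yB G P) * z = x1 - x2)
    (hsq : qm G.R G.map_R (yB G P) ^ 2 + z ^ 2 = (2 * (c : ℝ)) • (x1 + x2)) {κ : ℝ} (hκ : κ ≠ 0)
    {I : Hb G.R G.map_R →ₗ[ℝ] ℝ} (V : S2X.Val N κ x1 x2 (qm G.R G.map_R (yB G P)) z I) :
    |c| ≤ 1 := by
  have hr : finrank ℝ E = l + 1 + 2 * (2 * N - 2) := by omega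
  exact (bun G hl P J hz hz' ht hx).abs_le_one hN hyz hsq (trace_Hm G P hr)
    (rankLE_Hm G P hr) hκ V

end Vale.Agent.P231.X3
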