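import Vale.Agent.P231.S2X.Test
import Vale.Agent.P231.H584.Bas
import Vale.Agent.P231.WA.Deg

/-!
# P231, stage 2, S2-X: the classes `x₁, x₂, y, z` and the values of the integral
-/

set_option linter.unusedSectionVars false
set_option linter.unusedVariables false

open Set Module Filter Topology
open scoped ContDiff

namespace Vale.Agent.P231.S2X

open Fm W H584

noncomputable section

variable {X : Type*} {D : Dif X} {T : ℝ} {Φ : X × ℝ → X}

/-- closed even basic forms modulo differentials of basic forms -/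
abbrev HH' (Φ : X × ℝ → X) (hΦ : (D.prod (Dif.lin ℝ)).Map D Φ) : Type _ :=
  Bas Φ hΦ ⧸ Exa Φ hΦ

/-- the class of a form -/
def cl (h : IsFlow D T Φ) (a : Form D) (e : a.sg = a) (c : a.d = 0) (b : Basic Φ h.map a) :
    HH' Φ h.map := Ideal.Quotient.mk (Exa Φ h.map) ⟨a, e, c, b⟩

section Phi

variable (h : IsFlow D T Φ) {ν : Form D} {I : Form D →ₗ[ℝ] ℝ}

theorem I_exact (hνd : Basic Φ h.map ν.d) (hνo : ν.sg = -ν) (hI : ∀ w : Form D, I w.d = 0)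
    (hIb : ∀ w, Basic Φ h.map w → I w = 0) {u : Form D} (hu : Basic Φ h.map u) :
    I (ν * u.d) = 0 := by
  have h1 := hI (ν * u)
  rw [Form.d_mul, hνo, neg_mul, map_add, map_neg, hIb _ (Basic.mul hνd hu), zero_add] at h1
  linarith

/-- the functional `[a] ↦ I (ν a)` -/
def Ph (hνd : Basic Φ h.map ν.d) (hνo : ν.sg = -ν) (hI : ∀ w : Form D, I w.d = 0)
    (hIb : ∀ w, Basic Φ h.map w → I w = 0) : HH' Φ h.map →ₗ[ℝ] ℝ where
  toFun q := Quotient.liftOn' q (fun a : Bas Φ h.map => I (ν * a.1)) (by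
    intro a b hab
    have h1 : a - b ∈ Exa Φ h.map := (Submodule.quotientRel_def _).1 hab
    obtain ⟨u, hu, hu'⟩ := h1
    have h2 : ((a - b : Bas Φ h.map) : Form D) = a.1 - b.1 := rfl
    rw [h2] at hu'
    have h3 : a.1 = b.1 + u.d := by rw [← hu']; abel
    change I (ν * a.1) = I (ν * b.1)
    rw [h3, mul_add, map_add, I_exact h hνd hνo hI hIb hu, add_zero])
  map_add' p q := by
    obtain ⟨a, rfl⟩ := Ideal.Quotient.mk_surjective p
    obtain ⟨b, rfl⟩ := Ideal.Quotient.mk_surjective q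
    change I (ν * (a.1 + b.1)) = I (ν * a.1) + I (ν * b.1)
    rw [mul_add, map_add]
  map_smul' r q := by
    obtain ⟨a, rfl⟩ := Ideal.Quotient.mk_surjective q
    change I (ν * (r • a.1)) = r • I (ν * a.1)
    rw [mul_smul_comm, map_smul]

theorem Ph_mk (hνd : Basic Φ h.map ν.d) (hνo : ν.sg = -ν) (hI : ∀ w : Form D, I w.d = 0)
    (hIb : ∀ w, Basic Φ h.map w → I w = 0) (a : Bas Φ h.map) :
    Ph h hνd hνo hI hIb (Ideal.Quotient.mk (Exa Φ h.map) a) = I (ν * a.1) := rfl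

end Phi


/-! ### the classes -/

/-- the data on the space of pairs: `ν` connection form of the rotation, `F₁`, `F₂` the two
pull-backs of the closed form `F` of `M`, `B` a primitive of the difference -/
structure Geo (h : IsFlow D T Φ) (κ : ℝ) (ν F1 F2 B : Form D) : Prop where
  hT : T ≠ 0
  hκ : κ ≠ 0
  ν1 : Form.pull Φ h.map ν = pr ν + dt
  νo : ν.sg = -ν
  e1 : F1.sg = F1
  d1 : F1.d = 0
  b1 : Basic Φ h.map F1
  e2 : F2.sg = F2
  d2 : F2.d = 0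
  b2 : Basic Φ h.map F2
  Bo : B.sg = -B
  Bd : B.d = F1 - F2

section Cls

variable {h : IsFlow D T Φ} {κ : ℝ} {ν F1 F2 B : Form D} (G : Geo h κ ν F1 F2 B)
include G

theorem Geo.νb : Basic Φ h.map ν.d := basic_d_contact h G.ν1

theorem Geo.νe : ν.d.sg = ν.d := d_even G.νo

theorem Geo.Je : (J Φ h.map T B).sg = J Φ h.map T B := by
  rw [J_def, KT_sg, ← Form.pull_sg, G.Bo]
  have h1 : Form.pull Φ h.map (-B) = -Form.pull Φ h.map B := map_neg (Form.pullA Φ h.map) B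
  rw [h1, KT_neg, neg_neg]

theorem Geo.Jc : (J Φ h.map T B).d = 0 := by
  have h1 := J_d h B
  rw [G.Bd, J_of_basic T (Basic.sub G.b1 G.b2)] at h1
  exact neg_eq_zero.1 h1.symm

/-- the form `F₁ / κ` -/
def Geo.bx1 : Bas Φ h.map := ⟨κ⁻¹ • F1, by rw [Form.sg_smul, G.e1],
  by rw [Form.d_smul, G.d1, smul_zero], Basic.smul _ G.b1⟩

/-- the form `F₂ / κ` -/
def Geo.bx2 : Bas Φ h.map := ⟨κ⁻¹ • F2, by rw [Form.sg_smul, G.e2],
  by rw [Form.d_smul, G.d2, smul_zero], Basic.smul _ G.b2⟩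

/-- the form `dν / T` -/
def Geo.by_ : Bas Φ h.map := ⟨T⁻¹ • ν.d, by rw [Form.sg_smul, G.νe],
  by rw [Form.d_smul, Form.d_d, smul_zero], Basic.smul _ G.νb⟩

/-- the form `J B / κ` -/
def Geo.bz : Bas Φ h.map := ⟨κ⁻¹ • J Φ h.map T B, by rw [Form.sg_smul, G.Je],
  by rw [Form.d_smul, G.Jc, smul_zero], Basic.smul _ (J_basic h _)⟩

/-- the class of `F₁ / κ` -/
def Geo.x1 : HH' Φ h.map := Ideal.Quotient.mk (Exa Φ h.map) G.bx1

/-- the class of `F₂ / κ` -/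
def Geo.x2 : HH' Φ h.map := Ideal.Quotient.mk (Exa Φ h.map) G.bx2

/-- the class of `dν / T` -/
def Geo.y : HH' Φ h.map := Ideal.Quotient.mk (Exa Φ h.map) G.by_

/-- the class of `J B / κ` -/
def Geo.z : HH' Φ h.map := Ideal.Quotient.mk (Exa Φ h.map) G.bz

theorem Geo.yz : G.y * G.z = G.x1 - G.x2 := by
  rw [Geo.y, Geo.z, Geo.x1, Geo.x2, ← map_mul, ← map_sub]
  refine (eq_quot Φ h.map (u := (T⁻¹ * κ⁻¹) • J Φ h.map T (ν * B))
    (Basic.smul _ (J_basic h _)) ?_).symm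
  have hB : Basic Φ h.map B.d := by
    rw [G.Bd]
    exact Basic.sub G.b1 G.b2
  have h1 := gysin_d h G.ν1 G.νo hB
  change κ⁻¹ • F1 - κ⁻¹ • F2 = T⁻¹ • ν.d * κ⁻¹ • J Φ h.map T B +
    ((T⁻¹ * κ⁻¹) • J Φ h.map T (ν * B)).d
  rw [Form.d_smul, smul_mul_smul_comm, ← smul_add, ← h1, smul_smul, G.Bd, ← smul_sub,
    mul_comm T⁻¹, mul_assoc, inv_mul_cancel₀ G.hT, mul_one]

end Cls

/-! ### the values -/

/-- the integral and the degrees -/
structure GInt (h : IsFlow D T Φ) (n : ℕ) (ν F1 F2 B : Form D) (I : Form D →ₗ[ℝ] ℝ) : Prop where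
  Id : ∀ w : Form D, I w.d = 0
  Ib : ∀ w, Basic Φ h.map w → I w = 0
  Ideg : ∀ (k : ℕ) (w : Form D), Form.IsDeg k w → k ≠ 8 * n + 1 → I w = 0
  gν : Form.IsDeg 1 ν
  g1 : Form.IsDeg 4 F1
  g2 : Form.IsDeg 4 F2
  gB : Form.IsDeg 3 B
  p1 : F1 ^ (n + 1) = 0
  p2 : F2 ^ (n + 1) = 0
  p12 : ∀ a b, 2 * n ≤ a + b → F1 ^ a * F2 ^ b = 0
  ex : ∃ m : Form D, B * hh n F1 F2 = m.d
  nz : I (B * (J Φ h.map T B * (F1 ^ (n - 1) * F2 ^ n))) ≠ 0

section Val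

variable {h : IsFlow D T Φ} {κ : ℝ} {ν F1 F2 B : Form D} (G : Geo h κ ν F1 F2 B) {n : ℕ}
  {I : Form D →ₗ[ℝ] ℝ} (N : GInt h n ν F1 F2 B I)

/-- the functional -/
def Geo.P (N : GInt h n ν F1 F2 B I) : HH' Φ h.map →ₗ[ℝ] ℝ := Ph h G.νb G.νo N.Id N.Ib

theorem Geo.P_mono (a b : ℕ) (w : Bas Φ h.map) :
    G.P N (G.x1 ^ a * G.x2 ^ b * Ideal.Quotient.mk (Exa Φ h.map) w) =
      (κ⁻¹) ^ a * (κ⁻¹) ^ b * I (ν * (F1 ^ a * F2 ^ b * w.1)) := by
  rw [Geo.x1, Geo.x2, ← map_pow, ← map_pow, ← map_mul, ← map_mul, Geo.P, Ph_mk]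
  have h1 : ((G.bx1 ^ a * G.bx2 ^ b * w : Bas Φ h.map) : Form D) =
      (κ⁻¹ • F1) ^ a * (κ⁻¹ • F2) ^ b * w.1 := rfl
  rw [h1, smul_pow, smul_pow, smul_mul_smul_comm, smul_mul_assoc, mul_smul_comm, map_smul,
    smul_eq_mul]

theorem isDeg_mono (N : GInt h n ν F1 F2 B I) (a b : ℕ) : Form.IsDeg (4 * a + 4 * b) (F1 ^ a * F2 ^ b) :=
  (N.g1.pow a).mul (N.g2.pow b)

theorem isDeg_J (N : GInt h n ν F1 F2 B I) : Form.IsDeg 2 (J Φ h.map T B) := by
  rw [J_def, KT]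
  exact ((N.gB.pull _ h.map).pull _ (map_scale T)).K

theorem I_deg (N : GInt h n ν F1 F2 B I) (a b : ℕ) {k : ℕ} {w : Form D} (hw : Form.IsDeg k w)
    (hk : 4 * a + 4 * b + k ≠ 8 * n) : I (ν * (F1 ^ a * F2 ^ b * w)) = 0 :=
  N.Ideg _ _ (N.gν.mul ((isDeg_mono N a b).mul hw)) (by omega)

theorem pow_zero_of {w : Form D} {n a : ℕ} (hw : w ^ (n + 1) = 0) (ha : n < a) : w ^ a = 0 := by
  obtain ⟨k, rfl⟩ : ∃ k, a = n + 1 + k := ⟨a - (n + 1), by omega⟩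
  rw [pow_add, hw, zero_mul]

theorem hh_mul_pow {R : Type*} [Ring R] {a b : R} {m : ℕ} (hb : b ^ (m + 2) = 0) :
    hh (m + 1) a b * b ^ m = a ^ (m + 1) * b ^ m + a ^ m * b ^ (m + 1) := by
  rw [hh, Finset.sum_range_succ, Finset.sum_range_succ, add_mul, add_mul, Finset.sum_mul]
  have h1 : ∀ i ∈ Finset.range m, a ^ i * b ^ (m + 1 - i) * b ^ m = 0 := by
    intro i hi
    rw [Finset.mem_range] at hi
    rw [mul_assoc, ← pow_add]
    have h2 : m + 1 - i + m = (m + 2) + (m - 1 - i) := by omega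
    rw [h2, pow_add, hb, zero_mul, mul_zero]
  rw [Finset.sum_eq_zero h1, zero_add, Nat.sub_self, pow_zero, mul_one, mul_assoc, ← pow_add]
  have h3 : m + 1 - m + m = m + 1 := by omega
  rw [h3, add_comm]

include G N in
/-- the averaging formula for `B z w` -/
theorem Geo.avg_z {w : Form D} (hwd : w.d = 0) (hwb : Basic Φ h.map w) :
    I (ν * (J Φ h.map T B * (J Φ h.map T B * w))) = T * I (B * (J Φ h.map T B * w)) := by
  have hb : Basic Φ h.map (J Φ h.map T B * w) := Basic.mul (J_basic h _) hwb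
  have hc : (J Φ h.map T B * w).d = 0 := mul_closed G.Jc hwd
  have hτ : Basic Φ h.map (B * (J Φ h.map T B * w)).d := by
    rw [d_mul_closed _ hc, G.Bd]
    exact Basic.mul (Basic.sub G.b1 G.b2) hb
  rw [avg h G.ν1 G.νo N.Id N.Ib hτ, J_mul_basic _ _ hb]

include G N in
/-- `I (B z ·)` is antisymmetric -/
theorem Geo.anti (hn : 1 ≤ n) : I (B * (J Φ h.map T B * (F1 ^ n * F2 ^ (n - 1)))) =
    -I (B * (J Φ h.map T B * (F1 ^ (n - 1) * F2 ^ n))) := by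
  obtain ⟨m, rfl⟩ : ∃ m, n = m + 1 := ⟨n - 1, by omega⟩
  rw [Nat.add_sub_cancel, ← sub_eq_zero, sub_neg_eq_add, ← map_add, ← mul_add, ← mul_add,
    ← hh_mul_pow N.p2]
  obtain ⟨u, hu⟩ := N.ex
  have hc : (J Φ h.map T B * F2 ^ m).d = 0 := mul_closed G.Jc (pow_closed G.d2 m)
  have h1 : B * (J Φ h.map T B * (hh (m + 1) F1 F2 * F2 ^ m)) =
      (B * hh (m + 1) F1 F2) * (J Φ h.map T B * F2 ^ m) := by
    have h2 : J Φ h.map T B * hh (m + 1) F1 F2 = hh (m + 1) F1 F2 * J Φ h.map T B :=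
      (even_comm G.Je _).eq
    rw [← mul_assoc (J Φ h.map T B), h2]
    simp only [mul_assoc]
  rw [h1, hu, ← d_mul_closed _ hc, N.Id]

/-- **the values of the integral** -/
theorem Geo.val (hn : 1 ≤ n) {c : ℝ} (hsq : G.y ^ 2 + G.z ^ 2 = (2 * c) • (G.x1 + G.x2)) :
    ∃ κ₀ : ℝ, κ₀ ≠ 0 ∧ Val n κ₀ G.x1 G.x2 G.y G.z (G.P N) := by
  -- `Φ (x₁^a x₂^b y²) = - Φ (x₁^a x₂^b z²)` for `a + b = 2 n - 1`
  have hyz : ∀ a b, a + b + 1 = 2 * n → G.P N (G.x1 ^ a * G.x2 ^ b * G.y ^ 2) =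
      -((κ⁻¹) ^ a * (κ⁻¹) ^ b * (κ⁻¹ * κ⁻¹ *
        (T * I (B * (J Φ h.map T B * (F1 ^ a * F2 ^ b)))))) := by
    intro a b hab
    have h1 : G.y ^ 2 = (2 * c) • (G.x1 + G.x2) - G.z ^ 2 := by rw [← hsq]; abel
    have h2 : G.P N (G.x1 ^ a * G.x2 ^ b * (G.x1 + G.x2)) = 0 := by
      have h3 : G.x1 ^ a * G.x2 ^ b * (G.x1 + G.x2) =
          G.x1 ^ (a + 1) * G.x2 ^ b * Ideal.Quotient.mk (Exa Φ h.map) 1 +
            G.x1 ^ a * G.x2 ^ (b + 1) * Ideal.Quotient.mk (Exa Φ h.map) 1 := by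
        rw [map_one]; ring
      have h4 : ((1 : Bas Φ h.map) : Form D) = 1 := rfl
      rw [h3, map_add, G.P_mono N, G.P_mono N, h4, mul_one, mul_one, N.p12 _ _ (by omega),
        N.p12 _ _ (by omega), mul_zero, map_zero, mul_zero, mul_zero, add_zero]
    have h5 : G.P N (G.x1 ^ a * G.x2 ^ b * G.z ^ 2) = (κ⁻¹) ^ a * (κ⁻¹) ^ b * (κ⁻¹ * κ⁻¹ *
        (T * I (B * (J Φ h.map T B * (F1 ^ a * F2 ^ b))))) := by
      rw [Geo.z, ← map_pow, G.P_mono N]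
      have h6 : ((G.bz ^ 2 : Bas Φ h.map) : Form D) =
          (κ⁻¹ • J Φ h.map T B) * (κ⁻¹ • J Φ h.map T B) := sq (κ⁻¹ • J Φ h.map T B)
      have h7 : F1 ^ a * F2 ^ b * ((κ⁻¹ * κ⁻¹) • (J Φ h.map T B * J Φ h.map T B)) =
          (κ⁻¹ * κ⁻¹) • (J Φ h.map T B * (J Φ h.map T B * (F1 ^ a * F2 ^ b))) := by
        have h8 : F1 ^ a * F2 ^ b * (J Φ h.map T B * J Φ h.map T B) =
            J Φ h.map T B * J Φ h.map T B * (F1 ^ a * F2 ^ b) :=
          (even_comm (mul_even (pow_even G.e1 a) (pow_even G.e2 b)) _).eq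
        rw [mul_smul_comm, h8, mul_assoc (J Φ h.map T B)]
      rw [h6, smul_mul_smul_comm, h7, mul_smul_comm, map_smul, smul_eq_mul,
        G.avg_z N (mul_closed (pow_closed G.d1 a) (pow_closed G.d2 b))
          (Basic.mul (Basic.pow G.b1 a) (Basic.pow G.b2 b))]
    rw [h1, mul_sub, map_sub, mul_smul_comm, map_smul, h2, smul_zero, zero_sub, h5]
  have hg1 : Form.IsDeg 0 (1 : Form D) := Form.IsDeg.one
  have hgy : Form.IsDeg 2 (T⁻¹ • ν.d) := (N.gν.d).smul _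
  have hgz : Form.IsDeg 2 (κ⁻¹ • J Φ h.map T B) := (isDeg_J N).smul _
  have hgyy : Form.IsDeg 4 ((T⁻¹ • ν.d) ^ 2) := hgy.pow 2
  refine ⟨-((κ⁻¹) ^ (n - 1) * (κ⁻¹) ^ n * (κ⁻¹ * κ⁻¹ *
        (T * I (B * (J Φ h.map T B * (F1 ^ (n - 1) * F2 ^ n)))))), ?_, ⟨?_, ?_, ?_, ?_⟩⟩
  · have h1 : κ⁻¹ ≠ 0 := inv_ne_zero G.hκ
    exact neg_ne_zero.2 (mul_ne_zero (mul_ne_zero (pow_ne_zero _ h1) (pow_ne_zero _ h1))
      (mul_ne_zero (mul_ne_zero h1 h1) (mul_ne_zero G.hT N.nz)))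
  · intro a b
    have h1 := G.P_mono N a b 1
    rw [map_one, mul_one] at h1
    have h2 : ((1 : Bas Φ h.map) : Form D) = 1 := rfl
    rw [h1, h2]
    by_cases hab : 4 * a + 4 * b + 0 = 8 * n
    · rw [N.p12 a b (by omega), zero_mul, mul_zero, map_zero, mul_zero]
    · rw [I_deg N a b hg1 hab, mul_zero]
  · intro a b
    rw [Geo.y, G.P_mono N]
    exact mul_eq_zero_of_right _ (I_deg N a b hgy (by omega))
  · intro a b
    rw [Geo.z, G.P_mono N]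
    exact mul_eq_zero_of_right _ (I_deg N a b hgz (by omega))
  · intro a b
    by_cases hab : a + b + 1 = 2 * n
    · rw [hyz a b hab]
      by_cases h1 : a + 1 = n ∧ b = n
      · obtain ⟨h2, h3⟩ := h1
        have h4 : n - 1 = a := by omega
        rw [if_pos ⟨h2, h3⟩, if_neg (by omega), sub_zero, mul_one, h4, h3]
      · rw [if_neg h1]
        by_cases h5 : a = n ∧ b + 1 = n
        · obtain ⟨h2, h3⟩ := h5
          have h4 : n - 1 = b := by omega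
          rw [if_pos ⟨h2, h3⟩, h2]
          have h6 := G.anti N hn
          rw [h4] at h6
          rw [h4, h6]
          ring
        · rw [if_neg h5]
          rcases Nat.lt_or_ge n a with h7 | h7
          · rw [pow_zero_of N.p1 h7]
            simp
          · rw [pow_zero_of N.p2 (a := b) (by omega)]
            simp
    · rw [if_neg (by omega), if_neg (by omega), sub_zero, mul_zero, Geo.y, ← map_pow, G.P_mono N]
      exact mul_eq_zero_of_right _ (I_deg N a b hgyy (by omega))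

end Val

end

end Vale.Agent.P231.S2X
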