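import Vale.Agent.P231.S2X.Rec

/-!
# P231, stage 2, ALG-X: Chern classes modulo `y²`
-/

namespace Vale.Agent.P231.S2X

open Finset

noncomputable section

variable {H : Type*} [CommRing H] [Algebra ℝ H]

/-- the data in cohomology (closed basic forms modulo `d` of basic forms) -/
structure Rel (n : ℕ) (c : ℝ) (x1 x2 y z : H) (s C : ℕ → H) : Prop where
  hc : c ≠ 0
  yz : y * z = x1 - x2
  sq : y ^ 2 + z ^ 2 = (2 * c) • (x1 + x2)
  s0 : ∃ r : ℝ, s 0 = algebraMap ℝ H r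
  r2 : ∀ j, 1 ≤ j → j ≤ n → (2 : ℝ) • s (2 * j) =
    tau n c j • x2 ^ j - (2 : ℝ) • (y ^ (2 * j) + z ^ (2 * j))
  r1 : ∀ j, 1 ≤ j → j ≤ n →
    (2 : ℝ) • ∑ i ∈ range (2 * j + 1), ((2 * j).choose i : ℝ) • (y ^ i * s (2 * j - i)) =
    tau n c j • x1 ^ j - (2 : ℝ) • (y ^ (2 * j) + z ^ (2 * j))
  C0 : C 0 = 1
  newton : ∀ j, j + 1 ≤ 2 * n - 1 → ((j : ℝ) + 1) • C (j + 1) =
    ∑ i ∈ range (j + 1), ((-1 : ℝ) ^ i) • (s (i + 1) * C (j - i))

/-- the subalgebra generated by `y` and `z` -/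
def Ayz (y z : H) : Subalgebra ℝ H := Algebra.adjoin ℝ {y, z}

section

variable {y z : H}

theorem y_mem : y ∈ Ayz y z := Algebra.subset_adjoin (by simp)

theorem z_mem : z ∈ Ayz y z := Algebra.subset_adjoin (by simp)

/-- congruence `y a ≡ r y z^i` modulo `y² A` -/
def Cg (y z : H) (a : H) (r : ℝ) (i : ℕ) : Prop :=
  ∃ w ∈ Ayz y z, y * a = r • (y * z ^ i) + y ^ 2 * w

/-- congruence `a ≡ r z^i` modulo `y A` -/
def Cs (y z : H) (a : H) (r : ℝ) (i : ℕ) : Prop :=
  ∃ w ∈ Ayz y z, a = r • z ^ i + y * w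

theorem Cs.cg {a : H} {r : ℝ} {i : ℕ} (h : Cs y z a r i) : Cg y z a r i := by
  obtain ⟨w, hw, h⟩ := h
  refine ⟨w, hw, ?_⟩
  rw [h, mul_add, mul_smul_comm]
  ring

theorem Cs.mul {a b : H} {r t : ℝ} {i j : ℕ} (ha : Cs y z a r i) (hb : Cs y z b t j) :
    Cs y z (a * b) (r * t) (i + j) := by
  obtain ⟨w, hw, h1⟩ := ha
  obtain ⟨v, hv, h2⟩ := hb
  refine ⟨r • (z ^ i * v) + t • (w * z ^ j) + y * (w * v), ?_, ?_⟩
  · exact add_mem (add_mem ((Ayz y z).smul_mem (mul_mem (pow_mem z_mem _) hv) _)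
      ((Ayz y z).smul_mem (mul_mem hw (pow_mem z_mem _)) _)) (mul_mem y_mem (mul_mem hw hv))
  · rw [h1, h2, pow_add]
    simp only [Algebra.smul_def, map_mul]
    ring

theorem Cs.one : Cs y z (1 : H) 1 0 := ⟨0, zero_mem _, by simp⟩

theorem Cs.pow {a : H} {r : ℝ} {i : ℕ} (ha : Cs y z a r i) (k : ℕ) :
    Cs y z (a ^ k) (r ^ k) (i * k) := by
  induction k with
  | zero => simpa using Cs.one
  | succ k ih =>
    rw [pow_succ, pow_succ, mul_add, mul_one]
    exact ih.mul ha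

theorem Cs.add {a b : H} {r t : ℝ} {i : ℕ} (ha : Cs y z a r i) (hb : Cs y z b t i) :
    Cs y z (a + b) (r + t) i := by
  obtain ⟨w, hw, h1⟩ := ha
  obtain ⟨v, hv, h2⟩ := hb
  exact ⟨w + v, add_mem hw hv, by rw [h1, h2, add_smul]; ring⟩

theorem Cs.smul {a : H} {r : ℝ} {i : ℕ} (ha : Cs y z a r i) (t : ℝ) :
    Cs y z (t • a) (t * r) i := by
  obtain ⟨w, hw, h1⟩ := ha
  exact ⟨t • w, (Ayz y z).smul_mem hw _, by rw [h1, smul_add, smul_smul, mul_smul_comm]⟩

theorem Cs.sum {ι : Type*} (S : Finset ι) {a : ι → H} {r : ι → ℝ} {i : ℕ}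
    (h : ∀ k ∈ S, Cs y z (a k) (r k) i) : Cs y z (∑ k ∈ S, a k) (∑ k ∈ S, r k) i := by
  classical
  induction S using Finset.induction_on with
  | empty => exact ⟨0, zero_mem _, by simp⟩
  | insert k S hk ih =>
    rw [sum_insert hk, sum_insert hk]
    exact (h k (mem_insert_self _ _)).add (ih fun l hl => h l (mem_insert_of_mem hl))

theorem Cs.zpow (i : ℕ) : Cs y z (z ^ i) 1 i := ⟨0, zero_mem _, by simp⟩

theorem Cs.ypow {k : ℕ} (hk : 1 ≤ k) (i : ℕ) : Cs y z (y ^ k) 0 i :=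
  ⟨y ^ (k - 1), pow_mem y_mem _, by
    rw [zero_smul, zero_add, ← pow_succ', Nat.sub_add_cancel hk]⟩

/-- multiplication of a congruence by another -/
theorem Cg.mul_y {a : H} {r : ℝ} {i : ℕ} (ha : Cg y z a r i) {b : H} {t : ℝ} {j : ℕ}
    (hb : Cg y z b t j) : Cg y z (a * b) (r * t) (i + j) := by
  obtain ⟨w, hw, h1⟩ := ha
  obtain ⟨v, hv, h2⟩ := hb
  refine ⟨r • (z ^ i * v) + t • (w * z ^ j) + y * (w * v), ?_, ?_⟩
  · exact add_mem (add_mem ((Ayz y z).smul_mem (mul_mem (pow_mem z_mem _) hv) _)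
      ((Ayz y z).smul_mem (mul_mem hw (pow_mem z_mem _)) _)) (mul_mem y_mem (mul_mem hw hv))
  · -- `y a b = (r y z^i + y² w) b = (r z^i + y w) (y b)`
    have h3 : y * (a * b) = (r • z ^ i + y * w) * (y * b) := by
      have : y * (a * b) = (y * a) * b := by ring
      rw [this, h1]
      simp only [Algebra.smul_def]
      ring
    rw [h3, h2, pow_add]
    simp only [Algebra.smul_def, map_mul]
    ring

theorem Cg.add {a b : H} {r t : ℝ} {i : ℕ} (ha : Cg y z a r i) (hb : Cg y z b t i) :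
    Cg y z (a + b) (r + t) i := by
  obtain ⟨w, hw, h1⟩ := ha
  obtain ⟨v, hv, h2⟩ := hb
  exact ⟨w + v, add_mem hw hv, by rw [mul_add, h1, h2, add_smul]; ring⟩

theorem Cg.smul {a : H} {r : ℝ} {i : ℕ} (ha : Cg y z a r i) (t : ℝ) :
    Cg y z (t • a) (t * r) i := by
  obtain ⟨w, hw, h1⟩ := ha
  exact ⟨t • w, (Ayz y z).smul_mem hw _, by
    rw [mul_smul_comm, h1, smul_add, smul_smul, mul_smul_comm]⟩

theorem Cg.sum {ι : Type*} (S : Finset ι) {a : ι → H} {r : ι → ℝ} {i : ℕ}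
    (h : ∀ k ∈ S, Cg y z (a k) (r k) i) : Cg y z (∑ k ∈ S, a k) (∑ k ∈ S, r k) i := by
  classical
  induction S using Finset.induction_on with
  | empty => exact ⟨0, zero_mem _, by simp⟩
  | insert k S hk ih =>
    rw [sum_insert hk, sum_insert hk]
    exact (h k (mem_insert_self _ _)).add (ih fun l hl => h l (mem_insert_of_mem hl))

theorem Cg.congr {a : H} {r t : ℝ} {i j : ℕ} (ha : Cg y z a r i) (h1 : r = t) (h2 : i = j) :
    Cg y z a t j := h1 ▸ h2 ▸ ha

theorem Cs.congr {a : H} {r t : ℝ} {i j : ℕ} (ha : Cs y z a r i) (h1 : r = t) (h2 : i = j) :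
    Cs y z a t j := h1 ▸ h2 ▸ ha

end

variable {n : ℕ} {c : ℝ} {x1 x2 y z : H} {s C : ℕ → H}

theorem Rel.x1_eq (R : Rel n c x1 x2 y z s C) :
    x1 = (1 / (4 * c)) • (y ^ 2 + z ^ 2) + (1 / 2 : ℝ) • (y * z) := by
  rw [R.sq, R.yz, smul_smul]
  have h1 : 1 / (4 * c) * (2 * c) = 1 / 2 := by
    have := R.hc
    field_simp
    ring
  rw [h1, ← smul_add]
  have h2 : x1 + x2 + (x1 - x2) = (2 : ℝ) • x1 := by rw [two_smul]; ring
  rw [h2, smul_smul]
  norm_num

theorem Rel.x2_eq (R : Rel n c x1 x2 y z s C) :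
    x2 = (1 / (4 * c)) • (y ^ 2 + z ^ 2) - (1 / 2 : ℝ) • (y * z) := by
  rw [R.sq, R.yz, smul_smul]
  have h1 : 1 / (4 * c) * (2 * c) = 1 / 2 := by
    have := R.hc
    field_simp
    ring
  rw [h1, ← smul_sub]
  have h2 : x1 + x2 - (x1 - x2) = (2 : ℝ) • x2 := by rw [two_smul]; ring
  rw [h2, smul_smul]
  norm_num

theorem Rel.cs_x1 (R : Rel n c x1 x2 y z s C) : Cs y z x1 (1 / (4 * c)) 2 := by
  refine ⟨(1 / (4 * c)) • y + (1 / 2 : ℝ) • z, add_mem ((Ayz y z).smul_mem y_mem _)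
    ((Ayz y z).smul_mem z_mem _), ?_⟩
  nth_rewrite 1 [R.x1_eq]
  simp only [Algebra.smul_def]
  ring

theorem Rel.cs_x2 (R : Rel n c x1 x2 y z s C) : Cs y z x2 (1 / (4 * c)) 2 := by
  refine ⟨(1 / (4 * c)) • y - (1 / 2 : ℝ) • z, sub_mem ((Ayz y z).smul_mem y_mem _)
    ((Ayz y z).smul_mem z_mem _), ?_⟩
  nth_rewrite 1 [R.x2_eq]
  simp only [Algebra.smul_def]
  ring

/-- the even power sums -/
theorem Rel.cs_even (R : Rel n c x1 x2 y z s C) {j : ℕ} (h1 : 1 ≤ j) (hn : j ≤ n) :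
    Cs y z (s (2 * j)) (sig n c (2 * j)) (2 * j) := by
  have h := R.r2 j h1 hn
  have h2 : s (2 * j) = (tau n c j / 2) • x2 ^ j + (-1 : ℝ) • (y ^ (2 * j) + z ^ (2 * j)) := by
    have h3 : s (2 * j) = (1 / 2 : ℝ) • ((2 : ℝ) • s (2 * j)) := by
      rw [smul_smul]; norm_num
    rw [h3, h, smul_sub, smul_smul, smul_smul, neg_one_smul, sub_eq_add_neg]
    congr 1
    · congr 1; ring
    · norm_num
  rw [h2]
  have h4 := ((R.cs_x2.pow j).smul (tau n c j / 2)).add
    (((Cs.ypow (y := y) (z := z) (by omega : 1 ≤ 2 * j) (2 * j)).add (Cs.zpow (2 * j))).smul (-1))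
  refine h4.congr ?_ rfl
  rw [sig_even, one_div, inv_pow]
  have h5 : (4 * c) ^ j ≠ 0 := pow_ne_zero _ (by simpa using R.hc)
  field_simp
  ring

/-- the odd power sums, after multiplication by `y` -/
theorem Rel.cg_odd (R : Rel n c x1 x2 y z s C) {j : ℕ} (hn : j + 1 ≤ n) :
    Cg y z (s (2 * j + 1)) (sig n c (2 * j + 1)) (2 * j + 1) := by
  induction j using Nat.strong_induction_on with
  | _ j ih =>
    have h1 := R.r1 (j + 1) (by omega) hn
    have h2 := R.r2 (j + 1) (by omega) hn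
    -- all lower ones are of the form `y s = y t`
    have hy : ∀ i, i ≤ 2 * j → ∃ w ∈ Ayz y z, y * s i = y * w := by
      intro i hi
      rcases Nat.eq_zero_or_pos i with rfl | hi0
      · obtain ⟨r, hr⟩ := R.s0
        exact ⟨algebraMap ℝ H r, (Ayz y z).algebraMap_mem r, by rw [hr]⟩
      · rcases Nat.even_or_odd' i with ⟨k, rfl | rfl⟩
        · obtain ⟨w, hw, h⟩ := R.cs_even (j := k) (by omega) (by omega)
          exact ⟨sig n c (2 * k) • z ^ (2 * k) + y * w,
            add_mem ((Ayz y z).smul_mem (pow_mem z_mem _) _) (mul_mem y_mem hw), by rw [← h]⟩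
        · obtain ⟨w, hw, h⟩ := ih k (by omega) (by omega)
          refine ⟨sig n c (2 * k + 1) • z ^ (2 * k + 1) + y * w,
            add_mem ((Ayz y z).smul_mem (pow_mem z_mem _) _) (mul_mem y_mem hw), ?_⟩
          rw [h, mul_add, mul_smul_comm]
          ring
    -- the tail
    have htail : ∃ w ∈ Ayz y z, ∑ i ∈ range (2 * j + 1),
        ((2 * (j + 1)).choose (i + 2) : ℝ) • (y ^ (i + 2) * s (2 * (j + 1) - (i + 2))) =
          y ^ 2 * w := by
      have h3 : ∀ i ∈ range (2 * j + 1), ∃ w ∈ Ayz y z,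
          ((2 * (j + 1)).choose (i + 2) : ℝ) • (y ^ (i + 2) * s (2 * (j + 1) - (i + 2))) =
            y ^ 2 * w := by
        intro i hi
        have hi' : i ≤ 2 * j := by simpa [Nat.lt_succ_iff] using hi
        obtain ⟨w, hw, h⟩ := hy (2 * (j + 1) - (i + 2)) (by omega)
        refine ⟨((2 * (j + 1)).choose (i + 2) : ℝ) • (y ^ i * w),
          (Ayz y z).smul_mem (mul_mem (pow_mem y_mem _) hw) _, ?_⟩
        have h4 : y ^ (i + 2) * s (2 * (j + 1) - (i + 2)) = y ^ (i + 2) * w := by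
          have : y ^ (i + 2) * s (2 * (j + 1) - (i + 2)) =
              y ^ (i + 1) * (y * s (2 * (j + 1) - (i + 2))) := by ring
          rw [this, h]
          ring
        rw [h4, mul_smul_comm]
        congr 1
        ring
      choose! w hw h using h3
      exact ⟨∑ i ∈ range (2 * j + 1), w i, sum_mem hw, by rw [sum_congr rfl h, ← mul_sum]⟩
    obtain ⟨w, hw, htail⟩ := htail
    -- split the sum
    have hsplit : ∑ i ∈ range (2 * (j + 1) + 1), ((2 * (j + 1)).choose i : ℝ) •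
        (y ^ i * s (2 * (j + 1) - i)) = s (2 * (j + 1)) +
          ((2 : ℝ) * (j + 1)) • (y * s (2 * j + 1)) + y ^ 2 * w := by
      rw [show 2 * (j + 1) + 1 = (2 * j + 1) + 1 + 1 by ring, sum_range_succ', sum_range_succ',
        ← htail]
      have e1 : 2 * (j + 1) - (0 + 1) = 2 * j + 1 := by omega
      rw [e1]
      simp only [Nat.choose_zero_right, Nat.choose_one_right, pow_zero, one_mul, pow_one,
        Nat.sub_zero, Nat.cast_one, one_smul, zero_add]
      push_cast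
      ring
    rw [hsplit] at h1
    -- difference of powers
    have hdiff : x1 ^ (j + 1) - x2 ^ (j + 1) = (y * z) * ∑ i ∈ range (j + 1),
        x1 ^ i * x2 ^ (j - i) := by
      rw [R.yz, ← (Commute.all x1 x2).mul_geom_sum₂ (j + 1)]
      rfl
    have hgeo : Cs y z (∑ i ∈ range (j + 1), x1 ^ i * x2 ^ (j - i))
        ((j + 1) * (1 / (4 * c)) ^ j) (2 * j) := by
      have h3 := Cs.sum (y := y) (z := z) (range (j + 1)) (a := fun i => x1 ^ i * x2 ^ (j - i))
        (r := fun _ => (1 / (4 * c)) ^ j) (i := 2 * j) (fun i hi => by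
          have hi' : i ≤ j := by simpa [Nat.lt_succ_iff] using hi
          refine ((R.cs_x1.pow i).mul (R.cs_x2.pow (j - i))).congr ?_ ?_
          · rw [← pow_add, Nat.add_sub_cancel' hi']
          · rw [← mul_add, Nat.add_sub_cancel' hi'])
      refine h3.congr ?_ rfl
      rw [sum_const, card_range, nsmul_eq_mul]
      push_cast
      ring
    obtain ⟨v, hv, hgeo⟩ := hgeo
    have key : ((4 : ℝ) * (j + 1)) • (y * s (2 * j + 1)) =
        tau n c (j + 1) • ((y * z) * (((j + 1) * (1 / (4 * c)) ^ j) • z ^ (2 * j) + y * v)) -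
          (2 : ℝ) • (y ^ 2 * w) := by
      rw [← hgeo, ← hdiff, smul_sub]
      have h4 := congrArg₂ (fun a b => a - b) h1 h2
      beta_reduce at h4
      simp only [Algebra.smul_def, map_add, map_mul, map_one, map_ofNat, map_natCast] at h4 ⊢
      linear_combination h4
    have hj : (4 : ℝ) * (j + 1) ≠ 0 := by positivity
    refine ⟨(1 / (4 * ((j : ℝ) + 1))) • (tau n c (j + 1) • (z * v) - (2 : ℝ) • w),
      (Ayz y z).smul_mem (sub_mem ((Ayz y z).smul_mem (mul_mem z_mem hv) _)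
        ((Ayz y z).smul_mem hw _)) _, ?_⟩
    have h5 : y * s (2 * j + 1) = (1 / (4 * ((j : ℝ) + 1))) •
        (((4 : ℝ) * (j + 1)) • (y * s (2 * j + 1))) := by
      rw [smul_smul, one_div, inv_mul_cancel₀ hj, one_smul]
    rw [h5, key, sig_odd]
    have h6 : tau n c (j + 1) / (4 * (4 * c) ^ j) =
        (1 / (4 * ((j : ℝ) + 1))) * (tau n c (j + 1) * ((j + 1) * (1 / (4 * c)) ^ j)) := by
      have h7 : (4 * c) ^ j ≠ 0 := pow_ne_zero _ (by simpa using R.hc)
      rw [one_div (4 * c), inv_pow]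
      have h8 : ((j : ℝ) + 1) ≠ 0 := by positivity
      field_simp
    rw [h6]
    simp only [Algebra.smul_def, map_mul]
    ring

theorem Rel.cg_s (R : Rel n c x1 x2 y z s C) {i : ℕ} (h1 : 1 ≤ i) (h2 : i ≤ 2 * n - 1) :
    Cg y z (s i) (sig n c i) i := by
  rcases Nat.even_or_odd' i with ⟨k, rfl | rfl⟩
  · exact (R.cs_even (by omega) (by omega)).cg
  · exact R.cg_odd (by omega)

/-- the Chern classes -/
theorem Rel.cg_C (R : Rel n c x1 x2 y z s C) {j : ℕ} (hj : j ≤ 2 * n - 1) :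
    Cg y z (C j) (ee n c j) j := by
  induction j using Nat.strong_induction_on with
  | _ j ih =>
    rcases j with _ | j
    · rw [R.C0, ee_zero]
      exact Cs.one.cg
    · have h1 := R.newton j hj
      have h2 := Cg.sum (y := y) (z := z) (range (j + 1))
        (a := fun i => ((-1 : ℝ) ^ i) • (s (i + 1) * C (j - i)))
        (r := fun i => (-1 : ℝ) ^ i * (sig n c (i + 1) * ee n c (j - i))) (i := j + 1)
        (fun i hi => by
          have hi' : i ≤ j := by simpa [Nat.lt_succ_iff] using hi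
          refine (((R.cg_s (by omega) (by omega)).mul_y (ih (j - i) (by omega)
            (by omega))).smul _).congr rfl ?_
          omega)
      rw [← h1] at h2
      have h3 := h2.smul (1 / ((j : ℝ) + 1))
      have hj0 : ((j : ℝ) + 1) ≠ 0 := by positivity
      rw [smul_smul, one_div, inv_mul_cancel₀ hj0, one_smul] at h3
      refine h3.congr ?_ rfl
      have h4 := ee_succ n c j
      have h5 : ∑ i ∈ range (j + 1), (-1 : ℝ) ^ i * (sig n c (i + 1) * ee n c (j - i)) =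
          ((j : ℝ) + 1) * ee n c (j + 1) := by
        rw [h4]
        exact sum_congr rfl fun i _ => by ring
      rw [h5, ← mul_assoc, inv_mul_cancel₀ hj0, one_mul]

end

end Vale.Agent.P231.S2X
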