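import Vale.Agent.P231.S2X.Jp
import Vale.Agent.P231.FE.B0
import Vale.Agent.P231.L3.SysSL

/-!
# P231, stage 2, S2-X: the form `b₀` on the fibre over a pair `(p, q)`, `p` the base point of `F`
-/

set_option maxSynthPendingDepth 3
set_option linter.unusedSectionVars false
set_option linter.unusedVariables false

open Bundle Manifold Set Filter Module
open scoped ContDiff Manifold Topology

namespace Vale.Agent.P231.S2X

noncomputable section

open Vale.Agent.P234 Vale.Agent.P231 Vale.Agent.P231.Fm Vale.Agent.P231.W Vale.Agent.P231.WR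

/-! ### linear algebra -/

section Lin

variable {T : Type*} [NormedAddCommGroup T] [InnerProductSpace ℝ T] [FiniteDimensional ℝ T]
  {X : Type} [NormedAddCommGroup X] [NormedSpace ℝ X] [FiniteDimensional ℝ X]

/-- the one-form `⟨a, du⟩` -/
def al (a : T) (u : X → T) (x : X) : X →L[ℝ] ℝ := (innerSL ℝ a).comp (fderiv ℝ u x)

theorem wdg4 (g : Fin 4 → T) : FE.wdg g = dx (innerSL ℝ (g 0)) * (dx (innerSL ℝ (g 1)) *
    (dx (innerSL ℝ (g 2)) * dx (innerSL ℝ (g 3)))) := by
  have h1 : (List.ofFn fun a => dx (innerSL ℝ (g a))) = [dx (innerSL ℝ (g 0)),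
      dx (innerSL ℝ (g 1)), dx (innerSL ℝ (g 2)), dx (innerSL ℝ (g 3))] := by
    simp [List.ofFn_succ]
  rw [FE.wdg, h1]
  simp

theorem iprod_wdg4 {g : Fin 4 → T} (hg : Orthonormal ℝ g) (c s : ℝ) :
    iprod (c • g 0 + s • g 1) (FE.wdg g) =
      c • (dx (innerSL ℝ (g 1)) * (dx (innerSL ℝ (g 2)) * dx (innerSL ℝ (g 3)))) -
      s • (dx (innerSL ℝ (g 0)) * (dx (innerSL ℝ (g 2)) * dx (innerSL ℝ (g 3)))) := by
  have hon := orthonormal_iff_ite.1 hg
  have h0 : innerSL ℝ (g 0) (c • g 0 + s • g 1) = c := by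
    rw [innerSL_apply_apply, inner_add_right, inner_smul_right, inner_smul_right, hon, hon,
      if_pos rfl, if_neg (by decide)]
    ring
  have h1 : innerSL ℝ (g 1) (c • g 0 + s • g 1) = s := by
    rw [innerSL_apply_apply, inner_add_right, inner_smul_right, inner_smul_right, hon, hon,
      if_neg (by decide), if_pos rfl]
    ring
  have h2 : innerSL ℝ (g 2) (c • g 0 + s • g 1) = 0 := by
    rw [innerSL_apply_apply, inner_add_right, inner_smul_right, inner_smul_right, hon, hon,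
      if_neg (by decide), if_neg (by decide)]
    ring
  have h3 : innerSL ℝ (g 3) (c • g 0 + s • g 1) = 0 := by
    rw [innerSL_apply_apply, inner_add_right, inner_smul_right, inner_smul_right, hon, hon,
      if_neg (by decide), if_neg (by decide)]
    ring
  have h4 : iprod (c • g 0 + s • g 1) (dx (innerSL ℝ (g 3))) = 0 := by
    have := iprod_dx_mul (c • g 0 + s • g 1) (innerSL ℝ (g 3)) (1 : Lam T)
    rw [mul_one, iprod_one, mul_zero, h3, zero_smul, sub_zero] at this
    exact this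
  rw [wdg4, iprod_dx_mul, iprod_dx_mul, iprod_dx_mul, h4, h0, h1, h2]
  rw [mul_zero, zero_smul, sub_zero, mul_zero, sub_zero, mul_smul_comm]

theorem al_rot (a : T) {u w : X → T} {x : X} (hu : DifferentiableAt ℝ u x)
    (hw : DifferentiableAt ℝ w x) (t : ℝ) :
    (innerSL ℝ a).comp (fderiv ℝ (fun q : X × ℝ => Real.cos q.2 • u q.1 + Real.sin q.2 • w q.1)
      (x, t)) = (Real.cos t • al a u x + Real.sin t • al a w x).comp
        (ContinuousLinearMap.fst ℝ X ℝ) + (inner ℝ a (-Real.sin t • u x + Real.cos t • w x) : ℝ) •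
        ContinuousLinearMap.snd ℝ X ℝ := by
  have h1 : HasFDerivAt (fun q : X × ℝ => u q.1)
      ((fderiv ℝ u x).comp (ContinuousLinearMap.fst ℝ X ℝ)) (x, t) :=
    HasFDerivAt.comp (x, t) (g := u) hu.hasFDerivAt hasFDerivAt_fst
  have h2 : HasFDerivAt (fun q : X × ℝ => w q.1)
      ((fderiv ℝ w x).comp (ContinuousLinearMap.fst ℝ X ℝ)) (x, t) :=
    HasFDerivAt.comp (x, t) (g := w) hw.hasFDerivAt hasFDerivAt_fst
  have h3 : HasFDerivAt (fun q : X × ℝ => Real.cos q.2)
      ((-Real.sin t) • ContinuousLinearMap.snd ℝ X ℝ) (x, t) :=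
    (hasFDerivAt_snd (𝕜 := ℝ) (p := ((x, t) : X × ℝ))).cos
  have h4 : HasFDerivAt (fun q : X × ℝ => Real.sin q.2)
      ((Real.cos t) • ContinuousLinearMap.snd ℝ X ℝ) (x, t) :=
    (hasFDerivAt_snd (𝕜 := ℝ) (p := ((x, t) : X × ℝ))).sin
  have h5 := (h3.smul h1).add (h4.smul h2)
  have h6 : fderiv ℝ (fun q : X × ℝ => Real.cos q.2 • u q.1 + Real.sin q.2 • w q.1) (x, t) = _ :=
    h5.fderiv
  rw [h6]
  ext1
  · ext z
    simp [al, inner_add_right, inner_smul_right]
  · ext
    simp [al, inner_add_right, inner_smul_right]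

/-- the integrand of `b₀` -/
theorem at1_rot {g : Fin 4 → T} (hg : Orthonormal ℝ g) {u w : X → T} {x : X}
    (hu : DifferentiableAt ℝ u x) (hw : DifferentiableAt ℝ w x) (hux : u x = g 0)
    (hwx : w x = g 1) (t : ℝ) :
    at1 (Fm.pull (fderiv ℝ (fun q : X × ℝ => Real.cos q.2 • u q.1 + Real.sin q.2 • w q.1) (x, t))
      (iprod (Real.cos t • g 0 + Real.sin t • g 1) (FE.wdg g))) =
      dx (Real.cos t • al (g 2) u x + Real.sin t • al (g 2) w x) *
        dx (Real.cos t • al (g 3) u x + Real.sin t • al (g 3) w x) := by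
  have hon := orthonormal_iff_ite.1 hg
  have i0 : (inner ℝ (g 0) (-Real.sin t • u x + Real.cos t • w x) : ℝ) = -Real.sin t := by
    rw [hux, hwx, inner_add_right, inner_smul_right, inner_smul_right, hon, hon, if_pos rfl,
      if_neg (by decide)]
    ring
  have i1 : (inner ℝ (g 1) (-Real.sin t • u x + Real.cos t • w x) : ℝ) = Real.cos t := by
    rw [hux, hwx, inner_add_right, inner_smul_right, inner_smul_right, hon, hon,
      if_neg (by decide), if_pos rfl]
    ring
  have i2 : (inner ℝ (g 2) (-Real.sin t • u x + Real.cos t • w x) : ℝ) = 0 := by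
    rw [hux, hwx, inner_add_right, inner_smul_right, inner_smul_right, hon, hon,
      if_neg (by decide), if_neg (by decide)]
    ring
  have i3 : (inner ℝ (g 3) (-Real.sin t • u x + Real.cos t • w x) : ℝ) = 0 := by
    rw [hux, hwx, inner_add_right, inner_smul_right, inner_smul_right, hon, hon,
      if_neg (by decide), if_neg (by decide)]
    ring
  have e2 : (Real.cos t • al (g 2) u x + Real.sin t • al (g 2) w x).comp
      (ContinuousLinearMap.fst ℝ X ℝ) = (innerSL ℝ (g 2)).comp (fderiv ℝ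
      (fun q : X × ℝ => Real.cos q.2 • u q.1 + Real.sin q.2 • w q.1) (x, t)) := by
    rw [al_rot (g 2) hu hw t, i2, zero_smul, add_zero]
  have e3 : (Real.cos t • al (g 3) u x + Real.sin t • al (g 3) w x).comp
      (ContinuousLinearMap.fst ℝ X ℝ) = (innerSL ℝ (g 3)).comp (fderiv ℝ
      (fun q : X × ℝ => Real.cos q.2 • u q.1 + Real.sin q.2 • w q.1) (x, t)) := by
    rw [al_rot (g 3) hu hw t, i3, zero_smul, add_zero]
  have key : ∀ i, Fm.pull (fderiv ℝ
      (fun q : X × ℝ => Real.cos q.2 • u q.1 + Real.sin q.2 • w q.1) (x, t))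
      (dx (innerSL ℝ (g i)) * (dx (innerSL ℝ (g 2)) * dx (innerSL ℝ (g 3)))) =
      dx ((innerSL ℝ (g i)).comp (fderiv ℝ
      (fun q : X × ℝ => Real.cos q.2 • u q.1 + Real.sin q.2 • w q.1) (x, t))) *
      Fm.pull (ContinuousLinearMap.fst ℝ X ℝ)
        (dx (Real.cos t • al (g 2) u x + Real.sin t • al (g 2) w x) *
        dx (Real.cos t • al (g 3) u x + Real.sin t • al (g 3) w x)) := by
    intro i
    rw [map_mul, map_mul, pull_dx, pull_dx, pull_dx, map_mul (Fm.pull (ContinuousLinearMap.fst ℝ X ℝ)),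
      pull_dx, pull_dx, e2, e3]
  rw [iprod_wdg4 hg, map_sub, map_smul, map_smul, key, key, map_sub, map_smul, map_smul,
    WR.at1_dx_mul_fst, WR.at1_dx_mul_fst, al_rot (g 0) hu hw t, al_rot (g 1) hu hw t, i0, i1]
  set b := dx (Real.cos t • al (g 2) u x + Real.sin t • al (g 2) w x) *
        dx (Real.cos t • al (g 3) u x + Real.sin t • al (g 3) w x) with hb
  simp only [add_apply, ContinuousLinearMap.comp_apply,
    ContinuousLinearMap.coe_fst', map_zero, zero_add, smul_apply,
    ContinuousLinearMap.coe_snd', smul_eq_mul, mul_one]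
  rw [smul_smul, smul_smul, ← sub_smul]
  have h1 : Real.cos t * Real.cos t - Real.sin t * -Real.sin t = 1 := by
    have := Real.cos_sq_add_sin_sq t
    linear_combination this
  rw [h1, one_smul]

theorem int_rot (a b a' b' : X →L[ℝ] ℝ) :
    ∫ t in (0 : ℝ)..(2 * Real.pi), dx (Real.cos t • a + Real.sin t • b) *
      dx (Real.cos t • a' + Real.sin t • b') = Real.pi • (dx a * dx a' + dx b * dx b') := by
  have h1 : ∀ t : ℝ, dx (Real.cos t • a + Real.sin t • b) * dx (Real.cos t • a' + Real.sin t • b') =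
      (Real.cos t ^ 2) • (dx a * dx a') + (Real.sin t ^ 2) • (dx b * dx b') +
        (Real.sin t * Real.cos t) • (dx a * dx b' + dx b * dx a') := by
    intro t
    rw [map_add, map_add, map_smul, map_smul, map_smul, map_smul, add_mul, mul_add, mul_add,
      smul_mul_smul_comm, smul_mul_smul_comm, smul_mul_smul_comm, smul_mul_smul_comm, smul_add]
    rw [mul_comm (Real.cos t) (Real.sin t), ← pow_two, ← pow_two]
    abel
  simp only [h1]
  rw [intervalIntegral.integral_add, intervalIntegral.integral_add,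
    intervalIntegral.integral_smul_const, intervalIntegral.integral_smul_const,
    intervalIntegral.integral_smul_const, integral_cos_sq, integral_sin_sq,
    integral_sin_mul_cos₁]
  · simp only [Real.cos_two_pi, Real.sin_two_pi, Real.cos_zero, Real.sin_zero]
    rw [smul_add]
    norm_num
  · exact (by fun_prop : Continuous fun t : ℝ => (Real.cos t ^ 2) • (dx a * dx a')).intervalIntegrable _ _
  · exact (by fun_prop : Continuous fun t : ℝ => (Real.sin t ^ 2) • (dx b * dx b')).intervalIntegrable _ _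
  · exact (by fun_prop : Continuous fun t : ℝ => (Real.cos t ^ 2) • (dx a * dx a') +
      (Real.sin t ^ 2) • (dx b * dx b')).intervalIntegrable _ _
  · exact (by fun_prop : Continuous fun t : ℝ => (Real.sin t * Real.cos t) •
      (dx a * dx b' + dx b * dx a')).intervalIntegrable _ _

end Lin

/-! ### geometry -/

variable {E : Type*} [NormedAddCommGroup E] [NormedSpace ℝ E]
  {M : Type*} [MetricSpace M] [ChartedSpace E M]
  [RiemannianBundle (fun x : M => TangentSpace 𝓘(ℝ, E) x)]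
  {e : ∀ x : M, TangentSpace 𝓘(ℝ, E) x → M}
  [FiniteDimensional ℝ E] [IsManifold 𝓘(ℝ, E) ∞ M]
  [IsContMDiffRiemannianBundle 𝓘(ℝ, E) ∞ E (fun x : M => TangentSpace 𝓘(ℝ, E) x)]
  [CompactSpace M] [ConnectedSpace M] [IsRiemannianManifold 𝓘(ℝ, E) M]

/-- plots of pairs in one fibre, in coordinates -/
structure FPl (e : ∀ x : M, TangentSpace 𝓘(ℝ, E) x → M) (D : ℝ) (p q : M) {X : Type}
    [NormedAddCommGroup X] [NormedSpace ℝ X] [FiniteDimensional ℝ X] (P : X → Pr e D)
    (u w : X → TangentSpace 𝓘(ℝ, E) p) (x : X) : Prop where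
  su : Sm u x
  sw : Sm w x
  ev : ∀ᶠ y in 𝓝 x, foot (P y).v = p ∧ (vec' (P y).v : E) = u y ∧ (vec' (P y).w : E) = w y ∧
    bar e D (P y).v = q

theorem FPl.at {D : ℝ} {p q : M} {X : Type} [NormedAddCommGroup X] [NormedSpace ℝ X]
    [FiniteDimensional ℝ X] {P : X → Pr e D} {u w : X → TangentSpace 𝓘(ℝ, E) p} {x : X}
    (h : FPl e D p q P u w x) : (dPr e D).At P x :=
  ⟨WR.at_sphere h.su (h.ev.mono fun y hy => ⟨hy.1, hy.2.1⟩),
    WR.at_sphere h.sw (h.ev.mono fun y hy => ⟨(P y).isL.foot_eq.trans hy.1, hy.2.2.1⟩)⟩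

variable {D : ℝ} {p : M}
  {Pi : TangentSpace 𝓘(ℝ, E) p → TangentSpace 𝓘(ℝ, E) p →L[ℝ] TangentSpace 𝓘(ℝ, E) p}
  {o : TangentSpace 𝓘(ℝ, E) p → Fm.Lam (TangentSpace 𝓘(ℝ, E) p)}
  {ρ : TangentSpace 𝓘(ℝ, E) p → ℝ} {r₀ : ℝ}

/-- **`b₀` on the fibre over `(p, q)`** -/
theorem b0P_fib (F : Facts e) (hD : 0 < D) (hB : InjGE e D)
    (hdiam : ∀ p q : M, dist p q ≤ D)
    (hl : ∀ x y : M, dist x y = D → finrank ℝ (H775.Pl e D x y) = 2 * 1 + 2)
    (hJ : FE.LineP e D p 1 Pi o) (hρ : WE.Rho e D p ρ r₀) (a : ℝ) {q : M}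
    {X : Type} [NormedAddCommGroup X] [NormedSpace ℝ X] [FiniteDimensional ℝ X]
    {P : X → Pr e D} {u w : X → TangentSpace 𝓘(ℝ, E) p} {x : X} (h : FPl e D p q P u w x)
    {g : Fin 4 → TangentSpace 𝓘(ℝ, E) p} (hg : Orthonormal ℝ g) (h0 : u x = g 0)
    (h1 : w x = g 1) {ε : ℝ} (ho : o (u x) = ε • FE.wdg g) :
    (L3.b0P F hD hB hdiam (FE.FF F hD hB hdiam hl hJ hρ a)).val P x =
      (a * 6 * ε * Real.pi) • (dx (al (g 2) u x) * dx (al (g 3) u x) +
        dx (al (g 2) w x) * dx (al (g 3) w x)) := by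
  have hu0 : ‖u x‖ = 1 := by rw [h0]; exact hg.1 0
  have hun : u x ≠ 0 := FE.ne_zero_of_unit hu0
  have hbar : ∀ (y : M) (b : E), y = p → ∀ c : TangentSpace 𝓘(ℝ, E) p, b = c →
      e y (D • b : E) = e p (D • c) := by
    rintro y b rfl c rfl
    rfl
  have key : ∀ t : ℝ, H584.co (Form.pull (R F hD hB hdiam) (isFlow_R F hD hB hdiam).map
      (Form.pull Pr.v map_v (B0 F D (FE.FF F hD hB hdiam hl hJ hρ a)))) P x t =
      (a * 6 * ε) • (dx (Real.cos t • al (g 2) u x + Real.sin t • al (g 2) w x) *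
        dx (Real.cos t • al (g 3) u x + Real.sin t • al (g 3) w x)) := by
    intro t
    rw [H584.co, Form.pull_val _ _ (Form.cyl_at h.at t),
      Form.pull_val _ _ (map_R F hD hB hdiam (Form.cyl_at h.at t))]
    have hfst : Tendsto (Prod.fst : X × ℝ → X) (𝓝 (x, t)) (𝓝 x) := continuous_fst.continuousAt
    have hsu : Sm (fun q : X × ℝ => u q.1) (x, t) :=
      Sm.comp (f := u) (g := Prod.fst) (x := ((x, t) : X × ℝ)) h.su (Sm.of_contDiff contDiff_fst _)
    have hsw : Sm (fun q : X × ℝ => w q.1) (x, t) :=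
      Sm.comp (f := w) (g := Prod.fst) (x := ((x, t) : X × ℝ)) h.sw (Sm.of_contDiff contDiff_fst _)
    have hs : Sm (fun q : X × ℝ => Real.cos q.2 • u q.1 + Real.sin q.2 • w q.1) (x, t) := by
      filter_upwards [hsu, hsw] with z g1 g2
      exact ((Real.contDiff_cos.comp contDiff_snd).contDiffAt.smul g1).add
        ((Real.contDiff_sin.comp contDiff_snd).contDiffAt.smul g2)
    have hev : ∀ᶠ z in 𝓝 ((x, t) : X × ℝ),
        foot ((Pr.v ∘ R F hD hB hdiam ∘ Form.cyl P) z) = p ∧
        (vec' ((Pr.v ∘ R F hD hB hdiam ∘ Form.cyl P) z) : E) =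
          Real.cos z.2 • u z.1 + Real.sin z.2 • w z.1 := by
      filter_upwards [hfst.eventually h.ev] with z hz
      refine ⟨hz.1, ?_⟩
      change Real.cos z.2 • vec' (P z.1).v + Real.sin z.2 • vec' (P z.1).w = _
      rw [hz.2.1, hz.2.2.1]
      rfl
    have hcut : ∀ᶠ z in 𝓝 ((x, t) : X × ℝ),
        Pi (Real.cos t • u x + Real.sin t • w x) (Real.cos z.2 • u z.1 + Real.sin z.2 • w z.1) =
          Real.cos z.2 • u z.1 + Real.sin z.2 • w z.1 := by
      have hun2 : ∀ᶠ z in 𝓝 ((x, t) : X × ℝ), ‖Real.cos z.2 • u z.1 + Real.sin z.2 • w z.1‖ = 1 ∧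
          e p (D • (Real.cos z.2 • u z.1 + Real.sin z.2 • w z.1)) = q := by
        filter_upwards [hfst.eventually h.ev, hev] with z hz hz'
        constructor
        · have g1 := nm_vec' ((Pr.v ∘ R F hD hB hdiam ∘ Form.cyl P) z)
          rw [hz'.1, hz'.2] at g1
          exact g1
        · have g2 : bar e D ((Pr.v ∘ R F hD hB hdiam ∘ Form.cyl P) z) = q :=
            (bar_rv F hD hB hdiam (P z.1) z.2).trans hz.2.2.2
          rw [← g2]
          exact (hbar _ _ hz'.1 _ hz'.2).symm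
      filter_upwards [hun2] with z hz
      have g3 := hun2.self_of_nhds
      exact (hJ.cut _ _ g3.1 hz.1).1 (g3.2.trans hz.2.symm)
    have hB0 := FE.B0_fibre F hD hB hdiam hl hJ hρ a hs hev hcut
    have hU : Real.cos t • u x + Real.sin t • w x = Real.cos t • g 0 + Real.sin t • g 1 := by
      rw [h0, h1]
    have ho' : o (Real.cos t • u x + Real.sin t • w x) = ε • FE.wdg g := by
      rw [← ho]
      have g3 : ‖Real.cos t • u x + Real.sin t • w x‖ = 1 := by
        have g1 := nm_vec' ((Pr.v ∘ R F hD hB hdiam ∘ Form.cyl P) (x, t))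
        rw [hev.self_of_nhds.1, hev.self_of_nhds.2] at g1
        exact g1
      refine hJ.os.or.rel _ _ hun (FE.ne_zero_of_unit g3) ?_
      refine (hJ.cut _ _ hu0 g3).1 ?_
      have g4 := h.ev.self_of_nhds
      have g5 : e p (D • u x) = q := by
        rw [← g4.2.2.2]
        exact (hbar _ _ g4.1 _ g4.2.1).symm
      have g6 : bar e D ((Pr.v ∘ R F hD hB hdiam ∘ Form.cyl P) (x, t)) = q :=
        (bar_rv F hD hB hdiam (P x) t).trans g4.2.2.2
      rw [g5, ← g6]
      exact hbar _ _ hev.self_of_nhds.1 _ hev.self_of_nhds.2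
    refine (congrArg at1 hB0).trans ?_
    have hf : (Nat.factorial (2 * 1 + 1) : ℝ) = 6 := by norm_num [Nat.factorial]
    simp only [hf]
    rw [ho', map_smul, map_smul, map_smul, map_smul, smul_smul, hU,
      at1_rot hg h.su.differentiableAt h.sw.differentiableAt h0 h1 t]
  change (KT (2 * Real.pi) (Form.pull (R F hD hB hdiam) (isFlow_R F hD hB hdiam).map
      (Form.pull Pr.v map_v (B0 F D (FE.FF F hD hB hdiam hl hJ hρ a))))).val P x = _
  rw [H584.KT_val _ _ h.at]
  simp only [key]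
  rw [intervalIntegral.integral_smul, int_rot, smul_smul]

end

end Vale.Agent.P231.S2X
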