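import Vale.Agent.P231.S2X.Jp
import Vale.Agent.P231.X3.Dat

/-!
# P231, stage 2, S2-X: the second line of the complexified plane `P_pq`
-/

set_option maxSynthPendingDepth 3
set_option linter.unusedSectionVars false
set_option linter.unusedVariables false

open Bundle Manifold Set Filter Module Matrix
open scoped ContDiff Manifold Topology

namespace Vale.Agent.P231.S2X

noncomputable section

open Vale.Agent.P234 Vale.Agent.P231 Vale.Agent.P231.Fm Vale.Agent.P231.W Vale.Agent.P231.WR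
open Vale.Agent.P231.S2II Vale.Agent.P231.H649 Vale.Agent.P231.X3 Vale.Agent.P231.ChW

variable {E : Type*} [NormedAddCommGroup E] [NormedSpace ℝ E]
  {M : Type*} [MetricSpace M] [ChartedSpace E M]
  [RiemannianBundle (fun x : M => TangentSpace 𝓘(ℝ, E) x)]
  {e : ∀ x : M, TangentSpace 𝓘(ℝ, E) x → M}
  [FiniteDimensional ℝ E] [IsManifold 𝓘(ℝ, E) ∞ M]
  [IsContMDiffRiemannianBundle 𝓘(ℝ, E) ∞ E (fun x : M => TangentSpace 𝓘(ℝ, E) x)]
  [CompactSpace M] [ConnectedSpace M] [IsRiemannianManifold 𝓘(ℝ, E) M]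
  {D : ℝ} {K : ℕ}

/-- the coordinates of the vectors of a frame -/
def fW (P : PF E M K) (k : Fin 3) (f : Fr e D 3) (i : Fin K) : ℝ := P.em (foot f.v) (vec' (f.W k)) i

theorem fW_fW (P : PF E M K) (k l : Fin 3) (f : Fr e D 3) :
    ∑ i, fW P k f i * fW P l f i = if k = l then 1 else 0 := by
  rw [← ip_W f k l]
  exact (P.ip_eq _ _ _).symm

theorem sm_fW (P : PF E M K) (k : Fin 3) (i : Fin K) :
    SmF (dFr e D 3) (fun f => fW P k f i) := by
  refine SmF.of ?_
  intro E' _ _ _ u x h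
  have h1 : (dTM E M).At (fun s => tb (foot (u s).v) (vec' ((u s).W k))) x :=
    (dTM E M).congr (at_iff.1 (h.2 k))
      (Eventually.of_forall fun s => tb_congr ((u s).isLF.isL k).foot_eq rfl)
  exact P.sm_em h1 i

variable (G : Geo e D 3) (P : PF E M K) {b : Form (dPr e D)}
  (hb : Orn G.F G.hD G.hB G.hdiam (l := 3) b)

/-- the matrix of the rotation in the complement of a pair -/
def jm (p : Pr e D) : Matrix (Fin K) (Fin K) ℝ :=
  P.mat (foot p.v) (foot p.v) (Jq G.F G.hD G.hB G.hdiam G.hP hb p)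

variable {G}

theorem Ad.em_v {p : Pr e D} {f : Fr e D 3} (h : Ad G.F G.hD G.hB G.hdiam b p f) (k : Fin 3)
    (i : Fin K) : ip (foot p.v) (vec' (f.W k)) (P.v i (foot p.v)) = fW P k f i := by
  rw [fW, PF.em, h.hv, ip_comm']

theorem Ad.qF_eq {p : Pr e D} {f : Fr e D 3} (h : Ad G.F G.hD G.hB G.hdiam b p f) (i j : Fin K) :
    qF P p i j = fW P 1 f i * fW P 1 f j + fW P 2 f i * fW P 2 f j := by
  have h1 : pF P p i j = ip (foot p.v) (P.v i (foot p.v)) (prP e D p.v (P.v j (foot p.v))) := rfl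
  have h2 : ∀ k i, ip (foot p.v) (P.v i (foot p.v)) (vec' (f.W k)) = fW P k f i := fun k i => by
    rw [ip_comm', h.em_v (G := G)]
  have h3 : ∀ i, ip (foot p.v) (vec' p.v) (P.v i (foot p.v)) = vv P p i := fun i => ip_comm' _ _ _
  have h4 : ∀ i, ip (foot p.v) (vec' p.w) (P.v i (foot p.v)) = ww P p i := fun i => ip_comm' _ _ _
  have h5 : ∀ i, ip (foot p.v) (P.v i (foot p.v)) (vec' p.v) = vv P p i := fun i => rfl
  have h6 : ∀ i, ip (foot p.v) (P.v i (foot p.v)) (vec' p.w) = ww P p i := fun i => rfl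
  rw [qF, Matrix.sub_apply, h1, h.prP_eq G.hP, ip_add_right', ip_add_right', ip_add_right',
    ip_smul_right', ip_smul_right', ip_smul_right', ip_smul_right', h.em_v (G := G) P, h.em_v (G := G) P, h2, h2,
    h3, h4, h5, h6, lF]
  ring

theorem Ad.jm_eq {p : Pr e D} {f : Fr e D 3} (h : Ad G.F G.hD G.hB G.hdiam b p f) (i j : Fin K) :
    jm G P hb p i j = fW P 2 f i * fW P 1 f j - fW P 1 f i * fW P 2 f j := by
  have h2 : ∀ k i, ip (foot p.v) (P.v i (foot p.v)) (vec' (f.W k)) = fW P k f i := fun k i => by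
    rw [ip_comm', h.em_v (G := G)]
  have h1 : jm G P hb p i j = ip (foot p.v) (P.v i (foot p.v))
      (Jq G.F G.hD G.hB G.hdiam G.hP hb p (P.v j (foot p.v))) := rfl
  rw [h1, Jq_eq G.F G.hD G.hB G.hdiam G.hP hb h, h.Jf_apply', ip_sub_right', ip_smul_right',
    ip_smul_right', h.em_v (G := G) P, h.em_v (G := G) P, h2, h2]
  ring

theorem Ad.Mm_eq {p : Pr e D} {f : Fr e D 3} (h : Ad G.F G.hD G.hB G.hdiam b p f) (i j : Fin K) :
    Mm P (jm G P hb) p i j = (1 / 2 : ℂ) * ((fW P 1 f i - Complex.I * fW P 2 f i) *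
      (fW P 1 f j + Complex.I * fW P 2 f j)) := by
  have h1 : Mm P (jm G P hb) p i j =
      (1 / 2 : ℂ) * ((qF P p i j : ℂ) - Complex.I * (jm G P hb p i j : ℂ)) := by
    simp [Mm, eig]
  rw [h1, h.qF_eq (G := G) P, h.jm_eq (G := G) P hb]
  push_cast
  linear_combination ((1 / 2 : ℂ) * fW P 2 f i * fW P 2 f j) * Complex.I_mul_I

theorem lp : Lp G P (jm G P hb) where
  sm := P.smM_mat G.map_foot (smOp_Jq G.F G.hD G.hB G.hdiam G.hP hb)
  cs p := by
    obtain ⟨f, h⟩ := exists_ad_pt G.F G.hD G.hB G.hdiam G.hP hb p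
    have e11 := fW_fW P 1 1 f
    have e12 := fW_fW P 1 2 f
    have e21 := fW_fW P 2 1 f
    have e22 := fW_fW P 2 2 f
    rw [if_pos rfl] at e11 e22
    rw [if_neg (by decide)] at e12 e21
    refine ⟨qF_idem P p, ?_, ?_, ?_⟩
    · ext i j
      rw [Matrix.mul_apply]
      simp only [h.qF_eq (G := G) P, h.jm_eq (G := G) P hb]
      have h1 : ∀ k, (fW P 1 f i * fW P 1 f k + fW P 2 f i * fW P 2 f k) *
          (fW P 2 f k * fW P 1 f j - fW P 1 f k * fW P 2 f j) =
          (fW P 1 f k * fW P 2 f k) * (fW P 1 f i * fW P 1 f j) -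
          (fW P 1 f k * fW P 1 f k) * (fW P 1 f i * fW P 2 f j) +
          ((fW P 2 f k * fW P 2 f k) * (fW P 2 f i * fW P 1 f j) -
          (fW P 2 f k * fW P 1 f k) * (fW P 2 f i * fW P 2 f j)) := fun k => by ring
      simp only [h1, Finset.sum_add_distrib, Finset.sum_sub_distrib, ← Finset.sum_mul]
      rw [e11, e12, e21, e22]
      ring
    · ext i j
      rw [Matrix.mul_apply]
      simp only [h.qF_eq (G := G) P, h.jm_eq (G := G) P hb]
      have h1 : ∀ k, (fW P 2 f i * fW P 1 f k - fW P 1 f i * fW P 2 f k) *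
          (fW P 1 f k * fW P 1 f j + fW P 2 f k * fW P 2 f j) =
          (fW P 1 f k * fW P 1 f k) * (fW P 2 f i * fW P 1 f j) +
          (fW P 1 f k * fW P 2 f k) * (fW P 2 f i * fW P 2 f j) -
          ((fW P 2 f k * fW P 1 f k) * (fW P 1 f i * fW P 1 f j) +
          (fW P 2 f k * fW P 2 f k) * (fW P 1 f i * fW P 2 f j)) := fun k => by ring
      simp only [h1, Finset.sum_add_distrib, Finset.sum_sub_distrib, ← Finset.sum_mul]
      rw [e11, e12, e21, e22]
      ring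
    · ext i j
      rw [Matrix.mul_apply, Matrix.neg_apply]
      simp only [h.qF_eq (G := G) P, h.jm_eq (G := G) P hb]
      have h1 : ∀ k, (fW P 2 f i * fW P 1 f k - fW P 1 f i * fW P 2 f k) *
          (fW P 2 f k * fW P 1 f j - fW P 1 f k * fW P 2 f j) =
          (fW P 1 f k * fW P 2 f k) * (fW P 2 f i * fW P 1 f j) -
          (fW P 1 f k * fW P 1 f k) * (fW P 2 f i * fW P 2 f j) -
          ((fW P 2 f k * fW P 2 f k) * (fW P 1 f i * fW P 1 f j) -
          (fW P 2 f k * fW P 1 f k) * (fW P 1 f i * fW P 2 f j)) := fun k => by ring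
      simp only [h1, Finset.sum_sub_distrib, ← Finset.sum_mul]
      rw [e11, e12, e21, e22]
      ring
  rot p t := by
    have h1 : Jq G.F G.hD G.hB G.hdiam G.hP hb (G.R (p, t)) =
        Jq G.F G.hD G.hB G.hdiam G.hP hb p := Jq_R G.F G.hD G.hB G.hdiam G.hP hb p t
    rw [jm, jm, h1]
    rfl

/-! ### the first Chern form, pulled back to the space of frames -/

theorem map_p0 : (dFr e D 3).Map (dPr e D) Fr.p0 := fun h => ⟨h.1, h.2 0⟩

theorem map_p0' : (dFo G.F G.hD G.hB G.hdiam (l := 3) b).Map (dPr e D) Fr.p0 :=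
  fun h => map_p0 h.1

theorem ad_p0 {f : Fr e D 3} (h : 0 < kf G.F G.hD G.hB G.hdiam b f) :
    Ad G.F G.hD G.hB G.hdiam b f.p0 f := ⟨rfl, rfl, h⟩

theorem cM_congr_on {X : Type*} {dX : Dif X} {S : Set X} {m n : Type*} [Fintype m] [Fintype n]
    {a a' : X → Matrix m n ℂ} (ha : SmM (dX.on S) a) (ha' : SmM (dX.on S) a')
    (h : ∀ x ∈ S, a x = a' x) : cM a ha = cM a' ha' := by
  ext1 i j
  rw [cM_apply, cM_apply]
  ext1
  · refine Form.ext_val fun E' _ _ _ u x hu => ?_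
    rw [cf_re, cf_re, fr_val _ _ hu, fr_val _ _ hu, h (u x) hu.2.self_of_nhds]
  · refine Form.ext_val fun E' _ _ _ u x hu => ?_
    rw [cf_im, cf_im, fr_val _ _ hu, fr_val _ _ hu, h (u x) hu.2.self_of_nhds]

theorem sm_fW' {S : Set (Fr e D 3)} (k : Fin 3) (i : Fin K) :
    SmF ((dFr e D 3).on S) (fun f => fW P k f i) :=
  ⟨fun h => (sm_fW P k i).mp h.1⟩

/-- the matrix of the second line in a frame -/
def mF (P : PF E M K) (f : Fr e D 3) : Matrix (Fin K) (Fin K) ℂ := fun i j =>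
  (1 / 2 : ℂ) * ((fW P 1 f i - Complex.I * fW P 2 f i) * (fW P 1 f j + Complex.I * fW P 2 f j))

theorem sm_mF {S : Set (Fr e D 3)} : SmM ((dFr e D 3).on S) (mF P) := fun i j =>
  (SmF.const _ (1 / 2 : ℂ)).mul
    (((sm_fW' P 1 i).ofReal.sub ((SmF.const _ Complex.I).mul (sm_fW' P 2 i).ofReal)).mul
    ((sm_fW' P 1 j).ofReal.add ((SmF.const _ Complex.I).mul (sm_fW' P 2 j).ofReal)))

/-- **the first Chern form on frames** -/
theorem pull_sC (G : Geo e D 3) (hb : Orn G.F G.hD G.hB G.hdiam (l := 3) b) :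
    Form.pull Fr.p0 (map_p0' (G := G) (b := b))
      (sC 1 (cM (Mm P (jm G P hb)) (sm_Mm G P (lp P hb)))).re =
    -(1 / (2 * Real.pi)) • (conn (sm_fW' P 1) (sm_fW' P 2)).d := by
  have h1 : sC 1 ((cM (Mm P (jm G P hb)) (sm_Mm G P (lp P hb))).map
      (pullC Fr.p0 (map_p0' (G := G) (b := b)))) =
      pullC Fr.p0 (map_p0' (G := G) (b := b))
        (sC 1 (cM (Mm P (jm G P hb)) (sm_Mm G P (lp P hb)))) := by
    rw [sC, sC, pullC_smul, map_ch _ (pullC_d _ _)]
  rw [map_pullC_cM, cM_congr_on _ (sm_mF P) (fun f hf => by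
    ext1 i j
    exact (ad_p0 (G := G) hf).Mm_eq (G := G) P hb i j), sC_line (sm_fW' P 1) (sm_fW' P 2)
    (fun f => by rw [fW_fW, if_pos rfl]) (fun f => by rw [fW_fW, if_pos rfl])
    (fun f => by rw [fW_fW, if_neg (by decide)]) (sm_mF P) (fun f i j => rfl)] at h1
  exact (congrArg Cx.re h1).symm

end

end Vale.Agent.P231.S2X
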