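import Vale.Agent.P231.A3.Rel

/-!
# P231, stage 2, S2-X: an exact basic form which vanishes on the fibres is the differential of a
basic form
-/

set_option linter.unusedSectionVars false
set_option linter.unusedVariables false

open Set Module Filter Topology
open scoped ContDiff

namespace Vale.Agent.P231.S2X

open Fm W H584

noncomputable section

/-- naturality of the integration over `[0, c]` -/
theorem KT_nat {X Y : Type*} {D : Dif X} {D' : Dif Y} {f : X → Y} (hf : D.Map D' f) (c : ℝ)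
    (w : Form (D'.prod (Dif.lin ℝ))) :
    KT c (Form.pull (fun p : X × ℝ => (f p.1, p.2)) (map_cyl hf) w) = Form.pull f hf (KT c w) := by
  have h1 : (D.prod (Dif.lin ℝ)).Map (D'.prod (Dif.lin ℝ)) (fun p => (f p.1, c * p.2)) :=
    fun {E} _ _ _ {u x} hh => map_scale c (map_cyl hf hh)
  rw [KT, KT, ← K_nat hf]
  congr 1
  rw [pull_pull (map_scale c) (map_cyl hf) h1 (fun p => rfl),
    pull_pull (map_cyl hf) (map_scale c) h1 (fun p => rfl)]

theorem pull_zero' {X Y : Type*} {D : Dif X} {D' : Dif Y} {f : X → Y} (hf : D.Map D' f) :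
    Form.pull f hf (0 : Form D') = 0 := map_zero (Form.pullA f hf)

theorem pull_one' {X Y : Type*} {D : Dif X} {D' : Dif Y} {f : X → Y} (hf : D.Map D' f) :
    Form.pull f hf (1 : Form D') = 1 := map_one (Form.pullA f hf)

variable {X : Type*} {D : Dif X} {T : ℝ} {Φ : X × ℝ → X} (h : IsFlow D T Φ) {α : Form D}

/-- maps from `X × ℝ` given by a map from the plane -/
theorem map_plane {Y : Type*} {D' : Dif Y} {g : ℝ × ℝ → X}
    (hg : ((Dif.lin ℝ).prod (Dif.lin ℝ)).Map D g) {s : Y → ℝ} (hs : D'.Map (Dif.lin ℝ) s) :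
    (D'.prod (Dif.lin ℝ)).Map D (fun p => g (s p.1, p.2)) := fun {E} _ _ _ {u x} hh =>
  hg ⟨hs hh.1, hh.2⟩

theorem map_constR {Y : Type*} {D' : Dif Y} (s : ℝ) : D'.Map (Dif.lin ℝ) (fun _ : Y => s) :=
  fun {E} _ _ _ {u x} _ => Sm.of_contDiff contDiff_const x

theorem map_mulR (s₁ : ℝ) :
    (D.prod (Dif.lin ℝ)).Map (Dif.lin ℝ) (fun p : X × ℝ => s₁ * p.2) := by
  intro E _ _ _ u x hh
  have h2 : Sm (fun y => (u y).2) x := hh.2
  have h3 : Sm (fun y => s₁ * (u y).2) x := by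
    filter_upwards [h2] with y hy
    exact contDiffAt_const.mul hy
  exact h3

/-- **the integral of a one-form over an orbit which is contractible in a fibre** -/
theorem orbit_zero {ζ η : Form D} (hη : ζ = η.d) (hdeg : Form.IsDeg 1 η)
    {g : ℝ × ℝ → X} (hg : ((Dif.lin ℝ).prod (Dif.lin ℝ)).Map D g) {b₀ c₁ : X} {s₁ : ℝ}
    (g0 : ∀ t, g (0, t) = Φ (b₀, t)) (gT : ∀ s, g (s, T) = g (s, 0)) (g1 : ∀ t, g (s₁, t) = c₁)
    (hζ : Form.pull g hg ζ = 0) (hb : D.Map D (fun _ : X => b₀)) :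
    Form.pull (fun _ : X => b₀) hb (J Φ h.map T η) = 0 := by
  -- the family over `X × ℝ`
  have hs : (D.prod (Dif.lin ℝ)).Map (Dif.lin ℝ) (fun p : X × ℝ => s₁ * p.2) := map_mulR s₁
  have hM : ((D.prod (Dif.lin ℝ)).prod (Dif.lin ℝ)).Map D
      (fun p : (X × ℝ) × ℝ => g (s₁ * p.1.2, p.2)) := map_plane hg hs
  set W₁ : Form (D.prod (Dif.lin ℝ)) := KT T (Form.pull (fun p : (X × ℝ) × ℝ =>
    g (s₁ * p.1.2, p.2)) hM η) with hW
  have hWdeg : Form.IsDeg 0 W₁ := by
    rw [hW, KT]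
    exact ((hdeg.pull _ hM).pull _ (map_scale T)).K
  -- restriction to time `s`
  have hat : ∀ s : ℝ, at_ s W₁ = KT T (Form.pull (fun p : X × ℝ => g (s₁ * s, p.2))
      (map_plane hg (map_constR (s₁ * s))) η) := by
    intro s
    rw [at_, hW, ← KT_nat (Form.map_slice s)]
    congr 1
    exact pull_pull _ hM _ (fun p => rfl) η
  have hW0 : W₁.d = 0 := by
    have h1 := KT_homotopy T (Form.pull (fun p : (X × ℝ) × ℝ => g (s₁ * p.1.2, p.2)) hM η)
    have h2 : at_ T (Form.pull (fun p : (X × ℝ) × ℝ => g (s₁ * p.1.2, p.2)) hM η) =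
        at_ 0 (Form.pull (fun p : (X × ℝ) × ℝ => g (s₁ * p.1.2, p.2)) hM η) := by
      rw [at_, at_, pull_pull (k := fun p : X × ℝ => g (s₁ * p.2, 0)) (Form.map_slice T) hM
        (fun {E} _ _ _ {u x} hh => hM (Form.map_slice 0 hh)) (fun p => gT _)]
      exact (pull_pull (Form.map_slice 0) hM _ (fun p => rfl) η).symm
    have h3 : (Form.pull (fun p : (X × ℝ) × ℝ => g (s₁ * p.1.2, p.2)) hM η).d = 0 := by
      rw [← Form.pull_d, ← hη]
      have hM2 : (((D.prod (Dif.lin ℝ))).prod (Dif.lin ℝ)).Map ((Dif.lin ℝ).prod (Dif.lin ℝ))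
          (fun p : (X × ℝ) × ℝ => (s₁ * p.1.2, p.2)) := fun {E} _ _ _ {u x} hh => ⟨hs hh.1, hh.2⟩
      have h4 := pull_pull hM2 hg hM (fun p => rfl) ζ
      rw [hζ, pull_zero'] at h4
      exact h4.symm
    rw [h2, sub_self, h3, KT_zero, zero_add] at h1
    exact h1.symm
  have h01 : at_ 1 W₁ = at_ 0 W₁ := by
    have h1 := homotopy' W₁
    rw [hW0, K_zero, Form.IsDeg.K_zero hWdeg, Form.d_zero, add_zero] at h1
    exact sub_eq_zero.1 h1
  have hend : at_ 1 W₁ = 0 := by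
    rw [hat 1]
    have hc : D.Map D (fun _ : X => c₁) := fun {E} _ _ _ {u x} hh => by
      have h2 := hg (u := fun _ : E => ((s₁, (0 : ℝ)) : ℝ × ℝ)) (x := x)
        ⟨Sm.of_contDiff contDiff_const x, Sm.of_contDiff contDiff_const x⟩
      have h3 : (g ∘ fun _ : E => ((s₁, (0 : ℝ)) : ℝ × ℝ)) = (fun _ : X => c₁) ∘ u := by
        funext y
        exact g1 0
      rw [h3] at h2
      exact h2
    have h2 : Form.pull (fun p : X × ℝ => g (s₁ * 1, p.2)) (map_plane hg (map_constR (s₁ * 1))) η =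
        pr (Form.pull (fun _ : X => c₁) hc η) :=
      (pull_pull Dif.map_fst hc _ (fun p => by rw [mul_one, g1]) η).symm
    rw [h2, KT_pr]
  rw [J_def, ← KT_nat hb, ← hend, h01, hat 0]
  congr 1
  exact pull_pull (map_cyl hb) h.map _ (fun p => by rw [mul_zero, g0]) η

/-- **an exact basic two-form which vanishes on a fibre in which an orbit is contractible is the
differential of a basic form** -/
theorem exact_basic (hT : T ≠ 0) (hα : Form.pull Φ h.map α = pr α + dt) (hαo : α.sg = -α)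
    (H0 : ∀ w : Form D, Form.IsDeg 0 w → w.d = 0 → ∃ r : ℝ, w = r • 1)
    {ζ η : Form D} (hζb : Basic Φ h.map ζ) (hζ2 : Form.IsDeg 2 ζ) (hη : ζ = η.d)
    {g : ℝ × ℝ → X} (hg : ((Dif.lin ℝ).prod (Dif.lin ℝ)).Map D g) {b₀ c₁ : X} {s₁ : ℝ}
    (g0 : ∀ t, g (0, t) = Φ (b₀, t)) (gT : ∀ s, g (s, T) = g (s, 0)) (g1 : ∀ t, g (s₁, t) = c₁)
    (hζ : Form.pull g hg ζ = 0) :
    ∃ ρ : Form D, Basic Φ h.map ρ ∧ ζ = ρ.d := by
  set τ := Form.part 1 η with hτ
  have h1 : ζ = τ.d := by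
    rw [hτ, ← Form.part_succ_d, ← hη]
    exact hζ2.part_eq.symm
  have hdeg : Form.IsDeg 1 τ := Form.part_part_self 1 η
  have hb : D.Map D (fun _ : X => b₀) := fun {E} _ _ _ {u x} hh => by
    have h2 := hg (u := fun _ : E => (((0 : ℝ), (0 : ℝ)) : ℝ × ℝ)) (x := x)
      ⟨Sm.of_contDiff contDiff_const x, Sm.of_contDiff contDiff_const x⟩
    have h3 : (g ∘ fun _ : E => (((0 : ℝ), (0 : ℝ)) : ℝ × ℝ)) = (fun _ : X => b₀) ∘ u := by
      funext y
      exact (g0 0).trans (h.zero b₀)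
    rw [h3] at h2
    exact h2
  have hbas : Basic Φ h.map τ.d := by rw [← h1]; exact hζb
  have hJd : (J Φ h.map T τ).d = 0 := by
    have h3 := J_d h τ
    rw [J_of_basic T hbas] at h3
    exact neg_eq_zero.1 h3.symm
  have hJ0 : Form.IsDeg 0 (J Φ h.map T τ) := by
    have h4 := WA.part_J h.map 0 T τ
    change Form.part 0 _ = _
    rw [h4, hτ]
    exact congrArg (J Φ h.map T) (Form.part_part_self 1 η)
  obtain ⟨r, hr⟩ := H0 _ hJ0 hJd
  have h5 := orbit_zero h h1 hdeg hg g0 gT g1 hζ hb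
  have h6 : J Φ h.map T τ = 0 := by
    rw [hr] at h5 ⊢
    have h7 : Form.pull (fun _ : X => b₀) hb (r • (1 : Form D)) = r • 1 := by
      refine (map_smul (Form.pullA (fun _ : X => b₀) hb) r (1 : Form D)).trans ?_
      congr 1
      exact pull_one' hb
    rw [h7] at h5
    exact h5
  have h8 := gysin_d h hα hαo hbas
  rw [h6, mul_zero, zero_add] at h8
  refine ⟨T⁻¹ • J Φ h.map T (α * τ), Basic.smul _ (J_basic h _), ?_⟩
  rw [Form.d_smul, ← h8, smul_smul, inv_mul_cancel₀ hT, one_smul, ← h1]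

end

end Vale.Agent.P231.S2X
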