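import Vale.Agent.P231.WR.Proj
import Vale.Agent.P231.S2X.Zeta

/-!
# P231, stage 2, S2-X: frames of one plane `P_pq`, contraction of a rotation orbit in the space of
orthonormal pairs of `P_pq`
-/

set_option maxSynthPendingDepth 3
set_option linter.unusedSectionVars false
set_option linter.unusedVariables false

open Bundle Manifold Set Filter Module
open scoped ContDiff Manifold Topology

namespace Vale.Agent.P231.S2X

noncomputable section

open Vale.Agent.P234 Vale.Agent.P231 Vale.Agent.P231.Fm Vale.Agent.P231.W Vale.Agent.P231.WR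

variable {E : Type*} [NormedAddCommGroup E] [NormedSpace ℝ E]
  {M : Type*} [MetricSpace M] [ChartedSpace E M]
  [RiemannianBundle (fun x : M => TangentSpace 𝓘(ℝ, E) x)]
  {e : ∀ x : M, TangentSpace 𝓘(ℝ, E) x → M}
  [FiniteDimensional ℝ E] [IsManifold 𝓘(ℝ, E) ∞ M]
  [IsContMDiffRiemannianBundle 𝓘(ℝ, E) ∞ E (fun x : M => TangentSpace 𝓘(ℝ, E) x)]

/-- orthonormal vectors of the plane `P_pq` -/
structure PFr (e : ∀ x : M, TangentSpace 𝓘(ℝ, E) x → M) (D : ℝ) {k : ℕ} (p q : M)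
    (A : Fin k → UT E M) : Prop where
  foot : ∀ i, foot (A i) = p
  bar : ∀ i, bar e D (A i) = q
  on : ∀ i j, ip p (vec' (A i)) (vec' (A j)) = if i = j then 1 else 0

/-- combinations of a frame -/
def cmb {k : ℕ} (A : Fin k → UT E M) (ξ : Fin k → ℝ) : E := ∑ i, ξ i • vec' (A i)

theorem PFr.ip_cmb {D : ℝ} {k : ℕ} {p q : M} {A : Fin k → UT E M} (h : PFr e D p q A)
    (ξ η : Fin k → ℝ) : ip p (cmb A ξ) (cmb A η) = ∑ i, ξ i * η i := by
  rw [cmb, cmb, ip_sum_left]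
  refine Finset.sum_congr rfl fun i _ => ?_
  rw [ip_smul_left', ip_sum_right]
  congr 1
  rw [Finset.sum_eq_single i]
  · rw [ip_smul_right', h.on, if_pos rfl, mul_one]
  · intro j _ hj
    rw [ip_smul_right', h.on, if_neg (Ne.symm hj), mul_zero]
  · intro hi
    exact absurd (Finset.mem_univ i) hi

theorem PFr.nm_cmb {D : ℝ} {k : ℕ} {p q : M} {A : Fin k → UT E M} (h : PFr e D p q A)
    {ξ : Fin k → ℝ} (hξ : ∑ i, ξ i * ξ i = 1) : nm p (cmb A ξ) = 1 :=
  nm_eq_one (by rw [h.ip_cmb, hξ])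

/-- unit combinations as unit vectors -/
def PFr.u {D : ℝ} {k : ℕ} {p q : M} {A : Fin k → UT E M} (h : PFr e D p q A)
    (ξ : Fin k → ℝ) (hξ : ∑ i, ξ i * ξ i = 1) : UT E M := W.mk p (cmb A ξ) (h.nm_cmb hξ)

@[simp] theorem PFr.foot_u {D : ℝ} {k : ℕ} {p q : M} {A : Fin k → UT E M} (h : PFr e D p q A)
    (ξ : Fin k → ℝ) (hξ : ∑ i, ξ i * ξ i = 1) : W.foot (h.u ξ hξ) = p := rfl

@[simp] theorem PFr.vec_u {D : ℝ} {k : ℕ} {p q : M} {A : Fin k → UT E M} (h : PFr e D p q A)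
    (ξ : Fin k → ℝ) (hξ : ∑ i, ξ i * ξ i = 1) : vec' (h.u ξ hξ) = cmb A ξ := rfl

variable [CompactSpace M] [ConnectedSpace M] [IsRiemannianManifold 𝓘(ℝ, E) M]

theorem PFr.at_u {D : ℝ} {k : ℕ} {p q : M} {A : Fin (k + 1) → UT E M} (h : PFr e D p q A)
    {E' : Type} [NormedAddCommGroup E'] [NormedSpace ℝ E'] [FiniteDimensional ℝ E']
    {ξ : E' → Fin (k + 1) → ℝ} (hξ : ∀ s, ∑ i, ξ s i * ξ s i = 1) {x : E'}
    (hs : ∀ i, Sm (fun s => ξ s i) x) : (dUT E M).At (fun s => h.u (ξ s) (hξ s)) x := by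
  have hc : ∀ v : UT E M, (dUT E M).At (fun _ : E' => v) x := fun v => by
    rw [at_iff]
    exact Eventually.of_forall fun s => contMDiffAt_const
  refine at_sum (u := fun _ => A 0) (W := fun i _ => A i) (hc _) (fun i => hc _)
    (fun i => Eventually.of_forall fun s => (h.foot i).trans (h.foot 0).symm) hs
    (Eventually.of_forall fun s => ⟨(h.foot 0).symm, rfl⟩)

theorem PFr.mem {D : ℝ} {k : ℕ} {p q : M} {A : Fin k → UT E M} (h : PFr e D p q A)
    (ξ : Fin k → ℝ) :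
    ((cmb A ξ : E) : TangentSpace 𝓘(ℝ, E) p) ∈ H775.Pl e D q p := by
  refine Submodule.sum_mem _ fun i _ => Submodule.smul_mem _ _ ?_
  refine H775.Lk_subset_Pl D _ _ ?_
  have h1 := mem_Lk_self (e := e) D (A i)
  have key : ∀ (x y : M) (_ : x = p) (_ : y = q),
      ((vec' (E := E) (A i) : TangentSpace 𝓘(ℝ, E) x) ∈ Lk e D y x) →
      (vec' (E := E) (A i) : TangentSpace 𝓘(ℝ, E) p) ∈ Lk e D q p := by
    rintro x y rfl rfl h
    exact h
  exact key _ _ (h.foot i) (h.bar i) h1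

theorem PFr.dist {D : ℝ} (F : Facts e) (hD : 0 < D) (hB : InjGE e D) {k : ℕ} {p q : M}
    {A : Fin (k + 1) → UT E M} (h : PFr e D p q A) : dist q p = D := by
  have h1 := dist_bar' F hD hB (A 0)
  rwa [h.foot 0, h.bar 0] at h1

theorem PFr.bar_u (F : Facts e) {D : ℝ} (hD : 0 < D) (hB : InjGE e D)
    (hdiam : ∀ p q : M, Dist.dist p q ≤ D) {k : ℕ} {p q : M} {A : Fin (k + 1) → UT E M}
    (h : PFr e D p q A) (ξ : Fin (k + 1) → ℝ) (hξ : ∑ i, ξ i * ξ i = 1) :
    W.bar e D (h.u ξ hξ) = q :=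
  ((H775.mem_Lk_iff F hD hB hdiam (h.dist F hD hB)).2 ⟨h.nm_cmb hξ, h.mem ξ⟩).2

theorem PFr.isL (F : Facts e) {D : ℝ} (hD : 0 < D) (hB : InjGE e D)
    (hdiam : ∀ p q : M, Dist.dist p q ≤ D) {k : ℕ} {p q : M} {A : Fin (k + 1) → UT E M}
    (h : PFr e D p q A) {ξ η : Fin (k + 1) → ℝ} (hξ : ∑ i, ξ i * ξ i = 1)
    (hη : ∑ i, η i * η i = 1) (hξη : ∑ i, ξ i * η i = 0) :
    IsL e D (h.u ξ hξ) (h.u η hη) where
  foot_eq := rfl
  orth := by
    rw [h.foot_u, h.vec_u, h.vec_u, h.ip_cmb, hξη]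
  bar_eq := by rw [h.bar_u F hD hB hdiam, h.bar_u F hD hB hdiam]

/-- a frame of `L_v` and `v` itself -/
theorem IsLF.pfr {D : ℝ} {l : ℕ} {v : UT E M} {W : Fin l → UT E M} (h : IsLF e D v W) :
    PFr e D (foot v) (bar e D v) (Fin.cons v W : Fin (l + 1) → UT E M) where
  foot i := by
    refine Fin.cases rfl (fun i => ?_) i
    exact (h.isL i).foot_eq
  bar i := by
    refine Fin.cases rfl (fun i => ?_) i
    exact (h.isL i).bar_eq
  on i j := by
    refine Fin.cases ?_ (fun i => ?_) i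
    · refine Fin.cases ?_ (fun j => ?_) j
      · rw [if_pos rfl]
        exact ip_vec' v
      · rw [if_neg (Fin.succ_ne_zero j).symm]
        exact (h.isL j).orth
    · refine Fin.cases ?_ (fun j => ?_) j
      · rw [if_neg (Fin.succ_ne_zero i), ip_comm']
        exact (h.isL i).orth
      · by_cases hij : i = j
        · subst hij
          rw [if_pos rfl]
          exact (h.isL i).ip_self
        · rw [if_neg fun h' => hij (Fin.succ_injective _ h')]
          exact h.orth i j hij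

/-! ### the contraction of an orbit -/

section Contr

/-- coordinates of the first vector -/
def xi (s t : ℝ) : Fin 4 → ℝ := ![Real.cos s * Real.cos t, Real.cos s * Real.sin t, Real.sin s, 0]

/-- coordinates of the second vector -/
def et (s t : ℝ) : Fin 4 → ℝ :=
  ![-(Real.cos s * Real.sin t), Real.cos s * Real.cos t, 0, -Real.sin s]

theorem xi_xi (s t : ℝ) : ∑ i, xi s t i * xi s t i = 1 := by
  simp only [xi, Fin.sum_univ_four, Matrix.cons_val_zero, Matrix.cons_val_one, Matrix.cons_val]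
  have h1 := Real.cos_sq_add_sin_sq s
  have h2 := Real.cos_sq_add_sin_sq t
  linear_combination h1 + Real.cos s ^ 2 * h2

theorem et_et (s t : ℝ) : ∑ i, et s t i * et s t i = 1 := by
  simp only [et, Fin.sum_univ_four, Matrix.cons_val_zero, Matrix.cons_val_one, Matrix.cons_val]
  have h1 := Real.cos_sq_add_sin_sq s
  have h2 := Real.cos_sq_add_sin_sq t
  linear_combination h1 + Real.cos s ^ 2 * h2

theorem xi_et (s t : ℝ) : ∑ i, xi s t i * et s t i = 0 := by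
  simp only [xi, et, Fin.sum_univ_four, Matrix.cons_val_zero, Matrix.cons_val_one,
    Matrix.cons_val]
  ring

theorem contDiff_xi (i : Fin 4) : ContDiff ℝ ∞ (fun z : ℝ × ℝ => xi z.1 z.2 i) := by
  have hc1 : ContDiff ℝ ∞ (fun z : ℝ × ℝ => Real.cos z.1) := Real.contDiff_cos.comp contDiff_fst
  have hs1 : ContDiff ℝ ∞ (fun z : ℝ × ℝ => Real.sin z.1) := Real.contDiff_sin.comp contDiff_fst
  have hc2 : ContDiff ℝ ∞ (fun z : ℝ × ℝ => Real.cos z.2) := Real.contDiff_cos.comp contDiff_snd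
  have hs2 : ContDiff ℝ ∞ (fun z : ℝ × ℝ => Real.sin z.2) := Real.contDiff_sin.comp contDiff_snd
  fin_cases i
  · exact hc1.mul hc2
  · exact hc1.mul hs2
  · exact hs1
  · exact contDiff_const

theorem contDiff_et (i : Fin 4) : ContDiff ℝ ∞ (fun z : ℝ × ℝ => et z.1 z.2 i) := by
  have hc1 : ContDiff ℝ ∞ (fun z : ℝ × ℝ => Real.cos z.1) := Real.contDiff_cos.comp contDiff_fst
  have hs1 : ContDiff ℝ ∞ (fun z : ℝ × ℝ => Real.sin z.1) := Real.contDiff_sin.comp contDiff_fst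
  have hc2 : ContDiff ℝ ∞ (fun z : ℝ × ℝ => Real.cos z.2) := Real.contDiff_cos.comp contDiff_snd
  have hs2 : ContDiff ℝ ∞ (fun z : ℝ × ℝ => Real.sin z.2) := Real.contDiff_sin.comp contDiff_snd
  fin_cases i
  · exact (hc1.mul hs2).neg
  · exact hc1.mul hc2
  · exact contDiff_const
  · exact hs1.neg

variable (F : Facts e) {D : ℝ} (hD : 0 < D) (hB : InjGE e D)
  (hdiam : ∀ p q : M, Dist.dist p q ≤ D) {p q : M} {A : Fin 4 → UT E M} (h : PFr e D p q A)

/-- the contraction of the orbit of `(A 0, A 1)` -/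
def gg2 (z : ℝ × ℝ) : Pr e D :=
  ⟨(h.u (xi z.1 z.2) (xi_xi z.1 z.2), h.u (et z.1 z.2) (et_et z.1 z.2)),
    h.isL F hD hB hdiam (xi_xi z.1 z.2) (et_et z.1 z.2) (xi_et z.1 z.2)⟩

theorem map_gg2 : ((Dif.lin ℝ).prod (Dif.lin ℝ)).Map (dPr e D) (gg2 F hD hB hdiam h) := by
  intro E' _ _ _ u x hu
  have h1 : Sm (fun s => (u s).1) x := hu.1
  have h2 : Sm (fun s => (u s).2) x := hu.2
  have h3 : Sm u x := h1.prodMk h2
  refine ⟨?_, ?_⟩
  · exact h.at_u (ξ := fun s => xi (u s).1 (u s).2) (fun s => xi_xi _ _)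
      fun i => Sm.comp (f := fun z : ℝ × ℝ => xi z.1 z.2 i) (g := u)
        (Sm.of_contDiff (contDiff_xi i) _) h3
  · exact h.at_u (ξ := fun s => et (u s).1 (u s).2) (fun s => et_et _ _)
      fun i => Sm.comp (f := fun z : ℝ × ℝ => et z.1 z.2 i) (g := u)
        (Sm.of_contDiff (contDiff_et i) _) h3

theorem gg2_congr {z z' : ℝ × ℝ} (h1 : xi z.1 z.2 = xi z'.1 z'.2)
    (h2 : et z.1 z.2 = et z'.1 z'.2) :
    gg2 F hD hB hdiam h z = gg2 F hD hB hdiam h z' :=
  Pr.ext' (mk_congr rfl (by rw [h1])) (mk_congr rfl (by rw [h2]))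

theorem gg2_per (s : ℝ) : gg2 F hD hB hdiam h (s, 2 * Real.pi) = gg2 F hD hB hdiam h (s, 0) :=
  gg2_congr F hD hB hdiam h (by simp [xi]) (by simp [et])

theorem gg2_end (t : ℝ) : gg2 F hD hB hdiam h (Real.pi / 2, t) =
    gg2 F hD hB hdiam h (Real.pi / 2, 0) :=
  gg2_congr F hD hB hdiam h (by simp [xi]) (by simp [et])

theorem gg2_zero (t : ℝ) : gg2 F hD hB hdiam h (0, t) =
    R F hD hB hdiam (gg2 F hD hB hdiam h (0, 0), t) := by
  refine Pr.ext' (mk_congr rfl ?_) (mk_congr rfl ?_)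
  · change cmb A (xi 0 t) = Real.cos t • cmb A (xi 0 0) + Real.sin t • cmb A (et 0 0)
    simp only [cmb, Fin.sum_univ_four, xi, et, Real.cos_zero, Real.sin_zero,
      Matrix.cons_val_zero, Matrix.cons_val_one, Matrix.cons_val]
    module
  · change cmb A (et 0 t) = (-Real.sin t) • cmb A (xi 0 0) + Real.cos t • cmb A (et 0 0)
    simp only [cmb, Fin.sum_univ_four, xi, et, Real.cos_zero, Real.sin_zero,
      Matrix.cons_val_zero, Matrix.cons_val_one, Matrix.cons_val]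
    module

/-- plots in one fibre -/
def FibPlot (e : ∀ x : M, TangentSpace 𝓘(ℝ, E) x → M) (D : ℝ) (p q : M) {E' : Type}
    [NormedAddCommGroup E'] [NormedSpace ℝ E'] [FiniteDimensional ℝ E'] (b : E' → Pr e D)
    (x : E') : Prop :=
  (dPr e D).At b x ∧ ∀ᶠ s in 𝓝 x, W.foot (b s).v = p ∧ W.bar e D (b s).v = q

/-- forms which vanish on the fibres -/
def FibZero (e : ∀ x : M, TangentSpace 𝓘(ℝ, E) x → M) (D : ℝ) (ζ : Form (dPr e D)) : Prop :=
  ∀ (p q : M) {E' : Type} [NormedAddCommGroup E'] [NormedSpace ℝ E'] [FiniteDimensional ℝ E']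
    (b : E' → Pr e D) (x : E'), FibPlot e D p q b x → ζ.val b x = 0

include h in
theorem pull_gg2 {ζ : Form (dPr e D)} (hζ : FibZero e D ζ) :
    Form.pull (gg2 F hD hB hdiam h) (map_gg2 F hD hB hdiam h) ζ = 0 :=
  Form.ext_val fun E' _ _ _ u x hu => by
    rw [Form.pull_val _ _ hu, Form.zero_val]
    exact hζ p q _ _ ⟨map_gg2 F hD hB hdiam h hu, Eventually.of_forall fun s =>
      ⟨rfl, h.bar_u F hD hB hdiam _ (xi_xi (u s).1 (u s).2)⟩⟩

end Contr

/-- **exact basic two-forms which vanish on the fibres** -/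
theorem exact_of_fibZero (F : Facts e) {D : ℝ} (hD : 0 < D) (hB : InjGE e D)
    (hdiam : ∀ p q : M, Dist.dist p q ≤ D)
    (hP : ∀ x y : M, Dist.dist x y = D → finrank ℝ (H775.Pl e D x y) = 4) [Nonempty (UT E M)]
    {α : Form (dPr e D)}
    (hα : Form.pull (R F hD hB hdiam) (isFlow_R F hD hB hdiam).map α = pr α + dt)
    (hαo : α.sg = -α)
    (H0 : ∀ w : Form (dPr e D), Form.IsDeg 0 w → w.d = 0 → ∃ r : ℝ, w = r • 1)
    {ζ η : Form (dPr e D)} (hζb : Basic (R F hD hB hdiam) (isFlow_R F hD hB hdiam).map ζ)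
    (hζ2 : Form.IsDeg 2 ζ) (hη : ζ = η.d) (hζ : FibZero e D ζ) :
    ∃ ρ : Form (dPr e D), Basic (R F hD hB hdiam) (isFlow_R F hD hB hdiam).map ρ ∧ ζ = ρ.d := by
  obtain ⟨v⟩ := (inferInstance : Nonempty (UT E M))
  obtain ⟨W, hW⟩ := exists_isLF F hD hB hdiam hP v
  have h : PFr e D (foot v) (bar e D v) (Fin.cons v W : Fin 4 → UT E M) := IsLF.pfr hW
  exact exact_basic (isFlow_R F hD hB hdiam) (by positivity) hα hαo H0 hζb hζ2 hη
    (map_gg2 F hD hB hdiam h) (gg2_zero F hD hB hdiam h) (gg2_per F hD hB hdiam h)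
    (gg2_end F hD hB hdiam h) (pull_gg2 F hD hB hdiam h hζ)

end

end Vale.Agent.P231.S2X
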