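import Vale.Agent.P231.S2X.Fib
import Vale.Agent.P231.S2X.Lpr
import Vale.Agent.P231.S2X.Orbit
import Vale.Agent.P231.S2II.ValG

/-!
# P231, stage 2, S2-X: the first Chern form of the second line on the fibre over `(p, q)`
-/

set_option maxSynthPendingDepth 3
set_option linter.unusedSectionVars false
set_option linter.unusedVariables false

open Bundle Manifold Set Filter Module Matrix
open scoped ContDiff Manifold Topology

namespace Vale.Agent.P231.S2X

noncomputable section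

open Vale.Agent.P234 Vale.Agent.P231 Vale.Agent.P231.Fm Vale.Agent.P231.W Vale.Agent.P231.WR
open Vale.Agent.P231.S2II Vale.Agent.P231.H649 Vale.Agent.P231.X3 Vale.Agent.P231.ChW

/-! ### linear algebra -/

section Lin

variable {T : Type*} [NormedAddCommGroup T] [InnerProductSpace ℝ T] [FiniteDimensional ℝ T]
  {X : Type} [NormedAddCommGroup X] [NormedSpace ℝ X] [FiniteDimensional ℝ X]

theorem al_apply (a : T) (u : X → T) (x h : X) : al a u x h = inner ℝ a (fderiv ℝ u x h) := rfl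

theorem al_anti {m k : Fin 4} {g : Fin 4 → T} {u : Fin 4 → X → T} {x : X}
    (hu : ∀ k, DifferentiableAt ℝ (u k) x) (hx : ∀ k, u k x = g k) {c : ℝ}
    (hon : ∀ᶠ s in 𝓝 x, inner ℝ (u m s) (u k s) = c) :
    al (g m) (u k) x = -al (g k) (u m) x := by
  have h1 : HasFDerivAt (fun s => (inner ℝ (u m s) (u k s) : ℝ))
      ((fderivInnerCLM ℝ (u m x, u k x)).comp ((fderiv ℝ (u m) x).prod (fderiv ℝ (u k) x))) x :=
    (hu m).hasFDerivAt.inner ℝ (hu k).hasFDerivAt
  have h2 : HasFDerivAt (fun s => (inner ℝ (u m s) (u k s) : ℝ)) (0 : X →L[ℝ] ℝ) x :=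
    (hasFDerivAt_const c x).congr_of_eventuallyEq hon
  have h3 := h1.unique h2
  ext h
  have h4 := congrArg (fun L : X →L[ℝ] ℝ => L h) h3
  simp only [ContinuousLinearMap.comp_apply, ContinuousLinearMap.prod_apply,
    fderivInnerCLM_apply, _root_.zero_apply] at h4
  rw [_root_.neg_apply, al_apply, al_apply, ← hx m, ← hx k]
  rw [real_inner_comm (u k x)] at *
  linarith

theorem al_exp {g : Fin 4 → T} {u : X → T} {x : X} (hu : DifferentiableAt ℝ u x)
    (hsp : ∀ᶠ s in 𝓝 x, u s = ∑ m, (inner ℝ (g m) (u s) : ℝ) • g m) (a : T) :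
    al a u x = ∑ m, (inner ℝ a (g m) : ℝ) • al (g m) u x := by
  have h1 : HasFDerivAt (fun s => ∑ m, (inner ℝ (g m) (u s) : ℝ) • g m)
      (∑ m, ((innerSL ℝ (g m)).comp (fderiv ℝ u x)).smulRight (g m)) x := by
    refine HasFDerivAt.fun_sum fun m _ => ?_
    exact (((innerSL ℝ (g m)).hasFDerivAt).comp x hu.hasFDerivAt).smul_const (g m)
  have h2 := (h1.congr_of_eventuallyEq hsp).fderiv
  ext h
  rw [al_apply, h2]
  simp only [_root_.sum_apply, ContinuousLinearMap.smulRight_apply, inner_sum,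
    inner_smul_right, _root_.smul_apply, smul_eq_mul]
  refine Finset.sum_congr rfl fun m _ => ?_
  rw [mul_comm]
  rfl

theorem parseval_sum {K : ℕ} {Xi : Fin K → T} (hP : ∀ ξ : T, ∑ i, (inner ℝ (Xi i) ξ : ℝ) • Xi i = ξ)
    {g : Fin 4 → T} (hg : Orthonormal ℝ g) (a b : Fin 4 → (X →L[ℝ] ℝ)) :
    ∑ i, dx (∑ m, (inner ℝ (Xi i) (g m) : ℝ) • a m) * dx (∑ m, (inner ℝ (Xi i) (g m) : ℝ) • b m) =
      ∑ m, dx (a m) * dx (b m) := by
  have hon := orthonormal_iff_ite.1 hg
  have h0 : ∀ m n, ∑ i, (inner ℝ (Xi i) (g m) : ℝ) * (inner ℝ (Xi i) (g n) : ℝ) =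
      if m = n then 1 else 0 := by
    intro m n
    rw [← hon m n]
    conv_rhs => rw [← hP (g n), inner_sum]
    refine Finset.sum_congr rfl fun i _ => ?_
    rw [inner_smul_right, real_inner_comm (Xi i) (g m), mul_comm]
  have h1 : ∀ i, dx (∑ m, (inner ℝ (Xi i) (g m) : ℝ) • a m) *
      dx (∑ m, (inner ℝ (Xi i) (g m) : ℝ) • b m) =
      ∑ m, ∑ n, ((inner ℝ (Xi i) (g m) : ℝ) * (inner ℝ (Xi i) (g n) : ℝ)) •
        (dx (a m) * dx (b n)) := by
    intro i
    rw [map_sum, map_sum, Finset.sum_mul_sum]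
    refine Finset.sum_congr rfl fun m _ => Finset.sum_congr rfl fun n _ => ?_
    rw [map_smul, map_smul, smul_mul_smul_comm]
  simp only [h1]
  rw [Finset.sum_comm]
  refine Finset.sum_congr rfl fun m _ => ?_
  rw [Finset.sum_comm, Finset.sum_eq_single m]
  · rw [← Finset.sum_smul, h0, if_pos rfl, one_smul]
  · intro n _ hn
    rw [← Finset.sum_smul, h0, if_neg (Ne.symm hn), zero_smul]
  · intro h
    exact absurd (Finset.mem_univ m) h

/-- **the curvature of the second line in terms of the first two vectors** -/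
theorem curv {K : ℕ} {Xi : Fin K → T} (hP : ∀ ξ : T, ∑ i, (inner ℝ (Xi i) ξ : ℝ) • Xi i = ξ)
    {g : Fin 4 → T} (hg : Orthonormal ℝ g) {u : Fin 4 → X → T} {x : X}
    (hu : ∀ k, DifferentiableAt ℝ (u k) x) (hx : ∀ k, u k x = g k)
    (hon : ∀ᶠ s in 𝓝 x, Orthonormal ℝ fun k => u k s)
    (hsp : ∀ k, ∀ᶠ s in 𝓝 x, u k s = ∑ m, (inner ℝ (g m) (u k s) : ℝ) • g m) :
    ∑ i, dx (al (Xi i) (u 3) x) * dx (al (Xi i) (u 2) x) =
      -(dx (al (g 2) (u 0) x) * dx (al (g 3) (u 0) x) +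
        dx (al (g 2) (u 1) x) * dx (al (g 3) (u 1) x)) := by
  have hanti : ∀ m k, al (g m) (u k) x = -al (g k) (u m) x := fun m k =>
    al_anti (c := if m = k then 1 else 0) hu hx (hon.mono fun s hs => orthonormal_iff_ite.1 hs m k)
  have hself : ∀ m, al (g m) (u m) x = 0 := fun m => by
    have h1 := hanti m m
    ext h
    have h2 := congrArg (fun L : X →L[ℝ] ℝ => L h) h1
    simp only [_root_.neg_apply] at h2
    change al (g m) (u m) x h = 0
    linarith
  have e3 : ∀ i, al (Xi i) (u 3) x = _ := fun i => al_exp (hu 3) (hsp 3) (Xi i)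
  have e2 : ∀ i, al (Xi i) (u 2) x = _ := fun i => al_exp (hu 2) (hsp 2) (Xi i)
  simp only [e3, e2]
  rw [parseval_sum hP hg, Fin.sum_univ_four, hself 3, hself 2, map_zero, zero_mul, mul_zero,
    add_zero, add_zero, hanti 0 3, hanti 0 2, hanti 1 3, hanti 1 2, map_neg, map_neg, map_neg,
    map_neg, neg_mul_neg, neg_mul_neg, dx_anticomm (al (g 3) (u 0) x), dx_anticomm (al (g 3) (u 1) x),
    neg_add]

end Lin

/-! ### geometry -/

variable {E : Type*} [NormedAddCommGroup E] [NormedSpace ℝ E]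
  {M : Type*} [MetricSpace M] [ChartedSpace E M]
  [RiemannianBundle (fun x : M => TangentSpace 𝓘(ℝ, E) x)]
  {e : ∀ x : M, TangentSpace 𝓘(ℝ, E) x → M}
  [FiniteDimensional ℝ E] [IsManifold 𝓘(ℝ, E) ∞ M]
  [IsContMDiffRiemannianBundle 𝓘(ℝ, E) ∞ E (fun x : M => TangentSpace 𝓘(ℝ, E) x)]
  [CompactSpace M] [ConnectedSpace M] [IsRiemannianManifold 𝓘(ℝ, E) M]
  {D : ℝ} {K : ℕ}
  {X : Type} [NormedAddCommGroup X] [NormedSpace ℝ X] [FiniteDimensional ℝ X]

/-- a unit vector as a tangent vector at `p` -/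
def tvp (p : M) (U : UT E M) : TangentSpace 𝓘(ℝ, E) p := vec' (E := E) U

/-- plots of unit vectors at one point -/
theorem sm_fibre {p : M} {U : X → UT E M} {x : X} (hU : (dUT E M).At U x)
    (hf : ∀ᶠ s in 𝓝 x, foot (U s) = p) :
    Sm (fun s => tvp p (U s)) x := by
  let b := stdOrthonormalBasis ℝ (TangentSpace 𝓘(ℝ, E) p)
  have h1 : ∀ i, Sm (fun s => ip (foot (U s)) (vec' (U s)) ((b i : TangentSpace 𝓘(ℝ, E) p) : E)) x := by
    intro i
    refine sm_ip_raw (u := U) (w := U) hU ?_ (Eventually.of_forall fun s => rfl)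
    have h2 : (dTM E M).At (fun _ : X => tb p ((b i : TangentSpace 𝓘(ℝ, E) p) : E)) x :=
      Eventually.of_forall fun s => contMDiffAt_const
    exact (dTM E M).congr h2 (hf.mono fun s hs => tb_congr hs.symm rfl)
  have h3 : ∀ᶠ s in 𝓝 x, ∀ i, ContDiffAt ℝ ∞
      (fun s => ip (foot (U s)) (vec' (U s)) ((b i : TangentSpace 𝓘(ℝ, E) p) : E)) s :=
    eventually_all.2 h1
  filter_upwards [h3, eventually_eventually_nhds.2 hf] with s h4 h5
  have h6 : ContDiffAt ℝ ∞ (fun s => ∑ i,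
      ip (foot (U s)) (vec' (U s)) ((b i : TangentSpace 𝓘(ℝ, E) p) : E) • b i) s :=
    ContDiffAt.sum fun i _ => (h4 i).smul contDiffAt_const
  refine h6.congr_of_eventuallyEq ?_
  filter_upwards [h5] with s' hs'
  have h7 := b.sum_repr' (tvp p (U s'))
  refine h7.symm.trans (Finset.sum_congr rfl fun i _ => ?_)
  rw [hs']
  congr 1
  exact real_inner_comm _ _

/-- the vectors of a frame as a family -/
def uf (p : M) (f : X → Fr e D 3) : Fin 4 → X → TangentSpace 𝓘(ℝ, E) p := fun k s =>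
  tvp p ((Fin.cons (f s).v (f s).W : Fin 4 → UT E M) k)

theorem mem_Pl_of {p q : M} {U : UT E M} (h1 : foot U = p) (h2 : bar e D U = q) :
    tvp p U ∈ H775.Pl e D q p := by
  refine H775.Lk_subset_Pl D _ _ ?_
  have h3 := mem_Lk_self (e := e) D U
  have key : ∀ (x y : M) (_ : x = p) (_ : y = q),
      ((vec' (E := E) U : TangentSpace 𝓘(ℝ, E) x) ∈ Lk e D y x) →
      (vec' (E := E) U : TangentSpace 𝓘(ℝ, E) p) ∈ Lk e D q p := by
    rintro x y rfl rfl h
    exact h
  exact key _ _ h1 h2 h3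

theorem orthonormal_uf {p : M} {f : X → Fr e D 3} {s : X} (hp : foot (f s).v = p) :
    Orthonormal ℝ fun k => uf p f k s := by
  subst hp
  rw [orthonormal_iff_ite]
  exact (IsLF.pfr (f s).isLF).on

theorem sm_uf {p : M} {f : X → Fr e D 3} {x : X} (hf : (dFr e D 3).At f x)
    (hp : ∀ᶠ s in 𝓝 x, foot (f s).v = p) (k : Fin 4) : Sm (uf p f k) x := by
  refine Fin.cases ?_ (fun k => ?_) k
  · exact sm_fibre (E := E) hf.1 hp
  · exact sm_fibre (E := E) (hf.2 k) (hp.mono fun s hs => ((f s).isLF.isL k).foot_eq.trans hs)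

theorem uf_sum (G : Geo e D 3) {p q : M} {f : X → Fr e D 3} {x s : X}
    (hx : foot (f x).v = p ∧ bar e D (f x).v = q) (hs : foot (f s).v = p ∧ bar e D (f s).v = q)
    (k : Fin 4) :
    uf p f k s = ∑ m, (inner ℝ (uf p f m x) (uf p f k s) : ℝ) • uf p f m x := by
  obtain ⟨rfl, rfl⟩ := hx
  have h1 : uf (foot (f x).v) f k s ∈ H775.Pl e D (bar e D (f x).v) (foot (f x).v) := by
    refine Fin.cases ?_ (fun k => ?_) k
    · exact mem_Pl_of (E := E) hs.1 hs.2
    · exact mem_Pl_of (E := E) (((f s).isLF.isL k).foot_eq.trans hs.1)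
        (((f s).isLF.isL k).bar_eq.trans hs.2)
  have h2 := (f x).isLF.sum_eq G.F G.hD G.hB G.hdiam G.hP h1
  rw [Fin.sum_univ_succ]
  exact h2

/-! ### the connection form of a frame -/

section Conn

variable {Y : Type*} {dY : Dif Y} {n : Type*} [Fintype n] [DecidableEq n]

theorem val_sum {ι : Type*} (s : Finset ι) (w : ι → Form dY) {f : X → Y} {x : X} :
    (∑ i ∈ s, w i).val f x = ∑ i ∈ s, (w i).val f x := by
  classical
  induction s using Finset.induction_on with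
  | empty =>
    rw [Finset.sum_empty, Finset.sum_empty]
    rfl
  | insert i s hi ih => rw [Finset.sum_insert hi, Finset.sum_insert hi, Form.add_val, ih]

theorem d_sum' {ι : Type*} (s : Finset ι) (w : ι → Form dY) :
    (∑ i ∈ s, w i).d = ∑ i ∈ s, (w i).d := by
  classical
  induction s using Finset.induction_on with
  | empty =>
    rw [Finset.sum_empty, Finset.sum_empty]
    exact Form.d_zero
  | insert i s hi ih => rw [Finset.sum_insert hi, Finset.sum_insert hi, Form.d_add, ih]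

theorem conn_d {V Wv : Y → n → ℝ} (hV : ∀ i, SmF dY (fun x => V x i))
    (hW : ∀ i, SmF dY (fun x => Wv x i)) :
    (conn hV hW).d = ∑ i, (X3.fr _ (hW i)).d * (X3.fr _ (hV i)).d := by
  rw [conn, d_sum']
  refine Finset.sum_congr rfl fun i _ => ?_
  rw [Form.d_mul, Form.d_d, mul_zero, add_zero]

theorem conn_d_val {V Wv : Y → n → ℝ} (hV : ∀ i, SmF dY (fun x => V x i))
    (hW : ∀ i, SmF dY (fun x => Wv x i)) {f : X → Y} {x : X} (hf : dY.At f x) :
    (conn hV hW).d.val f x = ∑ i, dx (fderiv ℝ (fun s => Wv (f s) i) x) *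
      dx (fderiv ℝ (fun s => V (f s) i) x) := by
  rw [conn_d, val_sum]
  refine Finset.sum_congr rfl fun i _ => ?_
  rw [Form.mul_val, fr_d_val _ hf, fr_d_val _ hf]

end Conn

theorem fderiv_fW (P : PF E M K) {p : M} {f : X → Fr e D 3} {x : X} (hf : (dFr e D 3).At f x)
    (hp : ∀ᶠ s in 𝓝 x, foot (f s).v = p) (k : Fin 3) (i : Fin K) :
    fderiv ℝ (fun s => fW P k (f s) i) x = al (P.X i p) (uf p f k.succ) x := by
  have h1 : (fun s => fW P k (f s) i) =ᶠ[𝓝 x] fun s => (inner ℝ (P.X i p) (uf p f k.succ s) : ℝ) := by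
    filter_upwards [hp] with s hs
    have key : ∀ y : M, y = p → ip y (P.v i y) (vec' ((f s).W k)) =
        (inner ℝ (P.X i p) (uf p f k.succ s) : ℝ) := by
      rintro y rfl
      rfl
    exact key _ hs
  rw [h1.fderiv_eq]
  have h2 : DifferentiableAt ℝ (uf p f k.succ) x := (sm_uf (E := E) hf hp k.succ).differentiableAt
  exact ((innerSL ℝ (P.X i p)).hasFDerivAt.comp x h2.hasFDerivAt).fderiv

/-- **the first Chern form of the second line on the fibre over `(p, q)`** -/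
theorem sC_fib (G : Geo e D 3) (P : PF E M K) {b : Form (dPr e D)}
    (hb : Orn G.F G.hD G.hB G.hdiam (l := 3) b) {p q : M} {Q : X → Pr e D} {x : X}
    (hQ : (dPr e D).At Q x)
    (hpq : ∀ᶠ s in 𝓝 x, foot (Q s).v = p ∧ bar e D (Q s).v = q) :
    ∃ f : X → Fr e D 3, (dFr e D 3).At f x ∧
      (∀ᶠ s in 𝓝 x, Ad G.F G.hD G.hB G.hdiam b (Q s) (f s)) ∧
      FPl e D p q Q (uf p f 0) (uf p f 1) x ∧
      (sC 1 (cM (Mm P (jm G P hb)) (sm_Mm G P (lp P hb)))).re.val Q x =
        (1 / (2 * Real.pi)) • (dx (al (uf p f 2 x) (uf p f 0) x) * dx (al (uf p f 3 x) (uf p f 0) x) +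
          dx (al (uf p f 2 x) (uf p f 1) x) * dx (al (uf p f 3 x) (uf p f 1) x)) := by
  obtain ⟨f, hf, hfa⟩ := exists_ad G.F G.hD G.hB G.hdiam G.hP hb hQ
  have hp : ∀ᶠ s in 𝓝 x, foot (f s).v = p := by
    filter_upwards [hpq, hfa] with s h1 h2
    rw [h2.hv]
    exact h1.1
  have hpq' : ∀ᶠ s in 𝓝 x, foot (f s).v = p ∧ bar e D (f s).v = q := by
    filter_upwards [hpq, hfa] with s h1 h2
    rw [h2.hv]
    exact h1
  have hsm := sm_uf (E := E) hf hp
  refine ⟨f, hf, hfa, ⟨hsm 0, hsm 1, ?_⟩, ?_⟩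
  · filter_upwards [hpq, hfa] with s h1 h2
    refine ⟨h1.1, ?_, ?_, h1.2⟩
    · rw [← h2.hv]
      rfl
    · rw [← h2.hw]
      rfl
  · have hfo : (dFo G.F G.hD G.hB G.hdiam (l := 3) b).At f x :=
      ⟨hf, hfa.mono fun s hs => hs.pos⟩
    have h1 : (sC 1 (cM (Mm P (jm G P hb)) (sm_Mm G P (lp P hb)))).re.val Q x =
        (Form.pull Fr.p0 (map_p0' (G := G) (b := b))
          (sC 1 (cM (Mm P (jm G P hb)) (sm_Mm G P (lp P hb)))).re).val f x := by
      rw [Form.pull_val _ _ hfo]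
      refine Form.congr _ hQ ?_
      filter_upwards [hfa] with s hs
      exact Pr.ext' hs.hv.symm hs.hw.symm
    have h2 := curv (g := fun k => uf p f k x) (u := uf p f) (x := x) (fun ξ => P.parseval p ξ)
      (orthonormal_uf hp.self_of_nhds) (fun k => (hsm k).differentiableAt) (fun k => rfl)
      (hp.mono fun s hs => orthonormal_uf hs)
      (fun k => hpq'.mono fun s hs => uf_sum G hpq'.self_of_nhds hs k)
    rw [h1, pull_sC P G hb, Form.smul_val, conn_d_val _ _ hfo]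
    simp only [fderiv_fW P hf hp]
    have h3 : ∑ i, dx (al (P.X i p) (uf p f (Fin.succ 2)) x) *
        dx (al (P.X i p) (uf p f (Fin.succ 1)) x) = _ := h2
    rw [h3, neg_smul, smul_neg, neg_neg]

end

end Vale.Agent.P231.S2X
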