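import Vale.Agent.P231.S2X.Fib2
import Vale.Agent.P231.FE.Lin
import Vale.Agent.P231.FE.Std

/-!
# P231, stage 2, S2-X: the first Chern class of the second line is `z`
-/

set_option maxSynthPendingDepth 3
set_option linter.unusedSectionVars false
set_option linter.unusedVariables false

open Bundle Manifold Set Filter Module Matrix
open scoped ContDiff Manifold Topology

namespace Vale.Agent.P231.S2X

noncomputable section

open Vale.Agent.P234 Vale.Agent.P231 Vale.Agent.P231.Fm Vale.Agent.P231.W Vale.Agent.P231.WR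
open Vale.Agent.P231.S2II Vale.Agent.P231.H649 Vale.Agent.P231.X3 Vale.Agent.P231.ChW

variable {E : Type*} [NormedAddCommGroup E] [NormedSpace ℝ E]
  {M : Type*} [MetricSpace M] [ChartedSpace E M]
  [RiemannianBundle (fun x : M => TangentSpace 𝓘(ℝ, E) x)]
  {e : ∀ x : M, TangentSpace 𝓘(ℝ, E) x → M}
  [FiniteDimensional ℝ E] [IsManifold 𝓘(ℝ, E) ∞ M]
  [IsContMDiffRiemannianBundle 𝓘(ℝ, E) ∞ E (fun x : M => TangentSpace 𝓘(ℝ, E) x)]
  [CompactSpace M] [ConnectedSpace M] [IsRiemannianManifold 𝓘(ℝ, E) M]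
  {D : ℝ} {K : ℕ}

section Fib

variable {p : M}
  {Pi : TangentSpace 𝓘(ℝ, E) p → TangentSpace 𝓘(ℝ, E) p →L[ℝ] TangentSpace 𝓘(ℝ, E) p}
  {o : TangentSpace 𝓘(ℝ, E) p → Fm.Lam (TangentSpace 𝓘(ℝ, E) p)}
  {ρ : TangentSpace 𝓘(ℝ, E) p → ℝ} {r₀ : ℝ}

/-- the sign of an oriented frame -/
theorem o_frame (G : Geo e D 3) (hJ : FE.LineP e D p 1 Pi o) (hρ : WE.Rho e D p ρ r₀) {a : ℝ}
    (ha : 0 < a) {f : Fr e D 3} (hf : foot f.v = p)
    (hpos : 0 < kf G.F G.hD G.hB G.hdiam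
      (L3.b0P G.F G.hD G.hB G.hdiam (FE.FF G.F G.hD G.hB G.hdiam G.hP hJ hρ a)) f) :
    o (tvp p f.v) = FE.wdg fun k => tvp p ((Fin.cons f.v f.W : Fin 4 → UT E M) k) := by
  subst hf
  have hon : Orthonormal ℝ (vw (n := 1) f) := orthonormal_vw (n := 1) f
  have h0 : ‖(tvp (foot f.v) f.v : TangentSpace 𝓘(ℝ, E) (foot f.v))‖ = 1 := nm_vec' f.v
  have hbar : ∀ U : UT E M, foot U = foot f.v → bar e D U = bar e D f.v →
      Pi (tvp (foot f.v) f.v) (tvp (foot f.v) U) = tvp (foot f.v) U := by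
    intro U h1 h2
    have h3 : ‖(tvp (foot f.v) U : TangentSpace 𝓘(ℝ, E) (foot f.v))‖ = 1 := by
      have h4 : nm (foot U) (vec' U) = 1 := nm_vec' U
      rw [h1] at h4
      exact h4
    refine (hJ.cut _ _ h0 h3).1 ?_
    have key : ∀ y : M, y = foot f.v → e y (D • vec' U : E) =
        e (foot f.v) (D • tvp (foot f.v) U) := by
      rintro y rfl
      rfl
    exact h2.symm.trans (key _ h1)
  have hPi : ∀ k, Pi (tvp (foot f.v) f.v) (vw (n := 1) f k) = vw (n := 1) f k := by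
    intro k
    refine Fin.cases ?_ (fun i => ?_) k
    · exact hbar f.v rfl rfl
    · exact hbar (f.W i) (f.isLF.isL i).foot_eq (f.isLF.isL i).bar_eq
  have hvw : (fun k => tvp (foot f.v) ((Fin.cons f.v f.W : Fin 4 → UT E M) k)) =
      vw (n := 1) f := by
    funext k
    refine Fin.cases rfl (fun i => rfl) k
  rw [hvw]
  rcases hJ.os.o_pm (FE.ne_zero_of_unit h0) hon hPi with h1 | h1
  · exact h1
  · exfalso
    have h2 := kf_b0P_sign G.F G.hD G.hB G.hdiam (n := 1) (f := f) G.hP hJ hρ a (ε := -1)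
      (by rw [neg_one_smul]; exact h1)
    have h3 : kf G.F G.hD G.hB G.hdiam
      (L3.b0P G.F G.hD G.hB G.hdiam (FE.FF G.F G.hD G.hB G.hdiam G.hP hJ hρ a)) f =
      -1 * (2 * (a * ((2 * 1 + 1).factorial : ℝ) * S2II.area (2 * 1 + 2))) := h2
    rw [h3] at hpos
    have h4 : 0 < S2II.area (2 * 1 + 2) := area_pos (by omega)
    have h5 : (0 : ℝ) < ((2 * 1 + 1).factorial : ℝ) := by positivity
    have h6 : 0 < 2 * (a * ((2 * 1 + 1).factorial : ℝ) * S2II.area (2 * 1 + 2)) := by positivity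
    linarith

variable {X : Type} [NormedAddCommGroup X] [NormedSpace ℝ X] [FiniteDimensional ℝ X]

/-- the normalised form `z = b₀ / κ`, `κ = 12 π² a` -/
def zF (G : Geo e D 3) (hJ : FE.LineP e D p 1 Pi o) (hρ : WE.Rho e D p ρ r₀) (a : ℝ) :
    Form (dPr e D) :=
  (12 * Real.pi ^ 2 * a)⁻¹ •
    L3.b0P G.F G.hD G.hB G.hdiam (FE.FF G.F G.hD G.hB G.hdiam G.hP hJ hρ a)

/-- **the first Chern form of the second line is `z` on the fibres over the base point** -/
theorem zeta_fib (G : Geo e D 3) (P : PF E M K) (hJ : FE.LineP e D p 1 Pi o)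
    (hρ : WE.Rho e D p ρ r₀) {a : ℝ} (ha : 0 < a)
    (hb : Orn G.F G.hD G.hB G.hdiam (l := 3)
      (L3.b0P G.F G.hD G.hB G.hdiam (FE.FF G.F G.hD G.hB G.hdiam G.hP hJ hρ a)))
    {q : M} {Q : X → Pr e D} {x : X} (hQ : (dPr e D).At Q x)
    (hpq : ∀ᶠ s in 𝓝 x, foot (Q s).v = p ∧ bar e D (Q s).v = q) :
    (sC 1 (cM (Mm P (jm G P hb)) (sm_Mm G P (lp P hb)))).re.val Q x =
      (zF G hJ hρ a).val Q x := by
  obtain ⟨f, hf, hfa, hfp, hval⟩ := sC_fib G P hb hQ hpq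
  have hfx := hfa.self_of_nhds
  have hfoot : foot (f x).v = p := by
    rw [hfx.hv]
    exact hpq.self_of_nhds.1
  have ho := o_frame G hJ hρ ha hfoot hfx.pos
  have h1 := b0P_fib G.F G.hD G.hB G.hdiam G.hP hJ hρ a hfp (g := fun k => uf p f k x)
    (orthonormal_uf hfoot) rfl rfl (ε := 1) (by rw [one_smul]; exact ho)
  rw [hval, zF, Form.smul_val, h1, smul_smul]
  congr 1
  have hpi := Real.pi_ne_zero
  field_simp
  ring

end Fib

/-! ### forms which vanish on the fibres over one point -/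

/-- the form vanishes on the fibres over `p` -/
def FibZ (p : M) (ζ : Form (dPr e D)) : Prop :=
  ∀ (q : M) {X : Type} [NormedAddCommGroup X] [NormedSpace ℝ X] [FiniteDimensional ℝ X]
    (Q : X → Pr e D) (x : X), (dPr e D).At Q x →
    (∀ᶠ s in 𝓝 x, foot (Q s).v = p ∧ bar e D (Q s).v = q) → ζ.val Q x = 0

theorem kf_fibZ (F : Facts e) (hD : 0 < D) (hB : InjGE e D) (hdiam : ∀ p q : M, dist p q ≤ D)
    {ζ : Form (dPr e D)} {f : Fr e D 3} (hζ : FibZ (foot f.v) ζ) :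
    kf F hD hB hdiam ζ f = 0 := by
  rw [kf_eq]
  have h1 : ∀ y : Eul 3, evalForm (Fm.dx (fderiv ℝ (rct 3) y) *
      ζ.val (fam F hD hB hdiam f) y) (bas 3) = 0 := by
    intro y
    by_cases hy : y = 0
    · subst hy
      have h9 : rct 3 =ᶠ[𝓝 0] fun _ => 0 := rct_near_zero 3
      rw [h9.fderiv_eq, fderiv_const_apply, map_zero, zero_mul, Q.evalForm_zero]
    · rw [hζ (bar e D f.v) _ _ (fam_at F hD hB hdiam f hy) (Eventually.of_forall fun s => by
        have h2 : (fam F hD hB hdiam f s).v = f.v := cone_v F hD hB hdiam _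
        rw [h2]
        exact ⟨rfl, rfl⟩), mul_zero, Q.evalForm_zero]
  simp only [h1, MeasureTheory.integral_zero]

theorem pull_gg2' (F : Facts e) (hD : 0 < D) (hB : InjGE e D) (hdiam : ∀ p q : M, dist p q ≤ D)
    {p q : M} {A : Fin 4 → UT E M} (h : PFr e D p q A) {ζ : Form (dPr e D)}
    (hζ : FibZ p ζ) :
    Form.pull (gg2 F hD hB hdiam h) (map_gg2 F hD hB hdiam h) ζ = 0 :=
  Form.ext_val fun E' _ _ _ u x hu => by
    rw [Form.pull_val _ _ hu, Form.zero_val]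
    exact hζ q _ _ (map_gg2 F hD hB hdiam h hu) (Eventually.of_forall fun s =>
      ⟨rfl, h.bar_u F hD hB hdiam _ (xi_xi (u s).1 (u s).2)⟩)

/-- **exact basic two-forms which vanish on the fibres over one point** -/
theorem exact_of_fibZ (G : Geo e D 3) [Nontrivial E]
    {α : Form (dPr e D)} (hα : Form.pull G.R G.map_R α = pr α + dt) (hαo : α.sg = -α)
    (H0 : ∀ w : Form (dPr e D), Form.IsDeg 0 w → w.d = 0 → ∃ r : ℝ, w = r • 1)
    {ζ η : Form (dPr e D)} (hζb : Basic G.R G.map_R ζ)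
    (hζ2 : Form.IsDeg 2 ζ) (hη : ζ = η.d) {p : M} (hζ : FibZ p ζ) :
    ∃ ρ : Form (dPr e D), Basic G.R G.map_R ρ ∧ ζ = ρ.d := by
  obtain ⟨v, rfl⟩ := exists_foot (E := E) p
  obtain ⟨W, hW⟩ := exists_isLF G.F G.hD G.hB G.hdiam G.hP v
  have h : PFr e D (foot v) (bar e D v) (Fin.cons v W : Fin 4 → UT E M) := IsLF.pfr hW
  exact exact_basic (isFlow_R G.F G.hD G.hB G.hdiam) (by positivity) hα hαo H0 hζb hζ2 hη
    (map_gg2 G.F G.hD G.hB G.hdiam h) (gg2_zero G.F G.hD G.hB G.hdiam h)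
    (gg2_per G.F G.hD G.hB G.hdiam h) (gg2_end G.F G.hD G.hB G.hdiam h)
    (pull_gg2' G.F G.hD G.hB G.hdiam h hζ)

theorem kf_lin (F : Facts e) (hD : 0 < D) (hB : InjGE e D) (hdiam : ∀ p q : M, dist p q ≤ D)
    (c : ℝ) (b η : Form (dPr e D)) (f : Fr e D 3) :
    kf F hD hB hdiam (c • b + η.d) f = c * kf F hD hB hdiam b f := by
  have h1 : (frb F hD hB hdiam (c • b + η.d) : Form (dFr e D 3)) =
      c • frb F hD hB hdiam b + (-1 : ℝ) ^ (3 + 1) • (frb F hD hB hdiam η : Form (dFr e D 3)).d := by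
    rw [frb, frb, frb, ← Co.si_d, ← Form.pull_d, ← Co.si_smul, ← Co.si_add]
    congr 1
    exact (map_add (Form.pullA _ (map_coneS F hD hB hdiam)) _ _).trans
      (congrArg (· + _) (map_smul (Form.pullA _ (map_coneS F hD hB hdiam)) c b))
  have h2 : WF.ptv ((frb F hD hB hdiam η : Form (dFr e D 3)).d) f = 0 := by
    rw [WF.ptv, Form.d_val _ (at_constFr f (0 : ℝ)), extd, aug_dLin]
  rw [S2II.kf, h1, WF.ptv, Form.add_val, Form.smul_val, Form.smul_val, map_add, map_smul, map_smul]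
  change c • WF.ptv _ f + _ • WF.ptv _ f = _
  rw [h2, smul_zero, add_zero]
  rfl

/-- a closed form of degree two which vanishes on the fibres over one point is exact -/
theorem coef_zero (G : Geo e D 3) [Nontrivial E] {b : Form (dPr e D)}
    (hb : Orn G.F G.hD G.hB G.hdiam (l := 3) b) {ζ η : Form (dPr e D)} {c : ℝ}
    (hη : ζ = c • b + η.d) {p : M} (hζ : FibZ p ζ) : ζ = η.d := by
  obtain ⟨v, rfl⟩ := exists_foot (E := E) p
  obtain ⟨f, hf⟩ : ∃ f : Fr e D 3, f.v = v := by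
    obtain ⟨W, hW⟩ := exists_isLF G.F G.hD G.hB G.hdiam G.hP v
    exact ⟨⟨(v, W), hW⟩, rfl⟩
  subst hf
  have h0 := kf_fibZ G.F G.hD G.hB G.hdiam hζ
  have h1 : kf G.F G.hD G.hB G.hdiam ζ f = c * kf G.F G.hD G.hB G.hdiam b f := by
    rw [hη, kf_lin]
  rw [h0] at h1
  have h2 : c = 0 := (mul_eq_zero.1 h1.symm).resolve_right (hb.ne f)
  rw [hη, h2, zero_smul, zero_add]

end

end Vale.Agent.P231.S2X
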