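import Vale.Agent.P231.S2X.Values

/-!
# P231, stage 2, S2-X: the relation `y² + z² = 2 c (x₁ + x₂)`

The quadratic relation of `z` (Gysin, helper936's `A3.quad`), the vanishing of the first Pontryagin
form of the plane bundle against top degree forms, and the symmetry of the two end points.
-/

set_option linter.unusedSectionVars false
set_option linter.unusedVariables false

open Set Module Filter Topology
open scoped ContDiff

namespace Vale.Agent.P231.S2X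

open Fm W H584

noncomputable section

variable {X : Type*} {D : Dif X} {T : ℝ} {Φ : X × ℝ → X} {h : IsFlow D T Φ} {κ : ℝ}
  {ν F1 F2 B : Form D} (G : Geo h κ ν F1 F2 B) {n : ℕ} {I : Form D →ₗ[ℝ] ℝ}
  (N : GInt h n ν F1 F2 B I)

theorem Geo.P_mono_cls (a b : ℕ) (w : Bas Φ h.map) (hw : F1 ^ a * F2 ^ b * w.1 = 0) :
    G.P N (G.x1 ^ a * G.x2 ^ b * Ideal.Quotient.mk (Exa Φ h.map) w) = 0 := by
  rw [G.P_mono N, hw, mul_zero, map_zero, mul_zero]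

/-- products of `2 n` classes `x₁`, `x₂` -/
theorem Geo.P_top (a b : ℕ) (hab : a + b = 2 * n) : G.P N (G.x1 ^ a * G.x2 ^ b) = 0 := by
  have h1 := G.P_mono N a b 1
  rw [map_one, mul_one] at h1
  have h2 : ((1 : Bas Φ h.map) : Form D) = 1 := rfl
  rw [h1, h2, N.p12 a b hab.ge, zero_mul, mul_zero, map_zero, mul_zero]

theorem Geo.P_zz (a b : ℕ) : G.P N (G.x1 ^ a * G.x2 ^ b * G.z ^ 2) =
    (κ⁻¹) ^ a * (κ⁻¹) ^ b * (κ⁻¹ * κ⁻¹ *
      (T * I (B * (J Φ h.map T B * (F1 ^ a * F2 ^ b))))) := by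
  rw [Geo.z, ← map_pow, G.P_mono N]
  have h6 : ((G.bz ^ 2 : Bas Φ h.map) : Form D) =
      (κ⁻¹ • J Φ h.map T B) * (κ⁻¹ • J Φ h.map T B) := sq (κ⁻¹ • J Φ h.map T B)
  have h7 : F1 ^ a * F2 ^ b * ((κ⁻¹ * κ⁻¹) • (J Φ h.map T B * J Φ h.map T B)) =
      (κ⁻¹ * κ⁻¹) • (J Φ h.map T B * (J Φ h.map T B * (F1 ^ a * F2 ^ b))) := by
    have h8 : F1 ^ a * F2 ^ b * (J Φ h.map T B * J Φ h.map T B) =
        J Φ h.map T B * J Φ h.map T B * (F1 ^ a * F2 ^ b) :=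
      (even_comm (mul_even (pow_even G.e1 a) (pow_even G.e2 b)) _).eq
    rw [mul_smul_comm, h8, mul_assoc (J Φ h.map T B)]
  rw [h6, smul_mul_smul_comm, h7, mul_smul_comm, map_smul, smul_eq_mul,
    G.avg_z N (mul_closed (pow_closed G.d1 a) (pow_closed G.d2 b))
      (Basic.mul (Basic.pow G.b1 a) (Basic.pow G.b2 b))]

include N in
/-- **the relation `y² + z² = 2 c (x₁ + x₂)`** -/
theorem Geo.exists_sq (hn : 1 ≤ n) {c₁ c₂ c₃ : ℝ}
    (hq : G.z ^ 2 = c₁ • G.x2 + c₂ • (G.y * G.z) + c₃ • G.y ^ 2) {p : Bas Φ h.map}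
    (hp : Ideal.Quotient.mk (Exa Φ h.map) p = G.y ^ 2 + G.z ^ 2)
    (hp0 : ∀ a b, a + b + 1 = 2 * n → F1 ^ a * F2 ^ b * p.1 = 0)
    {S : HH' Φ h.map →ₐ[ℝ] HH' Φ h.map} (S1 : S G.x1 = G.x2) (S2 : S G.x2 = G.x1)
    (Sp : S (G.y ^ 2 + G.z ^ 2) = G.y ^ 2 + G.z ^ 2) :
    ∃ c : ℝ, G.y ^ 2 + G.z ^ 2 = (2 * c) • (G.x1 + G.x2) := by
  obtain ⟨m, rfl⟩ : ∃ m, n = m + 1 := ⟨n - 1, by omega⟩
  set t : ℝ := I (B * (J Φ h.map T B * (F1 ^ m * F2 ^ (m + 1)))) with ht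
  have ht0 : t ≠ 0 := by
    have := N.nz
    rwa [Nat.add_sub_cancel] at this
  set q : ℝ := (κ⁻¹) ^ m * (κ⁻¹) ^ (m + 1) * (κ⁻¹ * κ⁻¹ * (T * t)) with hqd
  have hq0 : q ≠ 0 := by
    have h1 : κ⁻¹ ≠ 0 := inv_ne_zero G.hκ
    exact mul_ne_zero (mul_ne_zero (pow_ne_zero _ h1) (pow_ne_zero _ h1))
      (mul_ne_zero (mul_ne_zero h1 h1) (mul_ne_zero G.hT ht0))
  -- values
  have z1 : G.P N (G.x1 ^ m * G.x2 ^ (m + 1) * G.z ^ 2) = q := G.P_zz N m (m + 1)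
  have z2 : G.P N (G.x1 ^ (m + 1) * G.x2 ^ m * G.z ^ 2) = -q := by
    have h1 := G.anti N hn
    rw [Nat.add_sub_cancel] at h1
    rw [G.P_zz N (m + 1) m, h1, hqd, ht]
    ring
  have hs : ∀ a b, a + b + 1 = 2 * (m + 1) →
      G.P N (G.x1 ^ a * G.x2 ^ b * (G.y ^ 2 + G.z ^ 2)) = 0 := by
    intro a b hab
    rw [← hp]
    exact G.P_mono_cls N a b p (hp0 a b hab)
  have y1 : G.P N (G.x1 ^ m * G.x2 ^ (m + 1) * G.y ^ 2) = -q := by
    have h1 := hs m (m + 1) (by ring)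
    rw [mul_add, map_add, z1] at h1
    linarith
  have y2 : G.P N (G.x1 ^ (m + 1) * G.x2 ^ m * G.y ^ 2) = q := by
    have h1 := hs (m + 1) m (by ring)
    rw [mul_add, map_add, z2] at h1
    linarith
  have t1 : G.P N (G.x1 ^ m * G.x2 ^ (m + 1) * G.x2) = 0 := by
    have h1 := G.P_top N m (m + 2) (by ring)
    rwa [show G.x1 ^ m * G.x2 ^ (m + 1) * G.x2 = G.x1 ^ m * G.x2 ^ (m + 2) by ring]
  have t2 : G.P N (G.x1 ^ m * G.x2 ^ (m + 1) * G.x1) = 0 := by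
    have h1 := G.P_top N (m + 1) (m + 1) (by ring)
    rwa [show G.x1 ^ m * G.x2 ^ (m + 1) * G.x1 = G.x1 ^ (m + 1) * G.x2 ^ (m + 1) by ring]
  -- `c₃ = -1`
  have hq' : G.y ^ 2 + G.z ^ 2 = c₁ • G.x2 + c₂ • (G.x1 - G.x2) + (c₃ + 1) • G.y ^ 2 := by
    rw [hq, G.yz]
    module
  have hc3 : c₃ + 1 = 0 := by
    have h1 := hs m (m + 1) (by ring)
    rw [hq', mul_add, mul_add, mul_smul_comm, mul_smul_comm, mul_smul_comm, mul_sub, map_add,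
      map_add, map_smul, map_smul, map_smul, map_sub, t1, t2, y1] at h1
    simp only [smul_eq_mul, sub_zero, mul_zero, zero_add] at h1
    exact (mul_eq_zero.1 h1).resolve_right (neg_ne_zero.2 hq0)
  rw [hc3, zero_smul, add_zero] at hq'
  -- the symmetry
  have h2 : (c₁ - 2 * c₂) • (G.x1 - G.x2) = 0 := by
    have h3 := congrArg S hq'
    rw [Sp, map_add, map_smul, map_smul, map_sub, S1, S2, hq'] at h3
    have h4 : (c₁ - 2 * c₂) • (G.x1 - G.x2) = (c₁ • G.x1 + c₂ • (G.x2 - G.x1)) -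
        (c₁ • G.x2 + c₂ • (G.x1 - G.x2)) := by module
    rw [h4, ← h3, sub_self]
  have h5 : c₁ - 2 * c₂ = 0 := by
    have h6 := congrArg (fun a => G.P N (G.x1 ^ m * G.x2 ^ m * G.y ^ 2 * a)) h2
    beta_reduce at h6
    have h7 : G.x1 ^ m * G.x2 ^ m * G.y ^ 2 * ((c₁ - 2 * c₂) • (G.x1 - G.x2)) =
        (c₁ - 2 * c₂) • (G.x1 ^ (m + 1) * G.x2 ^ m * G.y ^ 2 -
          G.x1 ^ m * G.x2 ^ (m + 1) * G.y ^ 2) := by
      rw [mul_smul_comm]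
      congr 1
      ring
    rw [h7, map_smul, map_sub, y1, y2, mul_zero, map_zero, smul_eq_mul, sub_neg_eq_add] at h6
    refine (mul_eq_zero.1 h6).resolve_right ?_
    intro h8
    apply hq0
    linarith
  refine ⟨c₂ / 2, ?_⟩
  have h8 : c₁ = 2 * c₂ := by linarith
  rw [hq', h8]
  module

end

end Vale.Agent.P231.S2X
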