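import Vale.Agent.P231.S2X.Qcm
import Vale.Agent.P231.S2X.Sq
import Vale.Agent.P231.S2II.ValF
import Vale.Agent.P231.L.Core
import Vale.Agent.P231.S2T.Inst2

/-!
# P231, stage 2, S2-X: the data of the values of the integral
-/

set_option maxSynthPendingDepth 3
set_option linter.unusedSectionVars false
set_option linter.unusedVariables false

open Bundle Manifold Set Filter Module Matrix MeasureTheory
open scoped ContDiff Manifold Topology

namespace Vale.Agent.P231.S2X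

noncomputable section

open Vale.Agent.P234 Vale.Agent.P231 Vale.Agent.P231.Fm Vale.Agent.P231.W Vale.Agent.P231.WR
open Vale.Agent.P231.S2II Vale.Agent.P231.H649 Vale.Agent.P231.X3 Vale.Agent.P231.ChW

variable {E : Type*} [NormedAddCommGroup E] [NormedSpace ℝ E]
  {M : Type*} [MetricSpace M] [ChartedSpace E M]
  [RiemannianBundle (fun x : M => TangentSpace 𝓘(ℝ, E) x)]
  {e : ∀ x : M, TangentSpace 𝓘(ℝ, E) x → M}
  [FiniteDimensional ℝ E] [IsManifold 𝓘(ℝ, E) ∞ M]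
  [IsContMDiffRiemannianBundle 𝓘(ℝ, E) ∞ E (fun x : M => TangentSpace 𝓘(ℝ, E) x)]
  [CompactSpace M] [ConnectedSpace M] [IsRiemannianManifold 𝓘(ℝ, E) M]
  {D : ℝ} {K : ℕ}

/-! ### the degree of the connection form -/

theorem isDeg_conn {X : Type*} {Df : Dif X} {n : Type*} [Fintype n] {V W : X → n → ℝ}
    (hV : ∀ i, SmF Df (fun x => V x i)) (hW : ∀ i, SmF Df (fun x => W x i)) :
    Form.IsDeg 1 (conn hV hW) := by
  refine Form.IsDeg.sum fun i _ => ?_
  have h1 := (S2T.isDeg_fr _ (hW i)).mul (S2T.isDeg_fr _ (hV i)).d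
  exact h1

/-! ### the pulled back forms -/

section Pul

variable (G : X3.Geo e D 3) (Oz : Form (W.dM E M))

/-- the form at the other end -/
def F1 : Form (dPr e D) := Form.pull (fun p : Pr e D => bar e D p.v) G.map_bar Oz

/-- the form at the foot -/
def F2 : Form (dPr e D) := Form.pull (fun p : Pr e D => foot p.v) G.map_foot Oz

/-- the primitive of the difference -/
def BB : Form (dPr e D) := Form.pull Pr.v map_v (WR.B0 G.F D Oz)

theorem F1_eq : F1 G Oz = Form.pull Pr.v map_v (Form.pull (bar e D) (WR.map_bar G.F D) Oz) :=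
  (H584.pull_pull map_v (WR.map_bar G.F D) G.map_bar (fun _ => rfl) Oz).symm

theorem F2_eq : F2 G Oz = Form.pull Pr.v map_v (Form.pull foot W.map_foot Oz) :=
  (H584.pull_pull map_v W.map_foot G.map_foot (fun _ => rfl) Oz).symm

variable {Oz}

theorem F1_sg (h : Oz.sg = Oz) : (F1 G Oz).sg = F1 G Oz := by
  have h1 := Form.pull_sg (fun p : Pr e D => bar e D p.v) G.map_bar Oz
  rw [h] at h1
  exact h1.symm

theorem F2_sg (h : Oz.sg = Oz) : (F2 G Oz).sg = F2 G Oz := by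
  have h1 := Form.pull_sg (fun p : Pr e D => foot p.v) G.map_foot Oz
  rw [h] at h1
  exact h1.symm

theorem F1_d (h : Oz.d = 0) : (F1 G Oz).d = 0 := by
  have h1 := Form.pull_d (fun p : Pr e D => bar e D p.v) G.map_bar Oz
  rw [h] at h1
  exact h1.symm.trans (map_zero (Form.pullA _ G.map_bar))

theorem F2_d (h : Oz.d = 0) : (F2 G Oz).d = 0 := by
  have h1 := Form.pull_d (fun p : Pr e D => foot p.v) G.map_foot Oz
  rw [h] at h1
  exact h1.symm.trans (map_zero (Form.pullA _ G.map_foot))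

theorem F1_b : Basic G.R G.map_R (F1 G Oz) := H584.basic_pull G.map_bar G.bar_R Oz

theorem F2_b : Basic G.R G.map_R (F2 G Oz) := H584.basic_pull G.map_foot G.foot_R Oz

theorem BB_d (h : Oz.d = 0) : (BB G Oz).d = F1 G Oz - F2 G Oz := by
  rw [BB, ← Form.pull_d, B0_d G.F h, F1_eq, F2_eq]
  exact map_sub (Form.pullA Pr.v map_v) _ _

theorem BB_deg (h : Form.IsDeg 4 Oz) : Form.IsDeg 3 (BB G Oz) :=
  (isDeg_B0 G.F h).pull _ _

/-- **the data of the values** -/
theorem geo (P : PF E M K) {κ : ℝ} (hκ : κ ≠ 0) (hd : Oz.d = 0) (h4 : Form.IsDeg 4 Oz) :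
    S2X.Geo G.isFlow_R κ (nu e D P) (F1 G Oz) (F2 G Oz) (BB G Oz) where
  hT := by positivity
  hκ := hκ
  ν1 := nu_R G P
  νo := nu_sg P
  e1 := F1_sg G (h4.sg_of_even (by decide))
  d1 := F1_d G hd
  b1 := F1_b G
  e2 := F2_sg G (h4.sg_of_even (by decide))
  d2 := F2_d G hd
  b2 := F2_b G
  Bo := (BB_deg G h4).sg_of_odd (by decide)
  Bd := BB_d G hd

theorem pull_v_mul (a b : Form (dUT E M)) : (Form.pull Pr.v map_v (a * b) : Form (dPr e D)) =
    Form.pull Pr.v map_v a * Form.pull Pr.v map_v b := map_mul (Form.pullA Pr.v map_v) a b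

theorem pull_v_pow (a : Form (dUT E M)) (k : ℕ) :
    (Form.pull Pr.v map_v (a ^ k) : Form (dPr e D)) = Form.pull Pr.v map_v a ^ k :=
  map_pow (Form.pullA Pr.v map_v) a k

theorem pull_v_zero : (Form.pull Pr.v map_v (0 : Form (dUT E M)) : Form (dPr e D)) = 0 :=
  map_zero (Form.pullA Pr.v map_v)

/-- products of forms of too large degree -/
theorem F12_zero {n : ℕ} (hn : finrank ℝ E = 4 * n) (hn1 : 1 ≤ n) (h4 : Form.IsDeg 4 Oz)
    {τ : Form (dUT E M)} {j : ℕ} (hτ : Form.IsDeg j τ) (x y : ℕ) (hxy : 8 * n ≤ 4 * (x + y) + j) :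
    F1 G Oz ^ x * F2 G Oz ^ y * Form.pull Pr.v map_v τ = 0 := by
  rw [F1_eq, F2_eq, ← pull_v_pow, ← pull_v_pow, ← pull_v_mul, ← pull_v_mul]
  have h1 : Form.IsDeg (4 * x + 4 * y + j)
      ((Form.pull (bar e D) (WR.map_bar G.F D) Oz) ^ x * (Form.pull foot W.map_foot Oz) ^ y * τ) :=
    (((h4.pull _ _).pow x).mul ((h4.pull _ _).pow y)).mul hτ
  have h2 : WA.DimLE (dUT E M) (2 * (4 * n - 1) + 1) :=
    L.dimLE_bridge (WF.dimLE_UT E M (by omega))
  rw [h2.isDeg_eq_zero (by omega) h1]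
  exact pull_v_zero

theorem F12_zero' {n : ℕ} (hn : finrank ℝ E = 4 * n) (hn1 : 1 ≤ n) (h4 : Form.IsDeg 4 Oz)
    (x y : ℕ) (hxy : 2 * n ≤ x + y) : F1 G Oz ^ x * F2 G Oz ^ y = 0 := by
  have h1 := F12_zero G hn hn1 h4 (τ := 1) Form.IsDeg.one x y (by omega)
  have h2 : (Form.pull Pr.v map_v (1 : Form (dUT E M)) : Form (dPr e D)) = 1 :=
    map_one (Form.pullA Pr.v map_v)
  rwa [h2, mul_one] at h1

theorem Om_pow {n : ℕ} (hn : finrank ℝ E = 4 * n) (hn1 : 1 ≤ n) (h4 : Form.IsDeg 4 Oz) :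
    Oz ^ (n + 1) = 0 := by
  have h1 : WA.DimLE (W.dM E M) (4 * n) := S2T.dimLE_M' hn
  exact h1.pow_eq_zero (j := 4) (by omega) h4

end Pul

end

end Vale.Agent.P231.S2X
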