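import Vale.Agent.P231.S2X.Geo3
import Vale.Agent.P231.L3.Inst
import Vale.Agent.P231.S2T.Val4

/-!
# P231, stage 2, S2-X: the data of the values of the integral
-/

set_option maxSynthPendingDepth 3
set_option linter.unusedSectionVars false
set_option linter.unusedVariables false

open Bundle Manifold Set Filter Module Matrix MeasureTheory
open scoped ContDiff Manifold Topology

namespace Vale.Agent.P231.S2X

noncomputable section

open Vale.Agent.P234 Vale.Agent.P231 Vale.Agent.P231.Fm Vale.Agent.P231.W Vale.Agent.P231.WR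
open Vale.Agent.P231.S2II Vale.Agent.P231.H649 Vale.Agent.P231.X3 Vale.Agent.P231.ChW
open Vale.Agent.P231.WG Vale.Agent.P231.WQ

variable {E : Type*} [NormedAddCommGroup E] [NormedSpace ℝ E]
  {M : Type*} [MetricSpace M] [ChartedSpace E M]
  [RiemannianBundle (fun x : M => TangentSpace 𝓘(ℝ, E) x)]
  {e : ∀ x : M, TangentSpace 𝓘(ℝ, E) x → M}
  [FiniteDimensional ℝ E] [IsManifold 𝓘(ℝ, E) ∞ M]
  [IsContMDiffRiemannianBundle 𝓘(ℝ, E) ∞ E (fun x : M => TangentSpace 𝓘(ℝ, E) x)]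
  [CompactSpace M] [ConnectedSpace M] [IsRiemannianManifold 𝓘(ℝ, E) M]
  {D : ℝ} {K : ℕ}

section Int

variable [MeasurableSpace M] [BorelSpace M] (G : X3.Geo e D 3) (P : PF E M K) {n N : ℕ}
  (hn : finrank ℝ E = 4 * n) (hn1 : 1 ≤ n) (hN : finrank ℝ E = N + 1)
  {p : M}
  {Pi : TangentSpace 𝓘(ℝ, E) p → TangentSpace 𝓘(ℝ, E) p →L[ℝ] TangentSpace 𝓘(ℝ, E) p}
  {o : TangentSpace 𝓘(ℝ, E) p → Fm.Lam (TangentSpace 𝓘(ℝ, E) p)}
  {ρ : TangentSpace 𝓘(ℝ, E) p → ℝ} {r₀ : ℝ}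
  (hJ : FE.LineP e D p 1 Pi o) (hρ : WE.Rho e D p ρ r₀) {a : ℝ} (ha : a ≠ 0)
  {R : ℝ} (X : WG.Fr e p R) (v0 : UT E M) {r : Eu E → ℝ} {K' : Set (Eu E)} (hr : Q.Cut r K')
  (hDR : D < R) (b : OrthonormalBasis (Fin (N + 1)) ℝ (Eu E))

/-- the orientation of the line -/
theorem orn (ha : a ≠ 0) (h2 : 2 ≤ finrank ℝ E) :
    Orn G.F G.hD G.hB G.hdiam (l := 3) (L3.b0P G.F G.hD G.hB G.hdiam (Om G hJ hρ a)) :=
  S2II.orn_b0P G.F G.hD G.hB G.hdiam (n := 1) h2 G.hP hJ hρ ha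

/-- integration along the spheres -/
def SL3 (ha : a ≠ 0) (h2 : 2 ≤ finrank ℝ E) : Form (dPr e D) →ₗ[ℝ] Form (dUT E M) :=
  S2II.SL G.F G.hD G.hB G.hdiam (l := 3) G.hP (orn G hJ hρ ha h2) ⟨1, rfl⟩

theorem fib3 (ha : a ≠ 0) (h2 : 2 ≤ finrank ℝ E) :
    L3.FibI G.F G.hD G.hB G.hdiam 3 (SL3 G hJ hρ ha h2) :=
  L3.fibI_SL G.F G.hD G.hB G.hdiam (l := 3) G.hP (orn G hJ hρ ha h2) ⟨1, rfl⟩

/-- the integral over the space of pairs -/
def IP (ha : a ≠ 0) (h2 : 2 ≤ finrank ℝ E) : Form (dPr e D) →ₗ[ℝ] ℝ :=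
  II X v0 b.toBasis hr hDR ∘ₗ SL3 G hJ hρ ha h2

theorem SL3_b0P (ha : a ≠ 0) (h2 : 2 ≤ finrank ℝ E) :
    SL3 G hJ hρ ha h2 (L3.b0P G.F G.hD G.hB G.hdiam (Om G hJ hρ a)) =
      (2 * S2II.kappa 1 a) • 1 :=
  S2II.SL_b0P G.F G.hD G.hB G.hdiam (n := 1) h2 G.hP hJ hρ ha

include hn hn1 in
theorem IP_nz (h2 : 2 ≤ finrank ℝ E)
    (hrad : ∀ y z : Eu E, (inner ℝ y z : ℝ) = 0 → fderiv ℝ r y z = 0) :
    IP G hJ hρ X v0 hr hDR b ha h2 (BB G (Om G hJ hρ a) *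
      (J G.R G.map_R (2 * Real.pi) (BB G (Om G hJ hρ a)) *
        (F1 G (Om G hJ hρ a) ^ (n - 1) * F2 G (Om G hJ hρ a) ^ n))) ≠ 0 := by
  set OM := Om G hJ hρ a with hOM
  have h4 : Form.IsDeg 4 OM := isDeg_FF G.F G.hD G.hB G.hdiam (n := 1) G.hP hJ hρ a
  set b0 := L3.b0P G.F G.hD G.hB G.hdiam OM with hb0
  have hbe : b0.sg = b0 := (orn G hJ hρ ha h2).deg.sg_of_even (by decide)
  have e0 : J G.R G.map_R (2 * Real.pi) (BB G OM) = b0 := rfl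
  have e1 : BB G OM * (b0 * (F1 G OM ^ (n - 1) * F2 G OM ^ n)) =
      b0 * Form.pull Pr.v map_v (WR.B0 G.F D OM * ((Form.pull foot W.map_foot OM) ^ n *
        (Form.pull (bar e D) (WR.map_bar G.F D) OM) ^ (n - 1))) := by
    rw [pull_v_mul, pull_v_mul, pull_v_pow, pull_v_pow, ← F1_eq, ← F2_eq]
    have h5 : BB G OM * b0 = b0 * BB G OM := (H584.even_comm hbe _).eq.symm
    have h6 : F1 G OM ^ (n - 1) * F2 G OM ^ n = F2 G OM ^ n * F1 G OM ^ (n - 1) :=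
      (H584.even_comm (H584.pow_even (F1_sg G (h4.sg_of_even (by decide))) _) _).eq
    rw [h6, ← mul_assoc, h5, mul_assoc]
    rfl
  rw [e0, e1, IP, LinearMap.comp_apply, (fib3 G hJ hρ ha h2).mul, SL3_b0P, smul_mul_assoc,
    one_mul, map_smul, smul_eq_mul]
  refine mul_ne_zero (mul_ne_zero two_ne_zero (kappa_pos (n := 1) ha).ne') ?_
  have hs : ∀ v : UT E M, ∃ q : Pr e D, q.v = v := fun v => by
    obtain ⟨W, hW⟩ := exists_isLF G.F G.hD G.hB G.hdiam (l := 3) G.hP v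
    exact ⟨S2II.Fr.p0 (⟨(v, W), hW⟩ : S2II.Fr e D 3), rfl⟩
  have h7 := Q2.II_eq X v0 G.F G.hD G.hB G.hdiam hs
    (FE.FF_d G.F G.hD G.hB G.hdiam G.hP hJ hρ a)
    (FE.FF_deg G.F G.hD G.hB G.hdiam (n := 1) G.hP hJ hρ a) ⟨2, rfl⟩ (by norm_num) (n := n) hn1 hn
    b.toBasis hr hrad hDR (FE.ang_PsiE hJ.os a) (WQ.cut_rho hρ) (WQ.closedBall_sub hρ)
    (fun x hx => FE.FF_ef G.F G.hD G.hB G.hdiam (n := 1) G.hP hJ hρ a hx)
    (fun y hy => FE.B0_cc G.F G.hD G.hB G.hdiam (n := 1) G.hP hJ hρ a (G.hD.trans hDR) X v0 hy)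
  have h8 := (FE.q_le hJ.os ha le_rfl hn1 hn b hr).2
  have h9 : II X v0 b.toBasis hr hDR (WR.B0 G.F D OM * ((Form.pull foot W.map_foot OM) ^ n *
        (Form.pull (bar e D) (WR.map_bar G.F D) OM) ^ (n - 1))) =
      Q.qv volume b.toBasis r (FE.PsiE 1 a p Pi o) (n - 1) *
        Q.qv volume b.toBasis r (FE.PsiE 1 a p Pi o) (n - 1) := h7
  rw [h9]
  exact mul_ne_zero h8 h8

include hn1 hn hN in
/-- **the integral and its degrees** -/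
theorem gint (h2 : 2 ≤ finrank ℝ E)
    (hrad : ∀ y z : Eu E, (inner ℝ y z : ℝ) = 0 → fderiv ℝ r y z = 0) :
    S2X.GInt G.isFlow_R n (nu e D P) (F1 G (Om G hJ hρ a)) (F2 G (Om G hJ hρ a))
      (BB G (Om G hJ hρ a)) (IP G hJ hρ X v0 hr hDR b ha h2) where
  Id w := by
    change II X v0 b.toBasis hr hDR (SL3 G hJ hρ ha h2 w.d) = 0
    rw [(fib3 G hJ hρ ha h2).d]
    exact II_d G.F G.hD G.hB G.hdiam (fun x y h => by rw [G.hP x y h]; omega) X v0 b.toBasis hr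
      hDR _
  Ib w hw := (fib3 G hJ hρ ha h2).basic (by norm_num)
    (fun w => II_part X v0 b.toBasis hr hDR rfl w)
    (WR.dimEq_Pr G.F G.hD G.hB G.hdiam (by norm_num) G.hP hN)
    G.isFlow_R (WR.moves_R G.F G.hD G.hB G.hdiam) w hw
  Ideg k w hw hk := by
    have h3 := (fib3 G hJ hρ ha h2).top (by norm_num)
      (fun w => II_part X v0 b.toBasis hr hDR rfl w) w
    change (II X v0 b.toBasis hr hDR ∘ₗ SL3 G hJ hρ ha h2) w = 0
    rw [h3, hw.part_eq_zero (by omega), map_zero]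
  gν := isDeg_conn _ _
  g1 := (isDeg_FF G.F G.hD G.hB G.hdiam (n := 1) G.hP hJ hρ a).pull _ G.map_bar
  g2 := (isDeg_FF G.F G.hD G.hB G.hdiam (n := 1) G.hP hJ hρ a).pull _ G.map_foot
  gB := BB_deg G (isDeg_FF G.F G.hD G.hB G.hdiam (n := 1) G.hP hJ hρ a)
  p1 := by
    have h3 := Om_pow hn hn1 (isDeg_FF G.F G.hD G.hB G.hdiam (n := 1) G.hP hJ hρ a)
    have h4 := map_pow (Form.pullA (fun p : Pr e D => bar e D p.v) G.map_bar)
      (Om G hJ hρ a) (n + 1)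
    refine h4.symm.trans ?_
    refine (congrArg _ h3).trans ?_
    exact map_zero (Form.pullA _ G.map_bar)
  p2 := by
    have h3 := Om_pow hn hn1 (isDeg_FF G.F G.hD G.hB G.hdiam (n := 1) G.hP hJ hρ a)
    have h4 := map_pow (Form.pullA (fun p : Pr e D => foot p.v) G.map_foot)
      (Om G hJ hρ a) (n + 1)
    refine h4.symm.trans ?_
    refine (congrArg _ h3).trans ?_
    exact map_zero (Form.pullA _ G.map_foot)
  p12 x y hxy := F12_zero' G hn hn1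
    (isDeg_FF G.F G.hD G.hB G.hdiam (n := 1) G.hP hJ hρ a) x y hxy
  ex := by
    have hO4 : Form.IsDeg 4 (Om G hJ hρ a) :=
      isDeg_FF G.F G.hD G.hB G.hdiam (n := 1) G.hP hJ hρ a
    have h3 := S2T.pth G.F (D := D) (n := n) (FE.FF_d G.F G.hD G.hB G.hdiam G.hP hJ hρ a)
      ⟨2, rfl⟩ hO4 (Om_pow hn hn1 hO4)
    obtain ⟨m, hm⟩ := h3.ex
    refine ⟨Form.pull Pr.v map_v m, ?_⟩
    rw [← Form.pull_d, ← hm, H584.hh_symm (H584.even_comm (F1_sg G (hO4.sg_of_even (by decide))) _),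
      pull_v_mul, H584.pull_hh, ← F1_eq, ← F2_eq]
    rfl
  nz := IP_nz G hn hn1 hJ hρ ha X v0 hr hDR b h2 hrad

end Int

end

end Vale.Agent.P231.S2X
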