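import Vale.Agent.P231.S2II.BunSL
import Vale.Agent.P231.H649.GS
import Vale.Agent.P231.X3.Pen

/-!
# P231, stage 2, S2-X: the rotation by a right angle in the orthogonal complement of a pair in a
four-dimensional plane `P_pq`
-/

set_option maxSynthPendingDepth 3
set_option linter.unusedSectionVars false
set_option linter.unusedVariables false

open Bundle Manifold Set Filter Module
open scoped ContDiff Manifold Topology

namespace Vale.Agent.P231.S2X

noncomputable section

open Vale.Agent.P234 Vale.Agent.P231 Vale.Agent.P231.Fm Vale.Agent.P231.W Vale.Agent.P231.WR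
open Vale.Agent.P231.S2II Vale.Agent.P231.H649

variable {E : Type*} [NormedAddCommGroup E] [NormedSpace ℝ E]
  {M : Type*} [MetricSpace M] [ChartedSpace E M]
  [RiemannianBundle (fun x : M => TangentSpace 𝓘(ℝ, E) x)]
  {e : ∀ x : M, TangentSpace 𝓘(ℝ, E) x → M}
  [FiniteDimensional ℝ E] [IsManifold 𝓘(ℝ, E) ∞ M]
  [IsContMDiffRiemannianBundle 𝓘(ℝ, E) ∞ E (fun x : M => TangentSpace 𝓘(ℝ, E) x)]
  [CompactSpace M] [ConnectedSpace M] [IsRiemannianManifold 𝓘(ℝ, E) M]

/-! ### two frames over the same vector -/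

theorem det_mt {l : ℕ} (G : Fin l → Fin l → ℝ) :
    LinearMap.det (mt G : Eul l →ₗ[ℝ] Eul l) = Matrix.det (Matrix.of G) := by
  rw [← LinearMap.det_toMatrix (EuclideanSpace.basisFun (Fin l) ℝ).toBasis]
  congr 1
  ext i j
  rw [LinearMap.toMatrix_apply]
  simp only [OrthonormalBasis.coe_toBasis, EuclideanSpace.basisFun_apply,
    OrthonormalBasis.coe_toBasis_repr_apply, EuclideanSpace.basisFun_repr,
    ContinuousLinearMap.coe_coe, mt_apply, Matrix.of_apply]
  rw [Finset.sum_eq_single j]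
  · simp
  · intro k _ hk
    simp [hk]
  · intro h
    exact absurd (Finset.mem_univ j) h

theorem at_const (v : UT E M) {E' : Type} [NormedAddCommGroup E'] [NormedSpace ℝ E']
    [FiniteDimensional ℝ E'] (x : E') : (dUT E M).At (fun _ : E' => v) x := by
  rw [at_iff]
  exact Eventually.of_forall fun s => contMDiffAt_const

theorem at_constFr {D : ℝ} {l : ℕ} (f : Fr e D l) {E' : Type} [NormedAddCommGroup E']
    [NormedSpace ℝ E'] [FiniteDimensional ℝ E'] (x : E') : (dFr e D l).At (fun _ : E' => f) x :=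
  ⟨at_const _ x, fun i => at_const _ x⟩

variable (F : Facts e) {D : ℝ} (hD : 0 < D) (hB : InjGE e D) (hdiam : ∀ p q : M, dist p q ≤ D)

theorem kf_tm {l : ℕ} [NeZero l]
    (hP : ∀ x y : M, dist x y = D → finrank ℝ (H775.Pl e D x y) = l + 1) {b : Form (dPr e D)}
    (hdeg : Form.IsDeg (l - 1) b) {f f' : Fr e D l} (hv : f.v = f'.v) :
    kf F hD hB hdiam b f' = Matrix.det (Matrix.of (tm f f')) * kf F hD hB hdiam b f := by
  have h := kf_change (F := F) (hD := hD) (hB := hB) (hdiam := hdiam) (b := b) hdeg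
    (at_constFr f (0 : ℝ)) (at_constFr f' (0 : ℝ))
    (g := fun _ => mt (tm f f')) (Sm.of_contDiff contDiff_const _)
    (Eventually.of_forall fun s y => norm_mt_tm F hD hB hdiam hP hv y)
    (Eventually.of_forall fun s y hy => by
      have hy' : ‖mt (tm f f') y‖ = 1 := (norm_mt_tm F hD hB hdiam hP hv y).trans hy
      refine Pr.ext' ?_ ?_
      · rw [cone_v, cone_v]
        exact hv.symm
      · rw [cone_w F hD hB hdiam _ hy, cone_w F hD hB hdiam _ hy']
        refine mk_congr (by rw [hv]) ?_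
        exact cb_tm F hD hB hdiam hP hv y)
  rw [h, det_mt]

/-! ### adapted frames -/

/-- positive frames of `L_v` which begin with `w` -/
structure Ad (b : Form (dPr e D)) (p : Pr e D) (f : Fr e D 3) : Prop where
  hv : f.v = p.v
  hw : f.W 0 = p.w
  pos : 0 < kf F hD hB hdiam b f

variable {F hD hB hdiam}

theorem Fr.ext' {l : ℕ} {f f' : Fr e D l} (hv : f.v = f'.v) (hW : ∀ i, f.W i = f'.W i) :
    f = f' := Subtype.ext (Prod.ext hv (funext hW))

theorem tm_on {l : ℕ} {f f' : Fr e D l}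
    (hP : ∀ x y : M, dist x y = D → finrank ℝ (H775.Pl e D x y) = l + 1)
    (F : Facts e) (hD : 0 < D) (hB : InjGE e D) (hdiam : ∀ p q : M, dist p q ≤ D)
    (hv : f.v = f'.v) (i j : Fin l) :
    ∑ k, tm f f' k i * tm f f' k j = if i = j then 1 else 0 := by
  have h1 : ip (foot f.v) (vec' (f'.W i)) (vec' (f'.W j)) = if i = j then 1 else 0 := by
    rw [hv]
    exact ip_W f' i j
  rw [← h1]
  have h2 : (vec' (E := E) (f'.W i) : TangentSpace 𝓘(ℝ, E) (foot f.v)) ∈ Lf e D f.v := by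
    rw [hv]
    exact (f'.isLF.isL i).mem_Lf
  have h3 := cb_co F hD hB hdiam hP f h2
  conv_rhs => rw [← h3]
  rw [cb, ip_sum_left]
  refine Finset.sum_congr rfl fun k _ => ?_
  rw [ip_smul_left', co_apply]
  rfl

theorem Ad.rot (hP : ∀ x y : M, dist x y = D → finrank ℝ (H775.Pl e D x y) = 3 + 1)
    {b : Form (dPr e D)} (hdeg : Form.IsDeg (3 - 1) b) {p : Pr e D} {f f' : Fr e D 3}
    (h : Ad F hD hB hdiam b p f) (h' : Ad F hD hB hdiam b p f') :
    ∃ c s : ℝ, c ^ 2 + s ^ 2 = 1 ∧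
      vec' (f'.W 1) = c • vec' (f.W 1) + s • vec' (f.W 2) ∧
      vec' (f'.W 2) = (-s) • vec' (f.W 1) + c • vec' (f.W 2) := by
  have hv : f.v = f'.v := h.hv.trans h'.hv.symm
  have hw : f.W 0 = f'.W 0 := h.hw.trans h'.hw.symm
  have hon := tm_on (f := f) (f' := f') hP F hD hB hdiam hv
  have hkf := kf_tm F hD hB hdiam hP hdeg hv
  set G := tm f f' with hG
  have e00 : G 0 0 = 1 := by
    rw [hG, tm, ← hw]
    exact (f.isLF.isL 0).ip_self
  have e0 : ∀ j, j ≠ 0 → G 0 j = 0 := by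
    intro j hj
    rw [hG, tm, hw, hv]
    exact f'.isLF.orth 0 j (Ne.symm hj)
  have e1 : ∀ i, i ≠ 0 → G i 0 = 0 := by
    intro i hi
    rw [hG, tm, ← hw]
    exact f.isLF.orth i 0 hi
  have e01 := e0 1 (by decide)
  have e02 := e0 2 (by decide)
  have e10 := e1 1 (by decide)
  have e20 := e1 2 (by decide)
  have o11 := hon 1 1
  have o12 := hon 1 2
  have o22 := hon 2 2
  rw [Fin.sum_univ_three, if_pos rfl, e01] at o11
  rw [Fin.sum_univ_three, if_neg (by decide), e01] at o12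
  rw [Fin.sum_univ_three, if_pos rfl, e02] at o22
  have hdet : Matrix.det (Matrix.of G) = G 1 1 * G 2 2 - G 1 2 * G 2 1 := by
    rw [Matrix.det_fin_three]
    simp only [Matrix.of_apply]
    rw [e00, e01, e02, e10, e20]
    ring
  have hpos : 0 < G 1 1 * G 2 2 - G 1 2 * G 2 1 := by
    rw [← hdet]
    have h1 : 0 < Matrix.det (Matrix.of G) * kf F hD hB hdiam b f := by
      rw [← hkf]; exact h'.pos
    exact (pos_iff_pos_of_mul_pos h1).2 h.pos
  have hsq : (G 1 1 * G 2 2 - G 1 2 * G 2 1) ^ 2 = 1 := by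
    have h1 : G 1 1 * G 1 1 + G 2 1 * G 2 1 = 1 := by linear_combination o11
    have h2 : G 1 2 * G 1 2 + G 2 2 * G 2 2 = 1 := by linear_combination o22
    have h3 : G 1 1 * G 1 2 + G 2 1 * G 2 2 = 0 := by linear_combination o12
    linear_combination (G 1 2 * G 1 2 + G 2 2 * G 2 2) * h1 + h2 -
      (G 1 1 * G 1 2 + G 2 1 * G 2 2) * h3
  have hone : G 1 1 * G 2 2 - G 1 2 * G 2 1 = 1 := by nlinarith
  have h4 : (G 1 1 - G 2 2) ^ 2 + (G 1 2 + G 2 1) ^ 2 = 0 := by
    linear_combination o11 + o22 - 2 * hone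
  have h5 : G 2 2 = G 1 1 := by nlinarith [sq_nonneg (G 1 1 - G 2 2), sq_nonneg (G 1 2 + G 2 1)]
  have h6 : G 1 2 = -G 2 1 := by nlinarith [sq_nonneg (G 1 1 - G 2 2), sq_nonneg (G 1 2 + G 2 1)]
  have hvec : ∀ j, vec' (f'.W j) = ∑ k, G k j • vec' (f.W k) := by
    intro j
    have h2 : (vec' (E := E) (f'.W j) : TangentSpace 𝓘(ℝ, E) (foot f.v)) ∈ Lf e D f.v := by
      rw [hv]
      exact (f'.isLF.isL j).mem_Lf
    exact (cb_co F hD hB hdiam hP f h2).symm
  refine ⟨G 1 1, G 2 1, ?_, ?_, ?_⟩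
  · linear_combination o11
  · rw [hvec, Fin.sum_univ_three, e01, zero_smul, zero_add]
  · rw [hvec, Fin.sum_univ_three, e02, zero_smul, zero_add, h5, h6]

/-! ### existence -/

/-- the flip of the last vector -/
def flip2 (F : Facts e) {D : ℝ} (hD : 0 < D) (hB : InjGE e D)
    (hdiam : ∀ p q : M, dist p q ≤ D) (f : Fr e D 3) : Fr e D 3 :=
  ⟨(f.v, ![f.W 0, f.W 1, ng (f.W 2)]), ⟨fun i => by
    fin_cases i
    · exact f.isLF.isL 0
    · exact f.isLF.isL 1
    · exact (f.isLF.isL 2).ng F hD hB hdiam, fun i j hij => by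
    have h1 : ip (foot f.v) (vec' (f.W 0)) (vec' (f.W 1)) = 0 := f.isLF.orth 0 1 (by decide)
    have h2 : ip (foot f.v) (vec' (f.W 0)) (vec' (f.W 2)) = 0 := f.isLF.orth 0 2 (by decide)
    have h3 : ip (foot f.v) (vec' (f.W 1)) (vec' (f.W 2)) = 0 := f.isLF.orth 1 2 (by decide)
    have h4 := h1
    have h5 := h2
    have h6 := h3
    rw [ip_comm'] at h4 h5 h6
    fin_cases i <;> fin_cases j
    · exact absurd rfl hij
    · exact h1
    · change ip (foot f.v) (vec' (f.W 0)) (vec' (ng (f.W 2))) = 0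
      rw [vec'_ng, ip_neg_right', h2, neg_zero]
    · exact h4
    · exact absurd rfl hij
    · change ip (foot f.v) (vec' (f.W 1)) (vec' (ng (f.W 2))) = 0
      rw [vec'_ng, ip_neg_right', h3, neg_zero]
    · change ip (foot f.v) (vec' (ng (f.W 2))) (vec' (f.W 0)) = 0
      rw [vec'_ng, ip_comm', ip_neg_right', h2, neg_zero]
    · change ip (foot f.v) (vec' (ng (f.W 2))) (vec' (f.W 1)) = 0
      rw [vec'_ng, ip_comm', ip_neg_right', h3, neg_zero]
    · exact absurd rfl hij⟩⟩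

theorem kf_flip2 (hP : ∀ x y : M, dist x y = D → finrank ℝ (H775.Pl e D x y) = 3 + 1)
    {b : Form (dPr e D)} (hdeg : Form.IsDeg (3 - 1) b) (f : Fr e D 3) :
    kf F hD hB hdiam b (flip2 F hD hB hdiam f) = -kf F hD hB hdiam b f := by
  have h1 := kf_tm F hD hB hdiam hP hdeg (f := f) (f' := flip2 F hD hB hdiam f) rfl
  have h2 : Matrix.det (Matrix.of (tm f (flip2 F hD hB hdiam f))) = -1 := by
    have g : ∀ i j, tm f (flip2 F hD hB hdiam f) i j =
        if i = j then (if j = 2 then -1 else 1) else 0 := by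
      intro i j
      have h3 : ∀ i j, ip (foot f.v) (vec' (f.W i)) (vec' (f.W j)) = if i = j then 1 else 0 :=
        ip_W f
      fin_cases j
      · change ip (foot f.v) (vec' (f.W i)) (vec' (f.W 0)) = _
        rw [h3]
        rfl
      · change ip (foot f.v) (vec' (f.W i)) (vec' (f.W 1)) = _
        rw [h3]
        rfl
      · change ip (foot f.v) (vec' (f.W i)) (vec' (ng (f.W 2))) = _
        rw [vec'_ng, ip_neg_right', h3]
        change -(if i = 2 then (1 : ℝ) else 0) = if i = 2 then -1 else 0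
        split_ifs <;> simp
    have g00 : tm f (flip2 F hD hB hdiam f) 0 0 = 1 := g 0 0
    have g01 : tm f (flip2 F hD hB hdiam f) 0 1 = 0 := g 0 1
    have g02 : tm f (flip2 F hD hB hdiam f) 0 2 = 0 := g 0 2
    have g10 : tm f (flip2 F hD hB hdiam f) 1 0 = 0 := g 1 0
    have g11 : tm f (flip2 F hD hB hdiam f) 1 1 = 1 := g 1 1
    have g12 : tm f (flip2 F hD hB hdiam f) 1 2 = 0 := g 1 2
    have g20 : tm f (flip2 F hD hB hdiam f) 2 0 = 0 := g 2 0
    have g21 : tm f (flip2 F hD hB hdiam f) 2 1 = 0 := g 2 1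
    have g22 : tm f (flip2 F hD hB hdiam f) 2 2 = -1 := g 2 2
    rw [Matrix.det_fin_three]
    simp only [Matrix.of_apply]
    rw [g00, g01, g02, g10, g11, g12, g20, g21, g22]
    norm_num
  rw [h1, h2, neg_one_mul]

theorem at_flip2 {E' : Type} [NormedAddCommGroup E'] [NormedSpace ℝ E'] [FiniteDimensional ℝ E']
    {f : E' → Fr e D 3} {x : E'} (hf : (dFr e D 3).At f x) :
    (dFr e D 3).At (fun s => flip2 F hD hB hdiam (f s)) x := by
  refine ⟨hf.1, fun i => ?_⟩
  fin_cases i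
  · exact hf.2 0
  · exact hf.2 1
  · exact map_ng (hf.2 2)

theorem ip_zero_r (x : M) (a : E) : ip x a (0 : E) = 0 := by
  have h := ip_smul_right' x 0 a (0 : E)
  rwa [zero_smul, zero_mul] at h

/-- the fields for Gram–Schmidt -/
def rawf (w : UT E M) (W : Fin 3 → UT E M) (k : Fin 3) (i : Fin 3) : E :=
  if i = 0 then vec' w else vec' (W (Equiv.swap 0 k i))

theorem li_rawf (hP : ∀ x y : M, dist x y = D → finrank ℝ (H775.Pl e D x y) = 3 + 1)
    (F : Facts e) (hD : 0 < D) (hB : InjGE e D) (hdiam : ∀ p q : M, dist p q ≤ D)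
    {v w : UT E M} (hw : IsL e D v w) {W : Fin 3 → UT E M} (hW : IsLF e D v W) {k : Fin 3}
    (hk : ip (foot v) (vec' (W k)) (vec' w) ≠ 0) :
    LinearIndependent ℝ (tvs v (rawf w W k)) := by
  rw [Fintype.linearIndependent_iff]
  intro g hg
  have hg' : ∑ i, g i • rawf w W k i = 0 := hg
  have hon : ∀ i j, ip (foot v) (vec' (W i)) (vec' (W j)) = if i = j then 1 else 0 :=
    ip_W (⟨(v, W), hW⟩ : Fr e D 3)
  have key : ∀ j : Fin 3, ∑ i, g i * (if i = 0 then ip (foot v) (vec' (W j)) (vec' w) else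
      (if j = Equiv.swap 0 k i then 1 else 0)) = 0 := by
    intro j
    have h1 : ip (foot v) (vec' (W j)) (∑ i, g i • rawf w W k i) = 0 := by
      rw [hg', ip_zero_r]
    rw [ip_sum_right] at h1
    refine Eq.trans ?_ h1
    refine Finset.sum_congr rfl fun i _ => ?_
    rw [ip_smul_right', rawf]
    congr 1
    by_cases hi : i = 0
    · rw [if_pos hi, if_pos hi]
    · rw [if_neg hi, if_neg hi, hon]
  have h0 : g 0 = 0 := by
    have h1 := key k
    rw [Finset.sum_eq_single 0, if_pos rfl] at h1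
    · exact (mul_eq_zero.1 h1).resolve_right hk
    · intro i _ hi
      rw [if_neg hi]
      split_ifs with h4
      · exfalso
        have h5 : Equiv.swap 0 k 0 = Equiv.swap 0 k i := by rw [Equiv.swap_apply_left]; exact h4
        exact hi ((Equiv.swap 0 k).injective h5).symm
      · rw [mul_zero]
    · intro h
      exact absurd (Finset.mem_univ 0) h
  intro i
  by_cases hi : i = 0
  · rw [hi, h0]
  · have h1 := key (Equiv.swap 0 k i)
    rw [Finset.sum_eq_single i] at h1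
    · rw [if_neg hi, if_pos rfl, mul_one] at h1
      exact h1
    · intro j _ hj
      split_ifs with h3 h4
      · rw [h3, h0, zero_mul]
      · exact absurd ((Equiv.swap 0 k).injective h4).symm hj
      · rw [mul_zero]
    · intro h
      exact absurd (Finset.mem_univ i) h

/-- **smooth adapted frames exist locally** -/
theorem exists_ad (F : Facts e) {D : ℝ} (hD : 0 < D) (hB : InjGE e D)
    (hdiam : ∀ p q : M, dist p q ≤ D)
    (hP : ∀ x y : M, dist x y = D → finrank ℝ (H775.Pl e D x y) = 3 + 1)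
    {b : Form (dPr e D)} (hb : Orn F hD hB hdiam (l := 3) b)
    {E' : Type} [NormedAddCommGroup E'] [NormedSpace ℝ E'] [FiniteDimensional ℝ E']
    {p : E' → Pr e D} {x : E'} (hp : (dPr e D).At p x) :
    ∃ f : E' → Fr e D 3, (dFr e D 3).At f x ∧ ∀ᶠ s in 𝓝 x, Ad F hD hB hdiam b (p s) (f s) := by
  classical
  have hu : (dUT E M).At (fun s => (p s).v) x := map_v hp
  obtain ⟨W₀, hW₀⟩ := exists_isLF F hD hB hdiam hP (p x).v
  obtain ⟨W, h1, h2, h3⟩ := WR.exists_frame F hD hB hdiam hP hu hW₀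
  have hk : ∃ k, ip (foot (p x).v) (vec' (W₀ k)) (vec' (p x).w) ≠ 0 := by
    by_contra hcon
    have hcon' : ∀ k, ip (foot (p x).v) (vec' (W₀ k)) (vec' (p x).w) = 0 := fun k => by
      by_contra h
      exact hcon ⟨k, h⟩
    have g1 := cb_co F hD hB hdiam hP (⟨((p x).v, W₀), hW₀⟩ : Fr e D 3) (p x).isL.mem_Lf
    have g2 : ip (foot (p x).v) (vec' (p x).w) (vec' (p x).w) = 1 := (p x).isL.ip_self
    have g3 : vec' (p x).w = (0 : E) := by
      refine g1.symm.trans ?_
      refine Finset.sum_eq_zero fun i _ => ?_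
      change ip (foot (p x).v) (vec' (W₀ i)) (vec' (p x).w) • _ = _
      rw [hcon', zero_smul]
    rw [g3, ip_zero_r] at g2
    exact zero_ne_one g2
  obtain ⟨k, hk⟩ := hk
  have hW₀' : (fun i => W i x) = W₀ := funext h1
  have hli0 : LinearIndependent ℝ (tvs (p x).v (rawf (p x).w (fun i => W i x) k)) := by
    rw [hW₀']
    exact li_rawf hP F hD hB hdiam (p x).isL hW₀ hk
  have hkev : ∀ᶠ s in 𝓝 x, ip (foot (p s).v) (vec' (W k s)) (vec' (p s).w) ≠ 0 := by
    have g1 : Sm (fun s => ip (foot (p s).v) (vec' (W k s)) (vec' (p s).w)) x :=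
      sm_ip' (u := fun s => (p s).v) (h2 k) (map_w hp)
        (h3.mono fun s hs => (hs.isL k).foot_eq)
        (Eventually.of_forall fun s => (p s).isL.foot_eq)
    refine g1.continuousAt.eventually_ne ?_
    rw [h1]
    exact hk
  have hat : ∀ i, (dTM E M).At (fun s => tb (foot (p s).v)
      (rawf (p s).w (fun i => W i s) k i)) x := by
    intro i
    by_cases hi : i = 0
    · refine (dTM E M).congr (at_iff.1 (map_w hp)) (Eventually.of_forall fun s => ?_)
      refine tb_congr (p s).isL.foot_eq ?_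
      exact (if_pos hi).symm
    · refine (dTM E M).congr (at_iff.1 (h2 (Equiv.swap 0 k i))) ?_
      filter_upwards [h3] with s hs
      refine tb_congr (hs.isL _).foot_eq ?_
      exact (if_neg hi).symm
  have hat2 : ∀ i, (dUT E M).At (fun s => gsU (p s).v
      (fun j => rawf (p s).w (fun i => W i s) k j) i) x := fun i => at_gsU hu hat hli0 i
  have hlf : ∀ᶠ s in 𝓝 x, IsLF e D (p s).v (gsU (p s).v (rawf (p s).w (fun i => W i s) k)) ∧
      gsU (p s).v (rawf (p s).w (fun i => W i s) k) 0 = (p s).w := by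
    filter_upwards [h3, hkev] with s g1 g2
    have hli := li_rawf hP F hD hB hdiam (p s).isL g1 g2
    refine ⟨isLF_gsU F hD hB hdiam (fun i => ?_) hli, ?_⟩
    · have key : ∀ z : E, z = rawf (p s).w (fun i => W i s) k i →
          (z : TangentSpace 𝓘(ℝ, E) (foot (p s).v)) ∈ Lf e D (p s).v →
          tvs (p s).v (rawf (p s).w (fun i => W i s) k) i ∈ Lf e D (p s).v := by
        rintro z rfl hz
        exact hz
      by_cases hi : i = 0
      · exact key _ (if_pos hi).symm (p s).isL.mem_Lf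
      · exact key _ (if_neg hi).symm (g1.isL _).mem_Lf
    · rw [gsU_eq hli]
      refine Eq.trans ?_ (mk_eta (p s).w)
      refine mk_congr (p s).isL.foot_eq.symm ?_
      have g4 : InnerProductSpace.gramSchmidt ℝ (tvs (p s).v (rawf (p s).w (fun i => W i s) k)) 0 =
          tvs (p s).v (rawf (p s).w (fun i => W i s) k) 0 := InnerProductSpace.gramSchmidt_bot ℝ _
      have g5 : ‖tvs (p s).v (rawf (p s).w (fun i => W i s) k) 0‖ = 1 := by
        have g6 : nm (foot (p s).w) (vec' (p s).w) = 1 := nm_vec' (p s).w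
        rw [(p s).isL.foot_eq] at g6
        exact g6
      have g7 : gsv (p s).v (rawf (p s).w (fun i => W i s) k) 0 =
          tvs (p s).v (rawf (p s).w (fun i => W i s) k) 0 := by
        rw [gsv, InnerProductSpace.gramSchmidtNormed, g4, g5]
        simp
      exact g7
  obtain ⟨f0, hf0⟩ : ∃ f0 : Fr e D 3, True := ⟨⟨((p x).v, W₀), hW₀⟩, trivial⟩
  let f : E' → Fr e D 3 := fun s =>
    if h : IsLF e D (p s).v (gsU (p s).v (rawf (p s).w (fun i => W i s) k)) then
      ⟨((p s).v, gsU (p s).v (rawf (p s).w (fun i => W i s) k)), h⟩ else f0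
  have hf : ∀ᶠ s in 𝓝 x, (f s).v = (p s).v ∧
      (∀ i, (f s).W i = gsU (p s).v (rawf (p s).w (fun i => W i s) k) i) ∧
      (f s).W 0 = (p s).w := by
    filter_upwards [hlf] with s hs
    have h4 : f s = ⟨((p s).v, gsU (p s).v (rawf (p s).w (fun i => W i s) k)), hs.1⟩ :=
      dif_pos hs.1
    rw [h4]
    exact ⟨rfl, fun i => rfl, hs.2⟩
  have hfat : (dFr e D 3).At f x := by
    refine ⟨?_, fun i => ?_⟩
    · exact (dUT E M).congr hu (hf.mono fun s hs => hs.1.symm)
    · exact (dUT E M).congr (hat2 i) (hf.mono fun s hs => (hs.2.1 i).symm)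
  rcases lt_or_gt_of_ne (hb.ne (f x)) with h | h
  · refine ⟨fun s => flip2 F hD hB hdiam (f s), at_flip2 hfat, ?_⟩
    filter_upwards [hf, kf_eventually (F := F) (hD := hD) (hB := hB) (hdiam := hdiam) hb.deg
      hb.closed hfat] with s g1 g2
    refine ⟨g1.1, g1.2.2, ?_⟩
    rw [kf_flip2 hP hb.deg, g2]
    linarith
  · refine ⟨f, hfat, ?_⟩
    filter_upwards [hf, kf_eventually (F := F) (hD := hD) (hB := hB) (hdiam := hdiam) hb.deg
      hb.closed hfat] with s g1 g2
    refine ⟨g1.1, g1.2.2, ?_⟩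
    rw [g2]
    exact h

/-! ### the rotation -/

/-- the rotation by a right angle in the plane of the last two vectors of a frame -/
def Jf {D : ℝ} (f : Fr e D 3) : E →ₗ[ℝ] E where
  toFun a := ip (foot f.v) (vec' (f.W 1)) a • vec' (f.W 2) -
    ip (foot f.v) (vec' (f.W 2)) a • vec' (f.W 1)
  map_add' a c := by
    rw [ip_add_right', ip_add_right']
    module
  map_smul' r a := by
    rw [ip_smul_right', ip_smul_right', RingHom.id_apply]
    module

theorem Jf_apply (f : Fr e D 3) (a : E) : Jf f a = ip (foot f.v) (vec' (f.W 1)) a • vec' (f.W 2) -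
    ip (foot f.v) (vec' (f.W 2)) a • vec' (f.W 1) := rfl

theorem Ad.Jf_eq (hP : ∀ x y : M, dist x y = D → finrank ℝ (H775.Pl e D x y) = 3 + 1)
    {b : Form (dPr e D)} (hdeg : Form.IsDeg (3 - 1) b) {p : Pr e D} {f f' : Fr e D 3}
    (h : Ad F hD hB hdiam b p f) (h' : Ad F hD hB hdiam b p f') : Jf f' = Jf f := by
  obtain ⟨c, s, hcs, h1, h2⟩ := h.rot hP hdeg h'
  have hv : f'.v = f.v := h'.hv.trans h.hv.symm
  refine LinearMap.ext fun a => ?_
  rw [Jf_apply, Jf_apply, h1, h2, hv, ip_add_left', ip_add_left', ip_smul_left', ip_smul_left',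
    ip_smul_left', ip_smul_left']
  generalize ip (foot f.v) (vec' (f.W 1)) a = x
  generalize ip (foot f.v) (vec' (f.W 2)) a = y
  have h3 : (c * x + s * y) • ((-s) • vec' (f.W 1) + c • vec' (f.W 2)) -
      ((-s) * x + c * y) • (c • vec' (f.W 1) + s • vec' (f.W 2)) =
      ((c ^ 2 + s ^ 2) * x) • vec' (f.W 2) - ((c ^ 2 + s ^ 2) * y) • (vec' (f.W 1) : E) := by
    module
  rw [h3, hcs, one_mul, one_mul]

/-- existence at a point -/
theorem exists_ad_pt (F : Facts e) {D : ℝ} (hD : 0 < D) (hB : InjGE e D)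
    (hdiam : ∀ p q : M, dist p q ≤ D)
    (hP : ∀ x y : M, dist x y = D → finrank ℝ (H775.Pl e D x y) = 3 + 1)
    {b : Form (dPr e D)} (hb : Orn F hD hB hdiam (l := 3) b) (p : Pr e D) :
    ∃ f : Fr e D 3, Ad F hD hB hdiam b p f := by
  obtain ⟨f, -, hf⟩ := exists_ad F hD hB hdiam hP hb (E' := ℝ) (p := fun _ => p) (x := 0)
    ⟨at_const p.v _, at_const p.w _⟩
  exact ⟨f 0, hf.self_of_nhds⟩

section Jq

variable (F hD hB hdiam)
variable (hP : ∀ x y : M, dist x y = D → finrank ℝ (H775.Pl e D x y) = 3 + 1)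
  {b : Form (dPr e D)} (hb : Orn F hD hB hdiam (l := 3) b)

/-- an adapted frame -/
def adf (p : Pr e D) : Fr e D 3 := (exists_ad_pt F hD hB hdiam hP hb p).choose

theorem adf_spec (p : Pr e D) : Ad F hD hB hdiam b p (adf F hD hB hdiam hP hb p) :=
  (exists_ad_pt F hD hB hdiam hP hb p).choose_spec

/-- **the rotation by a right angle in the orthogonal complement of a pair in its plane** -/
def Jq (p : Pr e D) : E →ₗ[ℝ] E := Jf (adf F hD hB hdiam hP hb p)

theorem Jq_eq {p : Pr e D} {f : Fr e D 3} (h : Ad F hD hB hdiam b p f) :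
    Jq F hD hB hdiam hP hb p = Jf f := h.Jf_eq hP hb.deg (adf_spec F hD hB hdiam hP hb p)

end Jq

/-! ### algebra in an adapted frame -/

theorem Ad.ip01 {b : Form (dPr e D)} {p : Pr e D} {f : Fr e D 3}
    (h : Ad F hD hB hdiam b p f) : ip (foot p.v) (vec' p.w) (vec' (f.W 1)) = 0 := by
  rw [← h.hv, ← h.hw]
  exact f.isLF.orth 0 1 (by decide)

theorem Ad.ip02 {b : Form (dPr e D)} {p : Pr e D} {f : Fr e D 3}
    (h : Ad F hD hB hdiam b p f) : ip (foot p.v) (vec' p.w) (vec' (f.W 2)) = 0 := by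
  rw [← h.hv, ← h.hw]
  exact f.isLF.orth 0 2 (by decide)

theorem Ad.ip12 {b : Form (dPr e D)} {p : Pr e D} {f : Fr e D 3}
    (h : Ad F hD hB hdiam b p f) : ip (foot p.v) (vec' (f.W 1)) (vec' (f.W 2)) = 0 := by
  rw [← h.hv]
  exact f.isLF.orth 1 2 (by decide)

theorem Ad.ip11 {b : Form (dPr e D)} {p : Pr e D} {f : Fr e D 3}
    (h : Ad F hD hB hdiam b p f) (i : Fin 3) :
    ip (foot p.v) (vec' (f.W i)) (vec' (f.W i)) = 1 := by
  rw [← h.hv]
  exact (f.isLF.isL i).ip_self

theorem Ad.ipv {b : Form (dPr e D)} {p : Pr e D} {f : Fr e D 3}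
    (h : Ad F hD hB hdiam b p f) (i : Fin 3) :
    ip (foot p.v) (vec' p.v) (vec' (f.W i)) = 0 := by
  rw [← h.hv]
  exact (f.isLF.isL i).orth

/-- the projection to the plane in an adapted frame -/
theorem Ad.prP_eq (hP : ∀ x y : M, dist x y = D → finrank ℝ (H775.Pl e D x y) = 3 + 1)
    {b : Form (dPr e D)} {p : Pr e D} {f : Fr e D 3} (h : Ad F hD hB hdiam b p f) (a : E) :
    prP e D p.v a = ip (foot p.v) (vec' p.v) a • vec' p.v + (ip (foot p.v) (vec' p.w) a • vec' p.w +
      ip (foot p.v) (vec' (f.W 1)) a • vec' (f.W 1) +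
      ip (foot p.v) (vec' (f.W 2)) a • vec' (f.W 2)) := by
  rw [← h.hv, ← h.hw, WR.prP_eq, f.isLF.prL_eq F hD hB hdiam hP, Fin.sum_univ_three]

theorem Ad.Jf_apply' {b : Form (dPr e D)} {p : Pr e D} {f : Fr e D 3}
    (h : Ad F hD hB hdiam b p f) (a : E) :
    Jf f a = ip (foot p.v) (vec' (f.W 1)) a • vec' (f.W 2) -
      ip (foot p.v) (vec' (f.W 2)) a • vec' (f.W 1) := by
  rw [Jf_apply, h.hv]

/-- the rotation of an adapted frame is a frame -/
def rotF (F : Facts e) {D : ℝ} (hD : 0 < D) (hB : InjGE e D)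
    (hdiam : ∀ p q : M, dist p q ≤ D) (f : Fr e D 3) (t : ℝ) : Fr e D 3 :=
  ⟨(rv f.p0 t, ![rw_ f.p0 t, f.W 1, f.W 2]), by
    have h01 : ip (foot f.v) (vec' (f.W 0)) (vec' (f.W 1)) = 0 := f.isLF.orth 0 1 (by decide)
    have h02 : ip (foot f.v) (vec' (f.W 0)) (vec' (f.W 2)) = 0 := f.isLF.orth 0 2 (by decide)
    have h12 : ip (foot f.v) (vec' (f.W 1)) (vec' (f.W 2)) = 0 := f.isLF.orth 1 2 (by decide)
    have hv : ∀ i, ip (foot f.v) (vec' f.v) (vec' (f.W i)) = 0 := fun i => (f.isLF.isL i).orth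
    have a1 : ∀ i, ip (foot f.v) (vec' (f.W 0)) (vec' (f.W i)) = 0 →
        ip (foot f.v) (vec' (rv f.p0 t)) (vec' (f.W i)) = 0 := by
      intro i hi
      have h1 : vec' (rv f.p0 t) = Real.cos t • vec' f.v + Real.sin t • vec' (f.W 0) := rfl
      rw [h1, ip_add_left', ip_smul_left', ip_smul_left', hv, hi]
      ring
    have a2 : ∀ i, ip (foot f.v) (vec' (f.W 0)) (vec' (f.W i)) = 0 →
        ip (foot f.v) (vec' (rw_ f.p0 t)) (vec' (f.W i)) = 0 := by
      intro i hi
      have h1 : vec' (rw_ f.p0 t) = (-Real.sin t) • vec' f.v + Real.cos t • vec' (f.W 0) := rfl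
      rw [h1, ip_add_left', ip_smul_left', ip_smul_left', hv, hi]
      ring
    refine ⟨fun i => ?_, fun i j hij => ?_⟩
    · fin_cases i
      · exact isL_rot F hD hB hdiam f.p0 t
      · refine ⟨(f.isLF.isL 1).foot_eq, a1 1 h01, ?_⟩
        exact (f.isLF.isL 1).bar_eq.trans (bar_rv F hD hB hdiam f.p0 t).symm
      · refine ⟨(f.isLF.isL 2).foot_eq, a1 2 h02, ?_⟩
        exact (f.isLF.isL 2).bar_eq.trans (bar_rv F hD hB hdiam f.p0 t).symm
    · fin_cases i <;> fin_cases j
      · exact absurd rfl hij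
      · exact a2 1 h01
      · exact a2 2 h02
      · exact (ip_comm' _ _ _).trans (a2 1 h01)
      · exact absurd rfl hij
      · exact h12
      · exact (ip_comm' _ _ _).trans (a2 2 h02)
      · exact (ip_comm' _ _ _).trans h12
      · exact absurd rfl hij⟩

theorem at_rotF (f : Fr e D 3) (t : ℝ) :
    (dFr e D 3).At (fun t => rotF F hD hB hdiam f t) t := by
  have h1 : (dPr e D).At (fun t : ℝ => R F hD hB hdiam (f.p0, t)) t :=
    map_R F hD hB hdiam (u := fun t : ℝ => (f.p0, t))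
      ⟨⟨at_const f.v _, at_const (f.W 0) _⟩, Sm.of_contDiff contDiff_id _⟩
  refine ⟨map_v h1, fun i => ?_⟩
  fin_cases i
  · exact map_w h1
  · exact at_const _ _
  · exact at_const _ _

theorem kf_rotF {b : Form (dPr e D)} (hdeg : Form.IsDeg (3 - 1) b) (hb : b.d = 0)
    (f : Fr e D 3) (t : ℝ) :
    kf F hD hB hdiam b (rotF F hD hB hdiam f t) = kf F hD hB hdiam b f := by
  have h1 : IsLocallyConstant (fun t => kf F hD hB hdiam b (rotF F hD hB hdiam f t)) := by
    rw [IsLocallyConstant.iff_eventually_eq]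
    intro t
    exact kf_eventually (F := F) (hD := hD) (hB := hB) (hdiam := hdiam) hdeg hb (at_rotF f t)
  have h2 := h1.apply_eq_of_isPreconnected isPreconnected_univ (mem_univ t) (mem_univ 0)
  refine h2.trans ?_
  congr 1
  refine Fr.ext' (rv_zero f.p0) fun i => ?_
  fin_cases i
  · exact rw_zero f.p0
  · rfl
  · rfl

theorem Ad.rotF {b : Form (dPr e D)} (hdeg : Form.IsDeg (3 - 1) b) (hb : b.d = 0) {p : Pr e D}
    {f : Fr e D 3} (h : Ad F hD hB hdiam b p f) (t : ℝ) :
    Ad F hD hB hdiam b (R F hD hB hdiam (p, t)) (rotF F hD hB hdiam f t) := by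
  have h0 : f.p0 = p := Pr.ext' h.hv h.hw
  refine ⟨?_, ?_, ?_⟩
  · change rv f.p0 t = rv p t
    rw [h0]
  · change rw_ f.p0 t = rw_ p t
    rw [h0]
  · rw [kf_rotF hdeg hb]
    exact h.pos

section Jq2

variable (F : Facts e) {D : ℝ} (hD : 0 < D) (hB : InjGE e D) (hdiam : ∀ p q : M, dist p q ≤ D)
  (hP : ∀ x y : M, dist x y = D → finrank ℝ (H775.Pl e D x y) = 3 + 1)
  {b : Form (dPr e D)} (hb : Orn F hD hB hdiam (l := 3) b)

/-- **rotation invariance** -/
theorem Jq_R (p : Pr e D) (t : ℝ) :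
    Jq F hD hB hdiam hP hb (R F hD hB hdiam (p, t)) = Jq F hD hB hdiam hP hb p := by
  have h := adf_spec F hD hB hdiam hP hb p
  rw [Jq_eq F hD hB hdiam hP hb (h.rotF hb.deg hb.closed t), Jq_eq F hD hB hdiam hP hb h]
  rfl

theorem Jq_Jq (p : Pr e D) (a : E) :
    Jq F hD hB hdiam hP hb p (Jq F hD hB hdiam hP hb p a) =
      -(prP e D p.v a - ip (foot p.v) (vec' p.v) a • vec' p.v -
        ip (foot p.v) (vec' p.w) a • vec' p.w) := by
  have h := adf_spec F hD hB hdiam hP hb p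
  rw [Jq_eq F hD hB hdiam hP hb h, h.prP_eq hP, h.Jf_apply', h.Jf_apply', ip_sub_right',
    ip_sub_right', ip_smul_right', ip_smul_right', ip_smul_right', ip_smul_right', h.ip11,
    h.ip11, h.ip12, ip_comm' _ (vec' _) (vec' ((adf F hD hB hdiam hP hb p).W 1)), h.ip12]
  module

theorem ip_Jq (p : Pr e D) (a c : E) :
    ip (foot p.v) (Jq F hD hB hdiam hP hb p a) c = -ip (foot p.v) a (Jq F hD hB hdiam hP hb p c) := by
  have h := adf_spec F hD hB hdiam hP hb p
  rw [Jq_eq F hD hB hdiam hP hb h, h.Jf_apply', h.Jf_apply', ip_sub_left', ip_sub_right',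
    ip_smul_right', ip_smul_right', ip_smul_left', ip_smul_left', ip_comm' _ a, ip_comm' _ a]
  ring

theorem Jq_v (p : Pr e D) : Jq F hD hB hdiam hP hb p (vec' p.v) = 0 := by
  have h := adf_spec F hD hB hdiam hP hb p
  rw [Jq_eq F hD hB hdiam hP hb h, h.Jf_apply', ip_comm', h.ipv, ip_comm', h.ipv]
  module

theorem Jq_w (p : Pr e D) : Jq F hD hB hdiam hP hb p (vec' p.w) = 0 := by
  have h := adf_spec F hD hB hdiam hP hb p
  rw [Jq_eq F hD hB hdiam hP hb h, h.Jf_apply', ip_comm', h.ip01, ip_comm', h.ip02]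
  module

/-- **smoothness** -/
theorem smOp_Jq : X3.SmOp (dPr e D) (fun p => foot p.v) (fun p => foot p.v)
    (Jq F hD hB hdiam hP hb) := by
  refine ⟨?_⟩
  intro E' _ _ _ u x a hu ha
  obtain ⟨f, hf, hfa⟩ := exists_ad F hD hB hdiam hP hb hu
  have hfoot : ∀ i, ∀ᶠ s in 𝓝 x, foot ((f s).W i) = foot (u s).v := fun i =>
    hfa.mono fun s hs => ((f s).isLF.isL i).foot_eq.trans (congrArg foot hs.hv)
  have h1 : Sm (fun s => ip (foot (u s).v) (vec' ((f s).W 1)) (a s)) x :=
    sm_ip_raw (u := fun s => (u s).v) (hf.2 1) ha (hfoot 1)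
  have h2 : Sm (fun s => ip (foot (u s).v) (vec' ((f s).W 2)) (a s)) x :=
    sm_ip_raw (u := fun s => (u s).v) (hf.2 2) ha (hfoot 2)
  have h3 : (dTM E M).At (fun s => tb (foot (u s).v) (vec' ((f s).W 1))) x :=
    (dTM E M).congr (at_iff.1 (hf.2 1)) ((hfoot 1).mono fun s hs => tb_congr hs rfl)
  have h4 : (dTM E M).At (fun s => tb (foot (u s).v) (vec' ((f s).W 2))) x :=
    (dTM E M).congr (at_iff.1 (hf.2 2)) ((hfoot 2).mono fun s hs => tb_congr hs rfl)
  have h5 := at_sub_tb (at_smul_tb h1 h4) (at_smul_tb h2 h3)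
  refine (dTM E M).congr h5 ?_
  filter_upwards [hfa] with s hs
  refine tb_congr rfl ?_
  rw [Jq_eq F hD hB hdiam hP hb hs, hs.Jf_apply']

end Jq2

end

end Vale.Agent.P231.S2X
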