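import Vale.Agent.P231.H29.Pos

/-!
# P231, stage 2, ALG-X: the Chern classes of the pencil bundle on the line `y = 0`

The power sums `sig` give, by Newton's identities, the numbers `ee`; helper29's positivity theorem
applies to `(2 c) ^ j * ee j`.
-/

namespace Vale.Agent.P231.S2X

open PowerSeries Finset

noncomputable section

/-- the power sums `ρ₊^j + ρ₋^j` of the roots of `t² - 2 c t + 1` -/
def uu (c : ℝ) : ℕ → ℝ
  | 0 => 2
  | 1 => 2 * c
  | (j + 2) => 2 * c * uu c (j + 1) - uu c j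

/-- `U_j = c^j u_j` -/
def UU (c : ℝ) (j : ℕ) : ℝ := c ^ j * uu c j

theorem UU_zero (c : ℝ) : UU c 0 = 2 := by simp [UU, uu]

theorem UU_one (c : ℝ) : UU c 1 = 2 * c ^ 2 := by simp [UU, uu]; ring

theorem UU_rec (c : ℝ) (j : ℕ) : UU c (j + 2) = 2 * c ^ 2 * UU c (j + 1) - c ^ 2 * UU c j := by
  simp only [UU, uu]
  ring

/-- the even power sums of the complexified tangent bundle of `M` -/
def tau (n : ℕ) (c : ℝ) (j : ℕ) : ℝ := 2 * (n + 1) * uu c j - 2 * (4 * c) ^ j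

/-- the power sums of `X` at `y = 0`, `z = 1` -/
def sig (n : ℕ) (c : ℝ) (i : ℕ) : ℝ :=
  if i % 2 = 0 then tau n c (i / 2) / (2 * (4 * c) ^ (i / 2)) - 1
  else tau n c ((i + 1) / 2) / (4 * (4 * c) ^ ((i - 1) / 2))

theorem sig_even (n : ℕ) (c : ℝ) (j : ℕ) :
    sig n c (2 * j) = tau n c j / (2 * (4 * c) ^ j) - 1 := by
  rw [sig, if_pos (by omega), show 2 * j / 2 = j by omega]

theorem sig_odd (n : ℕ) (c : ℝ) (j : ℕ) :
    sig n c (2 * j + 1) = tau n c (j + 1) / (4 * (4 * c) ^ j) := by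
  rw [sig, if_neg (by omega), show (2 * j + 1 + 1) / 2 = j + 1 by omega,
    show (2 * j + 1 - 1) / 2 = j by omega]

/-- the Chern numbers, by Newton's identities -/
def ee (n : ℕ) (c : ℝ) : ℕ → ℝ
  | 0 => 1
  | (j + 1) => (∑ i : Fin (j + 1), (-1) ^ (i : ℕ) * sig n c (i + 1) * ee n c (j - i)) / (j + 1)
  termination_by j => j
  decreasing_by omega

theorem ee_zero (n : ℕ) (c : ℝ) : ee n c 0 = 1 := by rw [ee]

theorem ee_succ (n : ℕ) (c : ℝ) (j : ℕ) : ((j : ℝ) + 1) * ee n c (j + 1) =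
    ∑ i ∈ range (j + 1), (-1) ^ i * sig n c (i + 1) * ee n c (j - i) := by
  rw [ee, mul_div_cancel₀ _ (by positivity),
    Fin.sum_univ_eq_sum_range (fun i => (-1) ^ i * sig n c (i + 1) * ee n c (j - i)) (j + 1)]

/-- the logarithmic derivative -/
def gg (n : ℕ) (c : ℝ) (i : ℕ) : ℝ := (-1) ^ i * sig n c (i + 1) * (2 * c) ^ (i + 1)

/-- the scaled Chern numbers -/
def pp (n : ℕ) (c : ℝ) (j : ℕ) : ℝ := (2 * c) ^ j * ee n c j

theorem gg_even {c : ℝ} (hc : c ≠ 0) (n j : ℕ) :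
    gg n c (2 * j) = (n + 1) * UU c (j + 1) - (4 * c ^ 2) ^ (j + 1) := by
  have h4 : (4 * c) ^ j ≠ 0 := pow_ne_zero _ (by simpa using hc)
  rw [gg, sig_odd, tau, UU]
  have h1 : (-1 : ℝ) ^ (2 * j) = 1 := by rw [pow_mul]; simp
  rw [h1]
  have h2 : (2 * c) ^ (2 * j + 1) = (4 * c) ^ j * (c ^ j * (2 * c)) := by
    have h5 : (2 * c) ^ 2 = (4 * c) * c := by ring
    rw [pow_succ (2 * c) (2 * j), pow_mul, h5, mul_pow (4 * c) c, mul_assoc]
  rw [h2]
  have h3 : (4 * c ^ 2) ^ (j + 1) = (4 * c) ^ (j + 1) * c ^ (j + 1) := by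
    rw [← mul_pow]; ring
  rw [h3]
  field_simp
  ring

theorem gg_odd {c : ℝ} (hc : c ≠ 0) (n j : ℕ) :
    gg n c (2 * j + 1) = -((n + 1) * UU c (j + 1)) + 2 * (4 * c ^ 2) ^ (j + 1) := by
  have h4 : (4 * c) ^ (j + 1) ≠ 0 := pow_ne_zero _ (by simpa using hc)
  rw [gg, show 2 * j + 1 + 1 = 2 * (j + 1) by ring, sig_even, tau, UU]
  have h1 : (-1 : ℝ) ^ (2 * j + 1) = -1 := by rw [pow_succ, pow_mul]; simp
  rw [h1]
  have h2 : (2 * c) ^ (2 * (j + 1)) = (4 * c) ^ (j + 1) * c ^ (j + 1) := by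
    have h5 : (2 * c) ^ 2 = (4 * c) * c := by ring
    rw [pow_mul, h5, mul_pow (4 * c) c]
  rw [h2]
  have h3 : (4 * c ^ 2) ^ (j + 1) = (4 * c) ^ (j + 1) * c ^ (j + 1) := by
    rw [← mul_pow]; ring
  rw [h3]
  field_simp
  ring

theorem pp_succ (n : ℕ) (c : ℝ) (j : ℕ) : ((j : ℝ) + 1) * pp n c (j + 1) =
    ∑ i ∈ range (j + 1), gg n c i * pp n c (j - i) := by
  rw [pp, mul_left_comm, ee_succ, mul_sum]
  refine sum_congr rfl fun i hi => ?_
  have hi' : i ≤ j := by simpa [Nat.lt_succ_iff] using hi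
  rw [gg, pp]
  have h1 : (2 * c) ^ (j + 1) = (2 * c) ^ (i + 1) * (2 * c) ^ (j - i) := by
    rw [← pow_add]; congr 1; omega
  rw [h1]
  ring

/-! ### the recurrence -/

/-- coefficients of the denominator -/
def DD (c : ℝ) : PowerSeries ℝ := 1 - C (6 * c ^ 2) * X ^ 2 + C (c ^ 2 + 8 * c ^ 4) * X ^ 4 -
  C (4 * c ^ 4) * X ^ 6

/-- the numerator -/
def NN (n : ℕ) (c : ℝ) : PowerSeries ℝ :=
  C (2 * c ^ 2 * (n - 1)) * X ^ 0 + C (-(2 * c ^ 2 * (n + 1)) + 8 * c ^ 2) * X ^ 1 +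
  C (-(2 * c ^ 2 * (n + 1) * (1 + 4 * c ^ 2)) + 8 * c ^ 4) * X ^ 2 +
  C (2 * c ^ 2 * (n + 1) * (1 + 4 * c ^ 2) - 16 * c ^ 4) * X ^ 3 +
  C (8 * c ^ 4 * (n + 1) - 4 * c ^ 4) * X ^ 4 +
  C (-(8 * c ^ 4 * (n + 1)) + 8 * c ^ 4) * X ^ 5

theorem coeff_CXmul (a : ℝ) (k j : ℕ) (F : PowerSeries ℝ) :
    coeff j (C a * X ^ k * F) = if k ≤ j then a * coeff (j - k) F else 0 := by
  rw [mul_assoc, coeff_C_mul, coeff_X_pow_mul']
  split_ifs <;> simp

theorem coeff_CX (a : ℝ) (k j : ℕ) :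
    coeff j (C a * X ^ k : PowerSeries ℝ) = if j = k then a else 0 := by
  rw [coeff_C_mul, coeff_X_pow]
  split_ifs <;> simp

theorem coeff_DD_mul (c : ℝ) (j : ℕ) (F : PowerSeries ℝ) :
    coeff j (DD c * F) = coeff j F - (if 2 ≤ j then 6 * c ^ 2 * coeff (j - 2) F else 0) +
      (if 4 ≤ j then (c ^ 2 + 8 * c ^ 4) * coeff (j - 4) F else 0) -
      (if 6 ≤ j then 4 * c ^ 4 * coeff (j - 6) F else 0) := by
  have h : DD c * F = F - C (6 * c ^ 2) * X ^ 2 * F + C (c ^ 2 + 8 * c ^ 4) * X ^ 4 * F -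
    C (4 * c ^ 4) * X ^ 6 * F := by rw [DD]; ring
  rw [h, map_sub, map_add, map_sub, coeff_CXmul, coeff_CXmul, coeff_CXmul]

theorem coeff_NN_mul (n : ℕ) (c : ℝ) (j : ℕ) (F : PowerSeries ℝ) :
    coeff j (NN n c * F) = 2 * c ^ 2 * (n - 1) * coeff j F +
      (if 1 ≤ j then (-(2 * c ^ 2 * (n + 1)) + 8 * c ^ 2) * coeff (j - 1) F else 0) +
      (if 2 ≤ j then (-(2 * c ^ 2 * (n + 1) * (1 + 4 * c ^ 2)) + 8 * c ^ 4) * coeff (j - 2) F
        else 0) +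
      (if 3 ≤ j then (2 * c ^ 2 * (n + 1) * (1 + 4 * c ^ 2) - 16 * c ^ 4) * coeff (j - 3) F
        else 0) +
      (if 4 ≤ j then (8 * c ^ 4 * (n + 1) - 4 * c ^ 4) * coeff (j - 4) F else 0) +
      (if 5 ≤ j then (-(8 * c ^ 4 * (n + 1)) + 8 * c ^ 4) * coeff (j - 5) F else 0) := by
  rw [NN, add_mul, add_mul, add_mul, add_mul, add_mul, map_add, map_add, map_add, map_add,
    map_add, coeff_CXmul, coeff_CXmul, coeff_CXmul, coeff_CXmul, coeff_CXmul, coeff_CXmul,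
    if_pos (Nat.zero_le j), Nat.sub_zero]

theorem DD_mul_gg {c : ℝ} (hc : c ≠ 0) (n : ℕ) : DD c * PowerSeries.mk (gg n c) = NN n c := by
  have h0 := gg_even hc n 0
  have h1 := gg_odd hc n 0
  have h2 := gg_even hc n 1
  have h3 := gg_odd hc n 1
  have h4 := gg_even hc n 2
  have h5 := gg_odd hc n 2
  have u1 := UU_one c
  have u2 := UU_rec c 0
  have u3 := UU_rec c 1
  rw [UU_zero] at u2
  simp only [Nat.zero_add, Nat.mul_zero, Nat.mul_one, Nat.reduceAdd, Nat.reduceMul] at h0 h1 h2 h3 h4 h5 u2 u3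
  have hNN : ∀ j, coeff j (NN n c) = coeff j (NN n c * 1) := fun j => by rw [mul_one]
  ext j
  rw [coeff_DD_mul, hNN, coeff_NN_mul]
  simp only [coeff_mk, coeff_one]
  rcases Nat.lt_or_ge j 6 with hj | hj
  · interval_cases j
    · simp only [h0, u1]; norm_num; ring
    · simp only [h1, u1]; norm_num; ring
    · simp only [h0, h2, u1, u2]; norm_num; ring
    · simp only [h1, h3, u1, u2]; norm_num; ring
    · simp only [h0, h2, h4, u1, u2, u3]; norm_num; ring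
    · simp only [h1, h3, h5, u1, u2, u3]; norm_num; ring
  · obtain ⟨i, rfl⟩ : ∃ i, j = i + 6 := ⟨j - 6, by omega⟩
    have e1 : i + 6 - 2 = i + 4 := by omega
    have e2 : i + 6 - 4 = i + 2 := by omega
    have e3 : i + 6 - 6 = i := by omega
    have z1 : ¬ (i + 6 = 0) := by omega
    have z2 : ¬ (i + 6 - 1 = 0) := by omega
    have z3 : ¬ (i + 4 = 0) := by omega
    have z4 : ¬ (i + 6 - 3 = 0) := by omega
    have z5 : ¬ (i + 2 = 0) := by omega
    have z6 : ¬ (i + 6 - 5 = 0) := by omega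
    rw [if_pos (by omega), if_pos (by omega), if_pos (by omega), e1, e2, e3]
    rw [if_neg z1, if_neg z2, if_neg z3, if_neg z4, if_neg z5, if_neg z6]
    rcases Nat.even_or_odd' i with ⟨m, rfl | rfl⟩
    · rw [show 2 * m + 6 = 2 * (m + 3) by ring, show 2 * m + 4 = 2 * (m + 2) by ring,
        show 2 * m + 2 = 2 * (m + 1) by ring, gg_even hc, gg_even hc, gg_even hc, gg_even hc]
      have r1 := UU_rec c (m + 2)
      have r2 := UU_rec c (m + 1)
      rw [show m + 3 + 1 = m + 2 + 2 by ring, r1, show m + 2 + 1 = m + 1 + 2 by ring, r2]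
      simp
      ring
    · rw [show 2 * m + 1 + 6 = 2 * (m + 3) + 1 by ring, show 2 * m + 1 + 4 = 2 * (m + 2) + 1 by ring,
        show 2 * m + 1 + 2 = 2 * (m + 1) + 1 by ring, gg_odd hc, gg_odd hc, gg_odd hc, gg_odd hc]
      have r1 := UU_rec c (m + 2)
      have r2 := UU_rec c (m + 1)
      rw [show m + 3 + 1 = m + 2 + 2 by ring, r1, show m + 2 + 1 = m + 1 + 2 by ring, r2]
      simp
      ring

theorem deriv_eq (n : ℕ) (c : ℝ) : PowerSeries.mk (fun j => ((j : ℝ) + 1) * pp n c (j + 1)) =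
    PowerSeries.mk (gg n c) * PowerSeries.mk (pp n c) := by
  ext j
  rw [coeff_mk, coeff_mul, Finset.Nat.sum_antidiagonal_eq_sum_range_succ_mk, pp_succ]
  refine sum_congr rfl fun i _ => ?_
  rw [coeff_mk, coeff_mk]

/-- the scaled Chern numbers, with zeros at negative indices -/
def PZ (n : ℕ) (c : ℝ) (i : ℤ) : ℝ := if i < 0 then 0 else pp n c i.toNat

theorem PZ_nat (n : ℕ) (c : ℝ) (i : ℕ) : PZ n c i = pp n c i := by
  rw [PZ, if_neg (by omega), Int.toNat_natCast]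

theorem PZ_of (n : ℕ) (c : ℝ) {i : ℤ} {k : ℕ} (h : i = k) : PZ n c i = pp n c k := by
  rw [h, PZ_nat]

theorem PZ_neg (n : ℕ) (c : ℝ) {i : ℤ} (h : i < 0) : PZ n c i = 0 := if_pos h

/-- the recurrence of helper29 -/
theorem rec_PZ {c : ℝ} (hc : c ≠ 0) (n : ℕ) (j : ℤ) (hj : 1 ≤ j) : (j : ℝ) * PZ n c j =
    2 * ((n : ℝ) - 1) * c ^ 2 * PZ n c (j - 1) + 2 * c ^ 2 * (3 * j - n - 3) * PZ n c (j - 2)
      - (8 * n * c ^ 4 + 2 * (n + 1) * c ^ 2) * PZ n c (j - 3)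
      + (8 * c ^ 4 * (n + 3 - j) + c ^ 2 * (2 * n + 6 - j)) * PZ n c (j - 4)
      + 4 * c ^ 4 * (2 * n + 1) * PZ n c (j - 5) - 4 * c ^ 4 * (2 * n + 6 - j) * PZ n c (j - 6) := by
  obtain ⟨k, rfl⟩ : ∃ k : ℕ, j = k + 1 := ⟨(j - 1).toNat, by omega⟩
  have h := congrArg (coeff k) (congrArg (fun F => DD c * F) (deriv_eq n c))
  beta_reduce at h
  rw [← mul_assoc, DD_mul_gg hc, coeff_DD_mul, coeff_NN_mul] at h
  simp only [coeff_mk] at h
  -- translate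
  have t : ∀ i : ℕ, (if i ≤ k then pp n c (k - i) else 0) = PZ n c ((k : ℤ) - i) := by
    intro i
    split_ifs with hi
    · exact (PZ_of n c (by omega)).symm
    · exact (PZ_neg n c (by omega)).symm
  have t' : ∀ i : ℕ, 1 ≤ i → (if i ≤ k then ((((k - i : ℕ) : ℝ)) + 1) * pp n c (k - i + 1) else 0) =
      ((k : ℝ) + 1 - i) * PZ n c ((k : ℤ) + 1 - i) := by
    intro i hi1
    split_ifs with hi
    · rw [PZ_of n c (k := k - i + 1) (by omega)]
      congr 1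
      push_cast [Nat.cast_sub hi]
      ring
    · rcases Nat.lt_or_ge (k + 1) i with h2 | h2
      · rw [PZ_neg n c (by omega), mul_zero]
      · have h3 : i = k + 1 := by omega
        have h4 : (k : ℝ) + 1 - i = 0 := by rw [h3]; push_cast; ring
        rw [h4, zero_mul]
  have m1 : ∀ (i : ℕ) (a : ℝ), (if i ≤ k then a * pp n c (k - i) else 0) =
      a * PZ n c ((k : ℤ) - i) := by
    intro i a
    rw [← t i]
    split_ifs <;> simp
  have m2 : ∀ (i : ℕ) (a : ℝ), 1 ≤ i →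
      (if i ≤ k then a * (((((k - i : ℕ) : ℝ)) + 1) * pp n c (k - i + 1)) else 0) =
      a * (((k : ℝ) + 1 - i) * PZ n c ((k : ℤ) + 1 - i)) := by
    intro i a hi
    rw [← t' i hi]
    split_ifs <;> simp
  rw [m2 2 _ (by norm_num), m2 4 _ (by norm_num), m2 6 _ (by norm_num), m1 1, m1 2, m1 3, m1 4,
    m1 5] at h
  have p0 : pp n c (k + 1) = PZ n c ((k : ℤ) + 1) := (PZ_of n c (by push_cast; ring)).symm
  have p1 : pp n c k = PZ n c ((k : ℤ) + 1 - 1) := (PZ_of n c (by ring)).symm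
  rw [p0, p1] at h
  have q1 : (k : ℤ) - ((1 : ℕ) : ℤ) = (k : ℤ) + 1 - 2 := by push_cast; ring
  have q2 : (k : ℤ) - ((2 : ℕ) : ℤ) = (k : ℤ) + 1 - 3 := by push_cast; ring
  have q3 : (k : ℤ) - ((3 : ℕ) : ℤ) = (k : ℤ) + 1 - 4 := by push_cast; ring
  have q4 : (k : ℤ) - ((4 : ℕ) : ℤ) = (k : ℤ) + 1 - 5 := by push_cast; ring
  have q5 : (k : ℤ) - ((5 : ℕ) : ℤ) = (k : ℤ) + 1 - 6 := by push_cast; ring
  rw [q1, q2, q3, q4, q5] at h
  push_cast at h ⊢
  linear_combination h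

/-- **the coefficient does not vanish** -/
theorem ee_last_ne_zero {n : ℕ} (hn : 2 ≤ n) {c : ℝ} (hc : 3 ≤ |c|) : ee n c (2 * n - 1) ≠ 0 := by
  have hc0 : c ≠ 0 := by
    rintro rfl
    rw [abs_zero] at hc
    linarith
  have h := (H29.main_c n hn c hc (PZ n c) (fun i hi => PZ_neg n c hi)
    (by rw [PZ_of n c (k := 0) (by simp), pp, ee_zero, pow_zero, one_mul])
    (fun j h1 _ => rec_PZ hc0 n j h1)).2.1
  rw [PZ_of n c (k := 2 * n - 1) (by omega), pp] at h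
  intro h0
  rw [h0, mul_zero] at h
  exact lt_irrefl _ h

end

end Vale.Agent.P231.S2X
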